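import Vale.Agent.P275.H85.R1

/-!
# Complements of weighted subsets, and polynomial identities from infinitely many primes
-/

namespace Vale.Agent.P275.H85

open Finset

/-- Complement followed by reversal of the first coordinate. -/
def flipSet (a b : ℕ) : Finset (Fin a × Fin b) ≃ Finset (Fin a × Fin b) :=
  (Function.Involutive.toPerm (fun S : Finset (Fin a × Fin b) => Sᶜ) compl_involutive).trans
    (Equiv.finsetCongr (Equiv.prodCongr Fin.revPerm (Equiv.refl _)))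

theorem flipSet_card (a b : ℕ) (S : Finset (Fin a × Fin b)) :
    (flipSet a b S).card = a * b - S.card := by
  simp [flipSet, card_compl, Fintype.card_prod]

theorem flipSet_sum (a b : ℕ) (S : Finset (Fin a × Fin b)) :
    ∑ p ∈ flipSet a b S, ((p.1 : ℕ) + 1) + ∑ p ∈ Sᶜ, ((p.1 : ℕ) + 1) = (a + 1) * Sᶜ.card := by
  have h1 : ∑ p ∈ flipSet a b S, ((p.1 : ℕ) + 1) = ∑ p ∈ Sᶜ, ((Fin.rev p.1 : ℕ) + 1) := by
    simp [flipSet, Equiv.finsetCongr, sum_map]
  rw [h1, ← sum_add_distrib, mul_comm, ← smul_eq_mul, ← sum_const]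
  refine sum_congr rfl fun p _ => ?_
  have := p.1.isLt
  rw [Fin.val_rev]
  omega

theorem two_mul_total (a b : ℕ) :
    2 * ∑ p : Fin a × Fin b, ((p.1 : ℕ) + 1) = (a + 1) * (a * b) := by
  have h1 := flipSet_sum a b ∅
  have h2 : flipSet a b ∅ = univ := by
    apply eq_univ_of_card
    rw [flipSet_card]
    simp [Fintype.card_prod]
  rw [h2] at h1
  simp only [compl_empty, card_univ, Fintype.card_prod, Fintype.card_fin] at h1
  rw [two_mul]
  exact h1

theorem flip_dvd {n g : ℕ} (hn : 1 ≤ n) (S : Finset (Fin (n - 1) × Fin (2 * g - 2))) :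
    n ∣ 1 + ∑ p ∈ S, ((p.1 : ℕ) + 1) ↔
      n ∣ 1 + ∑ p ∈ flipSet (n - 1) (2 * g - 2) S, ((p.1 : ℕ) + 1) := by
  have h1 := flipSet_sum (n - 1) (2 * g - 2) S
  have h2 := two_mul_total (n - 1) (2 * g - 2)
  have h3 : ∑ p ∈ S, ((p.1 : ℕ) + 1) + ∑ p ∈ Sᶜ, ((p.1 : ℕ) + 1)
      = ∑ p : Fin (n - 1) × Fin (2 * g - 2), ((p.1 : ℕ) + 1) := sum_add_sum_compl S _
  have hn1 : n - 1 + 1 = n := by omega
  rw [hn1] at h1 h2
  have h4 : ∑ p : Fin (n - 1) × Fin (2 * g - 2), ((p.1 : ℕ) + 1) = n * ((n - 1) * (g - 1)) := by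
    have : n * ((n - 1) * (2 * g - 2)) = 2 * (n * ((n - 1) * (g - 1))) := by
      have : 2 * g - 2 = 2 * (g - 1) := by omega
      rw [this]
      ring
    omega
  rw [h4] at h3
  set A := ∑ p ∈ flipSet (n - 1) (2 * g - 2) S, ((p.1 : ℕ) + 1)
  set B := ∑ p ∈ Sᶜ, ((p.1 : ℕ) + 1)
  set C := ∑ p ∈ S, ((p.1 : ℕ) + 1)
  have key : (1 + C) + n * Sᶜ.card = (1 + A) + n * ((n - 1) * (g - 1)) := by omega
  have k1 := Nat.dvd_add_left (b := 1 + C) (dvd_mul_right n Sᶜ.card)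
  have k2 := Nat.dvd_add_left (b := 1 + A) (dvd_mul_right n ((n - 1) * (g - 1)))
  rw [← k1, key, k2]

theorem flip_sum {n g : ℕ} (hn : 1 ≤ n) {α : Type} [AddCommMonoid α] (f : ℕ → α) :
    ∑ S ∈ univ.filter (fun S : Finset (Fin (n - 1) × Fin (2 * g - 2)) =>
        n ∣ 1 + ∑ p ∈ S, ((p.1 : ℕ) + 1)), f S.card
      = ∑ S ∈ univ.filter (fun S : Finset (Fin (n - 1) × Fin (2 * g - 2)) =>
        n ∣ 1 + ∑ p ∈ S, ((p.1 : ℕ) + 1)), f ((n - 1) * (2 * g - 2) - S.card) := by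
  refine sum_equiv (flipSet (n - 1) (2 * g - 2)) (fun S => ?_) (fun S _ => ?_)
  · simp only [mem_filter, mem_univ, true_and]
    exact flip_dvd hn S
  · rw [flipSet_card]
    congr 1
    have : S.card ≤ (n - 1) * (2 * g - 2) := by
      simpa [Fintype.card_prod] using S.card_le_univ
    omega

/-- A polynomial identity that holds at the square roots of all primes `p ≡ 1 mod k`. -/
theorem poly_eq_of_primes {k : ℕ} (hk : k ≠ 0) (P Q : Polynomial ℂ)
    (h : ∀ p : ℕ, p.Prime → p ≡ 1 [MOD k] →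
      P.eval ((Real.sqrt p : ℝ) : ℂ) = Q.eval ((Real.sqrt p : ℝ) : ℂ)) : P = Q := by
  apply Polynomial.eq_of_infinite_eval_eq
  have hinf := Nat.infinite_setOfPred_prime_modEq_one hk
  have himg : (fun p : ℕ => ((Real.sqrt p : ℝ) : ℂ)) '' {p : ℕ | p.Prime ∧ p ≡ 1 [MOD k]}
      ⊆ {x | P.eval x = Q.eval x} := by
    rintro _ ⟨p, ⟨hp, hp1⟩, rfl⟩
    exact h p hp hp1
  refine Set.Infinite.mono himg (hinf.image ?_)
  intro p _ q _ hpq
  have h1 : Real.sqrt p = Real.sqrt q := by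
    simpa using hpq
  have h2 : (p : ℝ) = q := by
    have := congrArg (fun x => x ^ 2) h1
    simpa [Real.sq_sqrt] using this
  exact_mod_cast h2

/-- Apply a linear functional to an identity between integer combinations of monomials. -/
theorem functional_eq {ι κ : Type} (I : Finset ι) (J : Finset κ) (a : ι → ℤ) (e : ι → ℕ)
    (b : κ → ℤ) (e' : κ → ℕ)
    (h : ∑ i ∈ I, (Polynomial.monomial (e i) (a i : ℂ))
      = ∑ j ∈ J, (Polynomial.monomial (e' j) (b j : ℂ))) (ψ : ℕ → ℤ) :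
    ∑ i ∈ I, a i * ψ (e i) = ∑ j ∈ J, b j * ψ (e' j) := by
  have h1 := congrArg (fun P : Polynomial ℂ =>
    Polynomial.lsum (fun k => (LinearMap.mulRight ℂ ((ψ k : ℤ) : ℂ))) P) h
  simp only [map_sum] at h1
  have h2 : ∀ (n : ℕ) (c : ℂ), Polynomial.lsum (fun k => (LinearMap.mulRight ℂ ((ψ k : ℤ) : ℂ)))
      (Polynomial.monomial n c) = c * ((ψ n : ℤ) : ℂ) := by
    intro n c
    rw [Polynomial.lsum_apply, Polynomial.sum_monomial_index]
    · rfl
    · simp
  simp only [h2] at h1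
  exact_mod_cast h1

end Vale.Agent.P275.H85
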