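import Vale.Agent.P275.H85.B11

/-!
# Twists, central characters, degrees
-/

set_option linter.style.haveILetI false
set_option linter.unusedSectionVars false

namespace Vale.Agent.P275.H85

open scoped BigOperators MatrixGroups
open Module Matrix

section gen

variable {G : Type} [Group G] [Fintype G]

/-- twisting an irreducible character by a linear character -/
theorem irr_twist (η : G →* ℂˣ) {χ : G → ℂ} (h : IsIrrChar χ) :
    IsIrrChar (fun g => (η g : ℂ) * χ g) := by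
  obtain ⟨π, rfl⟩ := h
  let ρ' : Representation ℂ G π.V :=
    { toFun := fun g => (η g : ℂ) • π.ρ g
      map_one' := by rw [map_one, map_one, Units.val_one, one_smul]
      map_mul' := fun g h => by
        rw [map_mul, map_mul, Units.val_mul, smul_mul_smul_comm] }
  have hρ : (fun g => (η g : ℂ) * π.χ g) = ρ'.character := by
    funext g
    unfold Irr.χ Representation.character
    show _ = LinearMap.trace ℂ π.V ((η g : ℂ) • π.ρ g)
    rw [map_smul, smul_eq_mul]
  rw [hρ]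
  apply Pos.irr_of_norm_one
  · refine ⟨fun g h => ρ'.char_conj g h, ?_⟩
    rintro χ ⟨σ, rfl⟩
    exact ⟨_, ip_character_nat σ.ρ ρ'⟩
  · rw [← hρ]
    have h1 := ip_irr (⟨π, rfl⟩ : IsIrrChar π.χ) ⟨π, rfl⟩
    rw [if_pos rfl] at h1
    rw [← h1]
    unfold ip
    congr 1
    apply Finset.sum_congr rfl
    intro x _
    have h2 : (η x : ℂ) * (η x⁻¹ : ℂ) = 1 := by
      rw [← Units.val_mul, ← map_mul, mul_inv_cancel, map_one, Units.val_one]
    calc (η x : ℂ) * π.χ x * ((η x⁻¹ : ℂ) * π.χ x⁻¹)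
        = ((η x : ℂ) * (η x⁻¹ : ℂ)) * (π.χ x * π.χ x⁻¹) := by ring
      _ = π.χ x * π.χ x⁻¹ := by rw [h2, one_mul]

theorem ip_twist (η : G →* ℂˣ) (f g : G → ℂ) :
    ip (fun x => (η x : ℂ) * f x) (fun x => (η x : ℂ) * g x) = ip f g := by
  unfold ip
  congr 1
  apply Finset.sum_congr rfl
  intro x _
  have h2 : (η x : ℂ) * (η x⁻¹ : ℂ) = 1 := by
    rw [← Units.val_mul, ← map_mul, mul_inv_cancel, map_one, Units.val_one]
  calc (η x : ℂ) * f x * ((η x⁻¹ : ℂ) * g x⁻¹)
      = ((η x : ℂ) * (η x⁻¹ : ℂ)) * (f x * g x⁻¹) := by ring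
    _ = f x * g x⁻¹ := by rw [h2, one_mul]

/-- two positive functions with a common constituent are not orthogonal -/
theorem pos_common {f g χ : G → ℂ} (hf : Pos f) (hg : Pos g) (hχ : IsIrrChar χ)
    (h1 : ip f χ ≠ 0) (h2 : ip g χ ≠ 0) : ip f g ≠ 0 := by
  classical
  obtain ⟨a, _, ha⟩ := hf.expandN
  obtain ⟨b, _, hb⟩ := hg.expandN
  rw [ip_expand f g hf.1]
  have e1 : ∑ χ ∈ irrSet G, ip f χ * ip g χ = ((∑ χ ∈ irrSet G, a χ * b χ : ℕ) : ℂ) := by
    push_cast
    apply Finset.sum_congr rfl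
    intro χ' h
    rw [ha χ' (mem_irrSet.mp h), hb χ' (mem_irrSet.mp h)]
  rw [e1, Nat.cast_ne_zero]
  intro h0
  have h3 := Finset.sum_eq_zero_iff.mp h0 χ (mem_irrSet.mpr hχ)
  rcases Nat.mul_eq_zero.mp h3 with h4 | h4
  · apply h1
    rw [ha χ hχ, h4, Nat.cast_zero]
  · apply h2
    rw [hb χ hχ, h4, Nat.cast_zero]

/-- central characters -/
theorem exists_central {Z : Type} [Group Z] (z : Z →* G) (hz : ∀ c g, z c * g = g * z c)
    {χ : G → ℂ} (hχ : IsIrrChar χ) :
    ∃ ω : Z →* ℂˣ, ∀ c g, χ (z c * g) = (ω c : ℂ) * χ g := by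
  obtain ⟨π, rfl⟩ := hχ
  have h1 : ∀ c, ∃ a : ℂ, π.ρ (z c) = a • 1 := by
    intro c
    apply π.schur
    intro g
    rw [← map_mul, ← map_mul, hz]
  choose a ha using h1
  have hone : (1 : Module.End ℂ π.V) ≠ 0 := one_ne_zero
  have hinj : ∀ x y : ℂ, x • (1 : Module.End ℂ π.V) = y • 1 → x = y := by
    intro x y h
    exact smul_left_injective ℂ hone h
  let am : Z →* ℂ :=
    { toFun := a
      map_one' := by
        apply hinj
        rw [← ha, map_one, map_one, one_smul]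
      map_mul' := fun c d => by
        apply hinj
        rw [← ha, map_mul, map_mul, ha, ha, smul_mul_smul_comm, mul_one] }
  refine ⟨am.toHomUnits, ?_⟩
  intro c g
  rw [MonoidHom.coe_toHomUnits]
  unfold Irr.χ Representation.character
  rw [map_mul, ha, smul_mul_assoc, one_mul, map_smul, smul_eq_mul]
  rfl

end gen

variable {F : Type} [Field F] [Fintype F] [DecidableEq F]

/-- a character of the units, extended by zero -/
noncomputable def kx (κ : Fˣ →* ℂˣ) : MulChar F ℂ := MulChar.ofUnitHom κ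

/-- twist of a family -/
noncomputable def twf (κ : Fˣ →* ℂˣ) (f : CF F) : CF F := fun V _ _ _ φ =>
  kx κ (LinearMap.det φ) * f V φ

/-- the family of the character of the determinant -/
noncomputable def detf (κ : Fˣ →* ℂˣ) : CF F := fun _ _ _ _ φ => kx κ (LinearMap.det φ)

section

variable {V E : Type} [AddCommGroup V] [Module F V] [FiniteDimensional F V]
  [AddCommGroup E] [Module F E] [FiniteDimensional F E]

theorem inv_detf (κ : Fˣ →* ℂˣ) : IsoInv (detf κ) := by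
  intro V W _ _ _ _ _ _ e φ ψ h
  unfold detf
  congr 1
  rw [← LinearMap.det_conj φ e]
  congr 1
  apply LinearMap.ext
  intro w
  obtain ⟨v, rfl⟩ := e.surjective w
  simp [h]

theorem inv_twf (κ : Fˣ →* ℂˣ) {f : CF F} (hf : IsoInv f) : IsoInv (twf κ f) := by
  intro V W _ _ _ _ _ _ e φ ψ h
  show detf κ V φ * f V φ = detf κ W ψ * f W ψ
  rw [inv_detf κ _ _ e φ ψ h, hf _ _ e φ ψ h]

theorem mul_twf (κ : Fˣ →* ℂˣ) (f g : CF F) : mul (twf κ f) (twf κ g) = twf κ (mul f g) := by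
  apply CF_ext
  intro V _ _ _ φ
  unfold mul
  show _ = kx κ (LinearMap.det φ) * ∑ K : Submodule F V, term f g φ K
  rw [Finset.mul_sum]
  apply Finset.sum_congr rfl
  intro K _
  by_cases hK : K ≤ K.comap φ
  · rw [term_of hK, term_of hK]
    unfold twf
    rw [LinearMap.det_eq_det_mul_det K φ hK, map_mul]
    ring
  · rw [term_of_not hK, term_of_not hK, mul_zero]

theorem detf_blk (κ : Fˣ →* ℂˣ) (a : E →ₗ[F] E) (X : V →ₗ[F] E) (x : V →ₗ[F] V) :
    kx κ (LinearMap.det (blk a X x)) = kx κ (LinearMap.det a) * kx κ (LinearMap.det x) := by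
  have hst : (⊥ : Submodule F V).prod (⊤ : Submodule F E) ≤
      ((⊥ : Submodule F V).prod (⊤ : Submodule F E)).comap (blk a X x) := by
    rintro ⟨v, e⟩ ⟨hv, _⟩
    have : v = 0 := hv
    subst this
    exact ⟨by simp, trivial⟩
  have h1 := caseT (inv_detf κ) (inv_detf κ) a X x
  rw [term_of hst] at h1
  rw [LinearMap.det_eq_det_mul_det _ (blk a X x) hst, map_mul]
  exact h1

theorem cusp_twf (κ : Fˣ →* ℂˣ) {f : CF F} (hf : CuspB f) : CuspB (twf κ f) := by
  intro V E _ _ _ _ _ _ hV hE a x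
  have h1 : ∀ X : V →ₗ[F] E, twf κ f (V × E) (blk a X x)
      = (kx κ (LinearMap.det a) * kx κ (LinearMap.det x)) * f (V × E) (blk a X x) := by
    intro X
    rw [← detf_blk κ a X x]
    rfl
  simp only [h1]
  rw [← Finset.mul_sum, hf V E hV hE a x, mul_zero]

theorem kx_det {n : ℕ} (κ : Fˣ →* ℂˣ) (g : GL (Fin n) F) :
    kx κ (LinearMap.det (Matrix.toLin' (g : Matrix (Fin n) (Fin n) F))) = tw κ g := by
  rw [LinearMap.det_toLin']
  unfold tw kx
  have : Matrix.det (g : Matrix (Fin n) (Fin n) F) = ((Matrix.GeneralLinearGroup.det g : Fˣ) : F) := rfl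
  rw [this, MulChar.ofUnitHom_coe]

theorem rs_twf {n : ℕ} (κ : Fˣ →* ℂˣ) (f : CF F) :
    rs n (twf κ f) = fun g => tw κ g * rs n f g := by
  funext g
  show kx κ (LinearMap.det _) * _ = _
  rw [kx_det]
  rfl

theorem supp_twf {n : ℕ} (κ : Fˣ →* ℂˣ) {f : CF F} (hf : Supp n f) : Supp n (twf κ f) := by
  intro V _ _ _ φ h
  unfold twf
  rw [hf _ _ h, mul_zero]

theorem toCF_tw {n : ℕ} (κ : Fˣ →* ℂˣ) {χ : GL (Fin n) F → ℂ} (hχ : IsClass χ) :
    toCF (fun g => tw κ g * χ g) = twf κ (toCF χ) := by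
  have h1 := toCF_rs' (inv_twf κ (inv_toCF hχ)) (supp_twf κ (supp_toCF χ))
  rw [rs_twf, rs_toCF hχ] at h1
  exact h1

end

/-- the determinant character as a homomorphism -/
noncomputable def twh (n : ℕ) (κ : Fˣ →* ℂˣ) : GL (Fin n) F →* ℂˣ :=
  κ.comp Matrix.GeneralLinearGroup.det

theorem tw_eq {n : ℕ} (κ : Fˣ →* ℂˣ) (g : GL (Fin n) F) : tw κ g = (twh n κ g : ℂ) := rfl

namespace Cu

theorem mk_eq {s : ℕ} {χ χ' : GL (Fin s) F → ℂ} (h : χ = χ') (a b c a' b' c') :
    (⟨s, χ, a, b, c⟩ : Cu F) = ⟨s, χ', a', b', c'⟩ := by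
  subst h
  rfl

theorem mk_inj {s : ℕ} {χ χ' : GL (Fin s) F → ℂ} {a b c a' b' c'}
    (h : (⟨s, χ, a, b, c⟩ : Cu F) = ⟨s, χ', a', b', c'⟩) : χ = χ' := by
  injection h

theorem irr_tw {n : ℕ} (κ : Fˣ →* ℂˣ) {χ : GL (Fin n) F → ℂ} (h : IsIrrChar χ) :
    IsIrrChar (fun g => tw κ g * χ g) := by
  have := irr_twist (twh n κ) h
  simpa only [← tw_eq] using this

/-- twist of a cuspidal character -/
noncomputable def twist (κ : Fˣ →* ℂˣ) (c : Cu F) : Cu F :=
  ⟨c.s, fun g => tw κ g * c.χ g, c.pos, irr_tw κ c.irr, by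
    rw [toCF_tw κ c.irr.isClass]
    exact cusp_twf κ c.cusp⟩

theorem twist_s (κ : Fˣ →* ℂˣ) (c : Cu F) : (c.twist κ).s = c.s := rfl

theorem twist_f (κ : Fˣ →* ℂˣ) (c : Cu F) : (c.twist κ).f = twf κ c.f :=
  toCF_tw κ c.irr.isClass

theorem twist_one (c : Cu F) : c.twist 1 = c := by
  obtain ⟨s, χ, h1, h2, h3⟩ := c
  apply mk_eq
  funext g
  simp [tw]

theorem twist_twist (κ κ' : Fˣ →* ℂˣ) (c : Cu F) : (c.twist κ).twist κ' = c.twist (κ * κ') := by
  apply mk_eq
  funext g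
  show tw κ' g * (tw κ g * c.χ g) = tw (κ * κ') g * c.χ g
  simp only [tw, MonoidHom.mul_apply, Units.val_mul]
  ring

/-- equality of twists -/
theorem twist_eq_iff (κ κ' : Fˣ →* ℂˣ) (c : Cu F) :
    c.twist κ = c.twist κ' ↔ ∀ g, tw κ g * c.χ g = tw κ' g * c.χ g := by
  constructor
  · intro h g
    exact congrFun (mk_inj h) g
  · intro h
    apply mk_eq
    funext g
    exact h g

end Cu

theorem twf_one (κ : Fˣ →* ℂˣ) : twf κ (one : CF F) = one := by
  apply CF_ext
  intro V _ _ _ φ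
  unfold twf one
  split_ifs with h
  · rw [LinearMap.det_eq_one_of_finrank_eq_zero h]
    simp
  · simp

theorem prodC_twist (κ : Fˣ →* ℂˣ) (L : List (Cu F)) :
    prodC (L.map (Cu.twist κ)) = twf κ (prodC L) := by
  induction L with
  | nil => exact (twf_one κ).symm
  | cons c L ih =>
    show mul (c.twist κ).f (prodC (L.map (Cu.twist κ))) = twf κ (mul c.f (prodC L))
    rw [ih, Cu.twist_f, mul_twf]

theorem size_twist (κ : Fˣ →* ℂˣ) (L : List (Cu F)) : size (L.map (Cu.twist κ)) = size L := by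
  induction L with
  | nil => rfl
  | cons c L ih =>
    show size (L.map (Cu.twist κ)) + (c.twist κ).s = size L + c.s
    rw [ih]
    rfl

end Vale.Agent.P275.H85
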