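import Mathlib

/-!
# Finite groups: irreducible representations over the complex numbers
-/

set_option linter.style.haveILetI false
set_option linter.unusedSectionVars false

namespace Vale.Agent.P275.H85

open scoped BigOperators MonoidAlgebra

universe u

/-- A bundled irreducible complex representation of `G`. -/
structure Irr (G : Type u) [Group G] where
  V : Type u
  [acg : AddCommGroup V]
  [mod : Module ℂ V]
  [fd : FiniteDimensional ℂ V]
  ρ : Representation ℂ G V
  [irr : ρ.IsIrreducible]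

attribute [instance] Irr.acg Irr.mod Irr.fd Irr.irr

variable {G : Type u} [Group G]

namespace Irr

/-- The character. -/
noncomputable def χ (π : Irr G) (g : G) : ℂ := π.ρ.character g

instance nontrivialV (π : Irr G) : Nontrivial π.V := by
  by_contra h
  rw [not_nontrivial_iff_subsingleton] at h
  have h1 : (⊥ : Subrepresentation π.ρ) ≠ ⊤ := bot_ne_top
  apply h1
  ext x
  have : x = 0 := Subsingleton.elim _ _
  subst this
  constructor <;> intro _
  · exact Submodule.zero_mem (⊤ : Subrepresentation π.ρ).toSubmodule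
  · exact Submodule.zero_mem (⊥ : Subrepresentation π.ρ).toSubmodule

noncomputable def dim (π : Irr G) : ℕ := Module.finrank ℂ π.V

theorem dim_pos (π : Irr G) : 0 < π.dim := Module.finrank_pos

theorem χ_one (π : Irr G) : π.χ 1 = π.dim := by
  unfold χ dim
  simp

theorem χ_conj (π : Irr G) (g h : G) : π.χ (h * g * h⁻¹) = π.χ g := by
  unfold χ
  simp

theorem schur (π : Irr G) (T : Module.End ℂ π.V) (hT : ∀ g, T * π.ρ g = π.ρ g * T) :
    ∃ c : ℂ, T = c • 1 := by
  let f : Representation.IntertwiningMap π.ρ π.ρ := ⟨T, fun g => by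
    have := hT g
    ext x
    exact congrArg (fun S : Module.End ℂ π.V => S x) this⟩
  obtain ⟨c, hc⟩ := (Representation.IsIrreducible.algebraMap_intertwiningMap_bijective_of_isAlgClosed
    (ρ := π.ρ)).2 f
  refine ⟨c, ?_⟩
  have h2 : f.toLinearMap = T := rfl
  rw [← h2, ← hc]
  rfl

theorem schur' (π π' : Irr G) (T : π.V →ₗ[ℂ] π'.V) (hT : ∀ g, T ∘ₗ π.ρ g = π'.ρ g ∘ₗ T) :
    T = 0 ∨ Function.Bijective T := by
  let f : Representation.IntertwiningMap π.ρ π'.ρ := ⟨T, fun g => hT g⟩
  rcases Representation.IsIrreducible.bijective_or_eq_zero (ρ := π.ρ) (σ := π'.ρ) f with h | h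
  · right; exact h
  · left
    have h2 : f.toLinearMap = T := rfl
    rw [← h2, h]
    rfl

variable [Fintype G]

theorem card_ne : (Fintype.card G : ℂ) ≠ 0 := by
  exact_mod_cast Fintype.card_ne_zero

/-- averaging a conjugate. -/
theorem sum_conj (π : Irr G) (T : Module.End ℂ π.V) :
    ∑ g, π.ρ g * T * π.ρ g⁻¹ = ((Fintype.card G : ℂ) / π.dim * LinearMap.trace ℂ _ T) • 1 := by
  have hcomm : ∀ h, (∑ g, π.ρ g * T * π.ρ g⁻¹) * π.ρ h = π.ρ h * ∑ g, π.ρ g * T * π.ρ g⁻¹ := by
    intro h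
    rw [Finset.sum_mul, Finset.mul_sum]
    rw [← Equiv.sum_comp (Equiv.mulLeft h) (fun g => π.ρ g * T * π.ρ g⁻¹ * π.ρ h)]
    apply Finset.sum_congr rfl
    intro g _
    simp only [Equiv.coe_mulLeft, mul_inv_rev, map_mul]
    rw [show π.ρ h * π.ρ g * T * (π.ρ g⁻¹ * π.ρ h⁻¹) * π.ρ h
      = π.ρ h * (π.ρ g * T * π.ρ g⁻¹) * (π.ρ h⁻¹ * π.ρ h) by noncomm_ring]
    rw [← map_mul, inv_mul_cancel, map_one, mul_one]
  obtain ⟨c, hc⟩ := π.schur _ hcomm
  rw [hc]
  have htr : LinearMap.trace ℂ _ (∑ g, π.ρ g * T * π.ρ g⁻¹) = Fintype.card G * LinearMap.trace ℂ _ T := by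
    rw [map_sum]
    have : ∀ g, LinearMap.trace ℂ π.V (π.ρ g * T * π.ρ g⁻¹) = LinearMap.trace ℂ _ T := by
      intro g
      rw [LinearMap.trace_mul_comm, ← mul_assoc, ← map_mul, inv_mul_cancel, map_one, one_mul]
    simp [this]
  rw [hc, map_smul, LinearMap.trace_one] at htr
  have hd : (π.dim : ℂ) ≠ 0 := by exact_mod_cast π.dim_pos.ne'
  congr 1
  have h3 : c * (π.dim : ℂ) = Fintype.card G * LinearMap.trace ℂ _ T := by
    simpa [dim] using htr
  field_simp
  linear_combination h3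

theorem sum_conj' (π π' : Irr G) (hne : ¬ Nonempty (π.ρ.Equiv π'.ρ)) (T : π.V →ₗ[ℂ] π'.V) :
    ∑ g, π'.ρ g ∘ₗ T ∘ₗ π.ρ g⁻¹ = 0 := by
  have hcomm : ∀ h, (∑ g, π'.ρ g ∘ₗ T ∘ₗ π.ρ g⁻¹) ∘ₗ π.ρ h = π'.ρ h ∘ₗ ∑ g, π'.ρ g ∘ₗ T ∘ₗ π.ρ g⁻¹ := by
    intro h
    ext x
    simp only [LinearMap.comp_apply, LinearMap.sum_apply, map_sum]
    rw [← Equiv.sum_comp (Equiv.mulLeft h) (fun g => π'.ρ g (T (π.ρ g⁻¹ (π.ρ h x))))]
    apply Finset.sum_congr rfl
    intro g _
    simp only [Equiv.coe_mulLeft, mul_inv_rev, map_mul, Module.End.mul_apply]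
    have : π.ρ h⁻¹ (π.ρ h x) = x := by
      rw [← Module.End.mul_apply, ← map_mul, inv_mul_cancel, map_one]; rfl
    rw [this]
  rcases schur' π π' _ hcomm with h | h
  · exact h
  · exfalso
    apply hne
    exact ⟨Representation.Equiv.mk (LinearEquiv.ofBijective _ h) (fun g => by
      ext x
      have := hcomm g
      exact congrArg (fun S : π.V →ₗ[ℂ] π'.V => S x) this)⟩

/-- The action of a function. -/
noncomputable def act (π : Irr G) (f : G → ℂ) : Module.End ℂ π.V := ∑ g, f g • π.ρ g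

theorem act_comm (π : Irr G) (f : G → ℂ) (hf : ∀ g h, f (h * g * h⁻¹) = f g) (h : G) :
    π.act f * π.ρ h = π.ρ h * π.act f := by
  unfold act
  rw [Finset.sum_mul, Finset.mul_sum]
  rw [← Equiv.sum_comp (MulAut.conj h).toEquiv (fun g => f g • π.ρ g * π.ρ h)]
  apply Finset.sum_congr rfl
  intro g _
  simp only [MulEquiv.toEquiv_eq_coe, MulEquiv.coe_toEquiv, MulAut.conj_apply, hf]
  rw [smul_mul_assoc, mul_smul_comm, ← map_mul, ← map_mul]
  congr 2
  group

theorem act_class (π : Irr G) (f : G → ℂ) (hf : ∀ g h, f (h * g * h⁻¹) = f g) :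
    π.act f = ((∑ g, f g * π.χ g) / π.dim) • 1 := by
  obtain ⟨c, hc⟩ := π.schur _ (π.act_comm f hf)
  have htr : LinearMap.trace ℂ _ (π.act f) = ∑ g, f g * π.χ g := by
    unfold act χ
    simp [map_sum, Representation.character]
  rw [hc] at htr ⊢
  rw [map_smul, LinearMap.trace_one] at htr
  have hd : (π.dim : ℂ) ≠ 0 := by exact_mod_cast π.dim_pos.ne'
  rw [← htr]
  congr 1
  have h1 : (π.dim : ℂ) = (Module.finrank ℂ π.V : ℂ) := rfl
  rw [h1] at hd ⊢
  rw [smul_eq_mul]
  field_simp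

theorem act_mul (π : Irr G) (f g : G → ℂ) :
    π.act (fun x => ∑ y, f y * g (y⁻¹ * x)) = π.act f * π.act g := by
  unfold act
  rw [Finset.sum_mul]
  simp only [Finset.mul_sum, Finset.sum_smul]
  rw [Finset.sum_comm]
  apply Finset.sum_congr rfl
  intro y _
  rw [← Equiv.sum_comp (Equiv.mulLeft y)]
  apply Finset.sum_congr rfl
  intro x _
  simp only [Equiv.coe_mulLeft, inv_mul_cancel_left, map_mul]
  rw [smul_mul_smul_comm]

end Irr

section faithful

variable [Fintype G]

set_option backward.isDefEq.respectTransparency false in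
open Irr in
theorem faithful (f : G → ℂ) (h : ∀ π : Irr G, π.act f = 0) : f = 0 := by
  classical
  have : NeZero (Nat.card G : ℂ) := ⟨by
    rw [Nat.card_eq_fintype_card]; exact card_ne⟩
  let a : ℂ[G] := ∑ g, MonoidAlgebra.single g (f g)
  have : IsSemisimpleModule ℂ[G] ℂ[G] := by
    rw [isSemisimpleModule_iff]
    infer_instance
  have hfin : Module.Finite ℂ ℂ[G] :=
    Module.Finite.equiv (MonoidAlgebra.coeffLinearEquiv (M := G) (S := ℂ) ℂ).symm
  have key : ∀ S : Submodule ℂ[G] ℂ[G], IsSimpleModule ℂ[G] S → ∀ x ∈ S, a * x = 0 := by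
    intro S hS x hx
    have hfd : FiniteDimensional ℂ (RestrictScalars ℂ ℂ[G] S) := by
      let j : RestrictScalars ℂ ℂ[G] S →ₗ[ℂ] ℂ[G] :=
        { toFun := fun w => ((RestrictScalars.addEquiv ℂ ℂ[G] S w : S) : ℂ[G])
          map_add' := fun _ _ => rfl
          map_smul' := fun c w => by
            have := RestrictScalars.addEquiv_map_smul (R := ℂ) (S := ℂ[G]) (M := S) c w
            rw [this]
            simp [Algebra.smul_def] }
      exact Module.Finite.of_injective j (fun x y hxy => by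
        apply (RestrictScalars.addEquiv ℂ ℂ[G] S).injective
        exact Subtype.ext hxy)
    let π : Irr G := { V := RestrictScalars ℂ ℂ[G] S, ρ := Representation.ofModule (k := ℂ) (G := G) S,
                       irr := (Representation.isSimpleModule_iff_irreducible_ofModule S).mp hS }
    have h1 := h π
    have h2 : π.act f = π.ρ.asAlgebraHom a := by
      simp only [Irr.act, a, map_sum, Representation.asAlgebraHom_single]
    rw [h2] at h1
    have h3 := Representation.ofModule_asAlgebraHom_apply_apply (k := ℂ) (G := G) (M := S) a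
      ((RestrictScalars.addEquiv ℂ ℂ[G] S).symm ⟨x, hx⟩)
    have h4 : ((Representation.ofModule (k := ℂ) (G := G) S).asAlgebraHom a)
        ((RestrictScalars.addEquiv ℂ ℂ[G] S).symm ⟨x, hx⟩) = 0 := by
      have := congrArg (fun T : Module.End ℂ π.V => T ((RestrictScalars.addEquiv ℂ ℂ[G] S).symm ⟨x, hx⟩)) h1
      exact this
    have h5 : (RestrictScalars.addEquiv ℂ ℂ[G] S).symm (a • (⟨x, hx⟩ : S)) = 0 := by
      rw [← h4]
      exact h3.symm
    have h6 : a • (⟨x, hx⟩ : S) = 0 := by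
      have := congrArg (RestrictScalars.addEquiv ℂ ℂ[G] S) h5
      simpa using this
    have h7 := congrArg (fun z : S => (z : ℂ[G])) h6
    simpa using h7
  have htop := IsSemisimpleModule.sSup_simples_eq_top ℂ[G] ℂ[G]
  have hker : ∀ x : ℂ[G], a * x = 0 := by
    intro x
    have hx : x ∈ sSup { m : Submodule ℂ[G] ℂ[G] | IsSimpleModule ℂ[G] m } := by
      rw [htop]; trivial
    rw [sSup_eq_iSup] at hx
    refine Submodule.iSup_induction' (p := fun (S : Submodule ℂ[G] ℂ[G]) => ⨆ (_ : S ∈ { m : Submodule ℂ[G] ℂ[G] | IsSimpleModule ℂ[G] m }), S)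
      (motive := fun x _ => a * x = 0) ?_ ?_ ?_ hx
    · intro S x hx
      by_cases hS : IsSimpleModule ℂ[G] S
      · have : x ∈ S := by simpa [hS] using hx
        exact key S hS x this
      · have : x ∈ (⊥ : Submodule ℂ[G] ℂ[G]) := by simpa [hS] using hx
        rw [Submodule.mem_bot] at this
        rw [this, mul_zero]
    · simp
    · intro x y _ _ hx hy
      rw [mul_add, hx, hy, add_zero]
  have h1 := hker 1
  rw [mul_one] at h1
  ext g
  have := congrArg (fun z : ℂ[G] => (MonoidAlgebra.coeffLinearEquiv (M := G) (S := ℂ) ℂ z) g) h1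
  simpa [a, map_sum, Finsupp.finsetSum_apply, Finsupp.single_apply] using this

end faithful

section orth

variable [Fintype G]

/-- The bilinear pairing of functions on `G`. -/
noncomputable def ip (f g : G → ℂ) : ℂ := (Fintype.card G : ℂ)⁻¹ * ∑ x, f x * g x⁻¹

theorem ip_comm (f g : G → ℂ) : ip f g = ip g f := by
  unfold ip
  rw [← Equiv.sum_comp (Equiv.inv G)]
  simp [mul_comm]

theorem ip_add_left (f f' g : G → ℂ) : ip (f + f') g = ip f g + ip f' g := by
  unfold ip
  simp [add_mul, Finset.sum_add_distrib, mul_add]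

theorem ip_smul_left (c : ℂ) (f g : G → ℂ) : ip (c • f) g = c * ip f g := by
  unfold ip
  simp only [Pi.smul_apply, smul_eq_mul, mul_assoc, ← Finset.mul_sum]
  ring

theorem ip_sum_left {ι : Type*} (s : Finset ι) (f : ι → G → ℂ) (g : G → ℂ) :
    ip (∑ i ∈ s, f i) g = ∑ i ∈ s, ip (f i) g := by
  unfold ip
  simp only [Finset.sum_apply, Finset.sum_mul, Finset.mul_sum]
  rw [Finset.sum_comm]

theorem ip_sum_right {ι : Type*} (s : Finset ι) (f : ι → G → ℂ) (g : G → ℂ) :
    ip g (∑ i ∈ s, f i) = ∑ i ∈ s, ip g (f i) := by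
  rw [ip_comm, ip_sum_left]
  simp_rw [ip_comm]

theorem ip_sub_left (f f' g : G → ℂ) : ip (f - f') g = ip f g - ip f' g := by
  rw [sub_eq_add_neg, ip_add_left, ← neg_one_smul ℂ f', ip_smul_left]
  ring

open scoped Classical in
theorem ip_χ (π π' : Irr G) : ip π.χ π'.χ = if Nonempty (π'.ρ.Equiv π.ρ) then 1 else 0 := by
  haveI : Invertible (Nat.card G : ℂ) := invertibleOfNonzero (by
    rw [Nat.card_eq_fintype_card]; exact Irr.card_ne)
  have := Representation.char_orthonormal (k := ℂ) (G := G) π.ρ π'.ρ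
  rw [← this]
  unfold ip Irr.χ
  rw [Nat.card_eq_fintype_card]

/-- characters of irreducible representations -/
def IsIrrChar (χ : G → ℂ) : Prop := ∃ π : Irr G, π.χ = χ

theorem χ_eq_of_equiv {π π' : Irr G} (h : Nonempty (π'.ρ.Equiv π.ρ)) : π.χ = π'.χ := by
  obtain ⟨e⟩ := h
  funext g
  unfold Irr.χ
  rw [Representation.char_iso e]

open scoped Classical in
theorem ip_irr {χ χ' : G → ℂ} (h : IsIrrChar χ) (h' : IsIrrChar χ') :
    ip χ χ' = if χ = χ' then 1 else 0 := by
  obtain ⟨π, rfl⟩ := h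
  obtain ⟨π', rfl⟩ := h'
  rw [ip_χ]
  by_cases hh : Nonempty (π'.ρ.Equiv π.ρ)
  · rw [if_pos hh, if_pos (χ_eq_of_equiv hh)]
  · rw [if_neg hh, if_neg]
    intro heq
    have h1 := ip_χ π π'
    rw [if_neg hh, ← heq, ip_χ, if_pos ⟨Representation.Equiv.refl _⟩] at h1
    exact one_ne_zero h1

/-- class functions -/
def IsClass (f : G → ℂ) : Prop := ∀ g h, f (h * g * h⁻¹) = f g

theorem IsIrrChar.isClass {χ : G → ℂ} (h : IsIrrChar χ) : IsClass χ := by
  obtain ⟨π, rfl⟩ := h
  intro g h
  exact π.χ_conj g h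

theorem complete (f : G → ℂ) (hf : IsClass f) (h : ∀ χ, IsIrrChar χ → ip f χ = 0) : f = 0 := by
  have h1 : (fun g => f g⁻¹) = 0 := by
    apply faithful
    intro π
    have hc : ∀ g h, (fun g => f g⁻¹) (h * g * h⁻¹) = (fun g => f g⁻¹) g := by
      intro g h
      show f (h * g * h⁻¹)⁻¹ = f g⁻¹
      rw [← hf g⁻¹ h]
      congr 1
      group
    rw [π.act_class _ hc]
    have h2 := h _ ⟨π, rfl⟩
    unfold ip at h2
    have h3 : ∑ x, f x * π.χ x⁻¹ = 0 := by
      rcases mul_eq_zero.mp h2 with h4 | h4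
      · exact absurd h4 (inv_ne_zero Irr.card_ne)
      · exact h4
    have h4 : ∑ g, (fun g => f g⁻¹) g * π.χ g = 0 := by
      rw [← h3, ← Equiv.sum_comp (Equiv.inv G)]
      simp
    rw [h4]
    simp
  funext g
  have := congrFun h1 g⁻¹
  simpa using this

theorem linInd_irr : LinearIndependent ℂ (fun χ : {χ : G → ℂ // IsIrrChar χ} => (χ : G → ℂ)) := by
  classical
  rw [linearIndependent_iff']
  intro s c hc χ hχ
  have h1 : ip (∑ i ∈ s, c i • (i : G → ℂ)) (χ : G → ℂ) = c χ := by
    rw [ip_sum_left]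
    rw [Finset.sum_eq_single χ]
    · rw [ip_smul_left, ip_irr χ.2 χ.2, if_pos rfl, mul_one]
    · intro b _ hb
      rw [ip_smul_left, ip_irr b.2 χ.2, if_neg (fun h => hb (Subtype.ext h)), mul_zero]
    · intro h
      exact absurd hχ h
  rw [hc] at h1
  rw [← h1]
  unfold ip
  simp

theorem finite_irr : Finite {χ : G → ℂ // IsIrrChar χ} :=
  LinearIndependent.finite linInd_irr

/-- The finite set of irreducible characters. -/
noncomputable def irrSet (G : Type u) [Group G] [Fintype G] : Finset (G → ℂ) :=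
  Set.Finite.toFinset (s := {χ : G → ℂ | IsIrrChar χ}) (@Set.toFinite _ _ finite_irr)

theorem mem_irrSet {χ : G → ℂ} : χ ∈ irrSet G ↔ IsIrrChar χ := by
  unfold irrSet
  simp

theorem expand (f : G → ℂ) (hf : IsClass f) : f = ∑ χ ∈ irrSet G, ip f χ • χ := by
  classical
  rw [← sub_eq_zero]
  apply complete
  · intro g h
    simp only [Pi.sub_apply, Finset.sum_apply, Pi.smul_apply, smul_eq_mul]
    rw [hf]
    congr 1
    apply Finset.sum_congr rfl
    intro χ hχ
    rw [(mem_irrSet.mp hχ).isClass]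
  · intro χ hχ
    rw [ip_sub_left, ip_sum_left, Finset.sum_eq_single χ]
    · rw [ip_smul_left, ip_irr hχ hχ, if_pos rfl, mul_one, sub_self]
    · intro b hb hbne
      rw [ip_smul_left, ip_irr (mem_irrSet.mp hb) hχ, if_neg hbne, mul_zero]
    · intro h
      exact absurd (mem_irrSet.mpr hχ) h

theorem ip_expand (f g : G → ℂ) (hf : IsClass f) : ip f g = ∑ χ ∈ irrSet G, ip f χ * ip g χ := by
  conv_lhs => rw [expand f hf]
  rw [ip_sum_left]
  apply Finset.sum_congr rfl
  intro χ _
  rw [ip_smul_left, ip_comm χ g]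

/-- nonnegative integral combinations of irreducible characters (class functions) -/
def Pos (f : G → ℂ) : Prop := IsClass f ∧ ∀ χ, IsIrrChar χ → ∃ n : ℕ, ip f χ = n

theorem IsIrrChar.pos {χ : G → ℂ} (h : IsIrrChar χ) : Pos χ := by
  classical
  refine ⟨h.isClass, fun χ' h' => ?_⟩
  rw [ip_irr h h']
  by_cases hh : χ = χ'
  · exact ⟨1, by rw [if_pos hh]; simp⟩
  · exact ⟨0, by rw [if_neg hh]; simp⟩

theorem Pos.irr_of_norm_one {f : G → ℂ} (hf : Pos f) (h1 : ip f f = 1) : IsIrrChar f := by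
  classical
  have h2 := ip_expand f f hf.1
  rw [h1] at h2
  choose! n hn using hf.2
  have h3 : ∑ χ ∈ irrSet G, (n χ) * (n χ) = 1 := by
    have : ((∑ χ ∈ irrSet G, (n χ) * (n χ) : ℕ) : ℂ) = 1 := by
      rw [h2]
      push_cast
      apply Finset.sum_congr rfl
      intro χ hχ
      rw [hn χ (mem_irrSet.mp hχ)]
    exact_mod_cast this
  obtain ⟨χ, hχ, hχ1⟩ : ∃ χ ∈ irrSet G, n χ * n χ ≠ 0 := by
    by_contra hcon
    push Not at hcon
    rw [Finset.sum_eq_zero hcon] at h3
    exact zero_ne_one h3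
  have h4 : n χ * n χ + ∑ x ∈ (irrSet G).erase χ, n x * n x = 1 := by
    rw [Finset.add_sum_erase (irrSet G) (fun x => n x * n x) hχ]; exact h3
  have h5 : n χ * n χ = 1 ∧ ∑ x ∈ (irrSet G).erase χ, n x * n x = 0 := by omega
  have h6 : n χ = 1 := by nlinarith [h5.1]
  have h7 : f = χ := by
    rw [expand f hf.1, ← Finset.add_sum_erase (irrSet G) (fun χ => ip f χ • χ) hχ]
    rw [Finset.sum_eq_zero]
    · rw [hn χ (mem_irrSet.mp hχ), h6]; simp
    · intro x hx
      have := (Finset.sum_eq_zero_iff.mp h5.2) x hx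
      have h8 : n x = 0 := by simpa using this
      rw [hn x (mem_irrSet.mp (Finset.mem_of_mem_erase hx)), h8]
      simp
  rw [h7]
  exact mem_irrSet.mp hχ

/-- the pairing of two characters of representations is a natural number -/
theorem ip_character_nat {V W : Type u} [AddCommGroup V] [Module ℂ V] [FiniteDimensional ℂ V]
    [AddCommGroup W] [Module ℂ W] [FiniteDimensional ℂ W]
    (ρ : Representation ℂ G V) (σ : Representation ℂ G W) :
    ip σ.character ρ.character = Module.finrank ℂ (Representation.IntertwiningMap ρ σ) := by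
  haveI : Invertible (Nat.card G : ℂ) := invertibleOfNonzero (by
    rw [Nat.card_eq_fintype_card]; exact Irr.card_ne)
  rw [← Representation.card_inv_mul_sum_char_mul_char_eq_finrank, Nat.card_eq_fintype_card]
  rfl

end orth

end Vale.Agent.P275.H85
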