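import Vale.Agent.P275.H85.D1

/-!
# Package A2: a Frobenius-type formula for twisted sums over products of commutators
-/

set_option linter.style.haveILetI false
set_option linter.unusedSectionVars false

namespace Vale.Agent.P275.H85.A2

open scoped BigOperators
open D1

section lists

variable {G : Type} [Fintype G] {R : Type*} [Ring R]

theorem sum_ofFn_prod (g : ℕ) (c : Fin g → G → G → R) :
    ∑ A : Fin g → G, ∑ B : Fin g → G, (List.ofFn fun i => c i (A i) (B i)).prod =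
      (List.ofFn fun i => ∑ a, ∑ b, c i a b).prod := by
  induction g with
  | zero => simp
  | succ g ih =>
    rw [← Equiv.sum_comp (Fin.consEquiv (fun _ : Fin (g + 1) => G)), Fintype.sum_prod_type]
    rw [List.ofFn_succ, List.prod_cons, ← ih (fun i => c i.succ), Finset.sum_mul]
    apply Finset.sum_congr rfl
    intro a _
    rw [Finset.mul_sum]
    apply Finset.sum_congr rfl
    intro A _
    rw [← Equiv.sum_comp (Fin.consEquiv (fun _ : Fin (g + 1) => G)), Fintype.sum_prod_type, Finset.sum_mul]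
    apply Finset.sum_congr rfl
    intro b _
    rw [Finset.mul_sum]
    apply Finset.sum_congr rfl
    intro B _
    rw [List.ofFn_succ, List.prod_cons]
    simp [Fin.consEquiv]

end lists

variable {G : Type} [Group G] [Fintype G]

theorem ofFn_smul (π : Irr G) (g : ℕ) (w : Fin g → ℂ) (x : Fin g → G) :
    (List.ofFn fun i => w i • π.ρ (x i)).prod = (∏ i, w i) • π.ρ (List.ofFn x).prod := by
  induction g with
  | zero => simp
  | succ g ih =>
    rw [List.ofFn_succ, List.prod_cons, ih (fun i => w i.succ) (fun i => x i.succ), List.ofFn_succ, List.prod_cons,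
      Fin.prod_univ_succ, map_mul, smul_mul_smul_comm]

theorem isUnit_T (π : Irr G) (lam : G →* ℂˣ) (A : Module.End ℂ π.V) (hA : A ≠ 0)
    (h : ∀ g, A * π.ρ g = (lam g : ℂ) • (π.ρ g * A)) : IsUnit A := by
  let S : Subrepresentation π.ρ :=
    { toSubmodule := LinearMap.ker A
      apply_mem_toSubmodule := by
        intro g v hv
        rw [LinearMap.mem_ker] at hv ⊢
        have h1 := congrArg (fun T : Module.End ℂ π.V => T v) (h g)
        simp only [Module.End.mul_apply, LinearMap.smul_apply] at h1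
        rw [h1, hv, map_zero, smul_zero] }
  have hker : LinearMap.ker A = ⊥ := by
    rcases eq_bot_or_eq_top S with hS | hS
    · have : S.toSubmodule = (⊥ : Subrepresentation π.ρ).toSubmodule := by rw [hS]
      exact this
    · exfalso
      apply hA
      have h2 : S.toSubmodule = (⊤ : Subrepresentation π.ρ).toSubmodule := by rw [hS]
      have h3 : LinearMap.ker A = ⊤ := h2
      exact LinearMap.ker_eq_top.mp h3
  have hinj : Function.Injective A := LinearMap.ker_eq_bot.mp hker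
  rw [Module.End.isUnit_iff]
  exact ⟨hinj, LinearMap.injective_iff_surjective.mp hinj⟩

/-- the twisted commutator sum -/
noncomputable def CS (π : Irr G) (κ κ' : G →* ℂˣ) : Module.End ℂ π.V :=
  ∑ a, ∑ b, ((κ a : ℂ) * (κ' b : ℂ)) • π.ρ (a * b * a⁻¹ * b⁻¹)

/-- the inner twisted sum -/
noncomputable def SB (π : Irr G) (κ : G →* ℂˣ) (b : G) : Module.End ℂ π.V :=
  ∑ a, (κ a : ℂ) • (π.ρ a * π.ρ b * π.ρ a⁻¹)

theorem CS_eq (π : Irr G) (κ κ' : G →* ℂˣ) : CS π κ κ' = ∑ b, (κ' b : ℂ) • (SB π κ b * π.ρ b⁻¹) := by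
  unfold CS SB
  rw [Finset.sum_comm]
  apply Finset.sum_congr rfl
  intro b _
  rw [Finset.sum_mul, Finset.smul_sum]
  apply Finset.sum_congr rfl
  intro a _
  rw [smul_mul_assoc, smul_smul, map_mul, map_mul, map_mul, mul_comm (κ' b : ℂ)]

theorem SB_comm (π : Irr G) (κ : G →* ℂˣ) (b h : G) : SB π κ b * π.ρ h = (κ h : ℂ) • (π.ρ h * SB π κ b) := by
  unfold SB
  rw [Finset.sum_mul, Finset.mul_sum, Finset.smul_sum]
  rw [← Equiv.sum_comp (Equiv.mulLeft h)]
  apply Finset.sum_congr rfl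
  intro a _
  simp only [Equiv.coe_mulLeft]
  rw [smul_mul_assoc, mul_smul_comm, smul_smul, map_mul κ, Units.val_mul]
  congr 1
  rw [← map_mul, ← map_mul, ← map_mul, ← map_mul, ← map_mul, ← map_mul]
  congr 1
  group

theorem SB_zero (π : Irr G) (κ : G →* ℂˣ) (hκ : ¬ ∀ g, (κ g : ℂ) * π.χ g = π.χ g) (b : G) : SB π κ b = 0 := by
  by_contra hne
  exact hκ (stable_of_ne π κ (SB π κ b) hne (SB_comm π κ b))

theorem inv_T (π : Irr G) (κ : G →* ℂˣ) (T : (Module.End ℂ π.V)ˣ)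
    (hT : ∀ g, T.val * π.ρ g = (κ g : ℂ) • (π.ρ g * T.val)) (g : G) :
    π.ρ g * (T⁻¹).val = (κ g : ℂ) • ((T⁻¹).val * π.ρ g) := by
  have h1 : (T⁻¹).val * (T.val * π.ρ g) * (T⁻¹).val = (T⁻¹).val * ((κ g : ℂ) • (π.ρ g * T.val)) * (T⁻¹).val := by
    rw [hT]
  rw [← mul_assoc, Units.inv_mul, one_mul, mul_smul_comm, smul_mul_assoc, mul_assoc, mul_assoc, Units.mul_inv,
    mul_one] at h1
  exact h1

theorem SB_eq (π : Irr G) (κ : G →* ℂˣ) (T : (Module.End ℂ π.V)ˣ)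
    (hT : ∀ g, T.val * π.ρ g = (κ g : ℂ) • (π.ρ g * T.val)) (b : G) :
    SB π κ b = ((Fintype.card G : ℂ) / π.dim * LinearMap.trace ℂ _ ((T⁻¹).val * π.ρ b)) • T.val := by
  obtain ⟨c, hc⟩ := π.schur ((T⁻¹).val * SB π κ b) (by
    intro h
    rw [mul_assoc, SB_comm, mul_smul_comm, ← mul_assoc, ← smul_mul_assoc, ← inv_T π κ T hT, mul_assoc])
  have h1 : SB π κ b = c • T.val := by
    have h2 : T.val * ((T⁻¹).val * SB π κ b) = T.val * (c • 1) := by rw [hc]
    rw [← mul_assoc, Units.mul_inv, one_mul, mul_smul_comm, mul_one] at h2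
    exact h2
  have h3 : LinearMap.trace ℂ _ ((T⁻¹).val * SB π κ b) =
      (Fintype.card G : ℂ) * LinearMap.trace ℂ _ ((T⁻¹).val * π.ρ b) := by
    unfold SB
    rw [Finset.mul_sum, map_sum]
    have h4 : ∀ a : G, LinearMap.trace ℂ π.V ((T⁻¹).val * ((κ a : ℂ) • (π.ρ a * π.ρ b * π.ρ a⁻¹))) =
        LinearMap.trace ℂ _ ((T⁻¹).val * π.ρ b) := by
      intro a
      have h5 : (T⁻¹).val * ((κ a : ℂ) • (π.ρ a * π.ρ b * π.ρ a⁻¹)) = π.ρ a * ((T⁻¹).val * π.ρ b * π.ρ a⁻¹) := by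
        have h6 := inv_T π κ T hT a
        rw [mul_smul_comm, ← mul_assoc, ← mul_assoc, ← mul_assoc, ← mul_assoc, h6, smul_mul_assoc, smul_mul_assoc]
      rw [h5, LinearMap.trace_mul_comm, mul_assoc, ← map_mul π.ρ, inv_mul_cancel, map_one, mul_one]
    rw [Finset.sum_congr rfl (fun a _ => h4 a), Finset.sum_const, Finset.card_univ, nsmul_eq_mul]
  rw [hc, map_smul, LinearMap.trace_one] at h3
  rw [h1]
  congr 1
  have hd : (π.dim : ℂ) ≠ 0 := by exact_mod_cast π.dim_pos.ne'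
  have h6 : c * (π.dim : ℂ) = Fintype.card G * LinearMap.trace ℂ _ ((T⁻¹).val * π.ρ b) := by
    simpa [Irr.dim] using h3
  field_simp
  linear_combination h6

/-- the second sum -/
noncomputable def RB (π : Irr G) (κ' : G →* ℂˣ) (T : (Module.End ℂ π.V)ˣ) : Module.End ℂ π.V :=
  ∑ b, ((κ' b : ℂ) * LinearMap.trace ℂ _ ((T⁻¹).val * π.ρ b)) • π.ρ b⁻¹

theorem CS_RB (π : Irr G) (κ κ' : G →* ℂˣ) (T : (Module.End ℂ π.V)ˣ)
    (hT : ∀ g, T.val * π.ρ g = (κ g : ℂ) • (π.ρ g * T.val)) :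
    CS π κ κ' = ((Fintype.card G : ℂ) / π.dim) • (T.val * RB π κ' T) := by
  rw [CS_eq]
  unfold RB
  rw [Finset.mul_sum, Finset.smul_sum]
  apply Finset.sum_congr rfl
  intro b _
  rw [SB_eq π κ T hT, smul_mul_assoc, smul_smul, mul_smul_comm, smul_smul]
  congr 1
  ring

theorem RB_zero (π : Irr G) (κ' : G →* ℂˣ) (T : (Module.End ℂ π.V)ˣ)
    (hκ : ¬ ∀ g, (κ' g : ℂ) * π.χ g = π.χ g) : RB π κ' T = 0 := by
  have hne : ¬ Nonempty (π.ρ.Equiv (twist π κ'⁻¹).ρ) := by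
    intro h
    apply hκ
    intro g
    have h1 := congrFun (χ_eq_of_equiv h) g
    rw [twist_χ] at h1
    have h2 : ((κ'⁻¹ g : ℂˣ) : ℂ) = (κ' g : ℂ)⁻¹ := by simp
    rw [h2] at h1
    have h3 : (κ' g : ℂ) ≠ 0 := Units.ne_zero _
    conv_lhs => rw [← h1]
    rw [← mul_assoc, mul_inv_cancel₀ h3, one_mul]
  have h1 : ∑ g, LinearMap.trace ℂ π.V ((T⁻¹).val * π.ρ g⁻¹) • (((κ'⁻¹ g : ℂˣ) : ℂ) • π.ρ g) = 0 :=
    fourier_diff π (twist π κ'⁻¹) hne (T⁻¹).val
  unfold RB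
  rw [← Equiv.sum_comp (Equiv.inv G)]
  refine Eq.trans ?_ h1
  apply Finset.sum_congr rfl
  intro b _
  simp only [Equiv.inv_apply, inv_inv, map_inv, MonoidHom.inv_apply]
  rw [smul_smul, mul_comm]

theorem RB_eq (π : Irr G) (κ' : G →* ℂˣ) (T T' : (Module.End ℂ π.V)ˣ)
    (hT' : ∀ g, T'.val * π.ρ g = (κ' g : ℂ) • (π.ρ g * T'.val)) :
    RB π κ' T = ((Fintype.card G : ℂ) / π.dim) • ((T'⁻¹).val * (T⁻¹).val * T'.val) := by
  have h1 := fourier_same π (T⁻¹).val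
  have h2 : ((Fintype.card G : ℂ) / π.dim) • ((T'⁻¹).val * (T⁻¹).val * T'.val) =
      (T'⁻¹).val * (((Fintype.card G : ℂ) / π.dim) • (T⁻¹).val) * T'.val := by
    rw [mul_smul_comm, smul_mul_assoc]
  rw [h2, ← h1, Finset.mul_sum, Finset.sum_mul]
  unfold RB
  rw [← Equiv.sum_comp (Equiv.inv G)]
  apply Finset.sum_congr rfl
  intro b _
  simp only [Equiv.inv_apply, inv_inv, map_inv]
  have h3 := inv_T π κ' T' hT' b
  have h4 : (κ' b : ℂ) ≠ 0 := Units.ne_zero _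
  have h5 : (T'⁻¹).val * π.ρ b * T'.val = (κ' b : ℂ)⁻¹ • π.ρ b := by
    have h6 : (T'⁻¹).val * π.ρ b = (κ' b : ℂ)⁻¹ • (π.ρ b * (T'⁻¹).val) := by
      rw [h3, smul_smul, inv_mul_cancel₀ h4, one_smul]
    rw [h6, smul_mul_assoc, mul_assoc, Units.inv_mul, mul_one]
  rw [mul_smul_comm, smul_mul_assoc, h5, smul_smul, mul_comm]
  simp

theorem CS_zero (π : Irr G) (κ κ' : G →* ℂˣ)
    (h : ¬ ((∀ g, (κ g : ℂ) * π.χ g = π.χ g) ∧ ∀ g, (κ' g : ℂ) * π.χ g = π.χ g)) : CS π κ κ' = 0 := by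
  by_cases h1 : ∀ g, (κ g : ℂ) * π.χ g = π.χ g
  · have h2 : ¬ ∀ g, (κ' g : ℂ) * π.χ g = π.χ g := fun h2 => h ⟨h1, h2⟩
    obtain ⟨T, hT0, hT⟩ := exists_T π κ h1
    obtain ⟨u, rfl⟩ := isUnit_T π κ T hT0 hT
    rw [CS_RB π κ κ' u hT, RB_zero π κ' u h2, mul_zero, smul_zero]
  · rw [CS_eq]
    apply Finset.sum_eq_zero
    intro b _
    rw [SB_zero π κ h1, zero_mul, smul_zero]

theorem T_pow (π : Irr G) (κ : G →* ℂˣ) (T : (Module.End ℂ π.V)ˣ)
    (hT : ∀ g, T.val * π.ρ g = (κ g : ℂ) • (π.ρ g * T.val)) (a : ℕ) :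
    ∀ g, (T ^ a).val * π.ρ g = (((κ ^ a) g : ℂˣ) : ℂ) • (π.ρ g * (T ^ a).val) := by
  induction a with
  | zero => intro g; simp
  | succ a ih =>
    intro g
    have h1 := ih g
    rw [MonoidHom.pow_apply, Units.val_pow_eq_pow_val] at h1 ⊢
    rw [pow_succ T.val, mul_assoc, hT, mul_smul_comm, ← mul_assoc, h1, smul_mul_assoc, smul_smul,
      mul_assoc, pow_succ (κ g), Units.val_mul, mul_comm (κ g : ℂ)]

theorem CS_val (π : Irr G) (κ₀ : G →* ℂˣ) (h : ∀ g, (κ₀ g : ℂ) * π.χ g = π.χ g) (a b : ℕ) :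
    CS π (κ₀ ^ a) (κ₀ ^ b) = (((Fintype.card G : ℂ) / π.dim) ^ 2) • 1 := by
  obtain ⟨T, hT0, hT⟩ := exists_T π κ₀ h
  obtain ⟨u, rfl⟩ := isUnit_T π κ₀ T hT0 hT
  rw [CS_RB π _ _ (u ^ a) (T_pow π κ₀ u hT a), RB_eq π _ (u ^ a) (u ^ b) (T_pow π κ₀ u hT b), mul_smul_comm, smul_smul,
    ← pow_two]
  congr 1
  rw [← Units.val_mul, ← Units.val_mul, ← Units.val_mul, ← Units.val_one]
  congr 1
  have hc : Commute (u ^ b)⁻¹ (u ^ a)⁻¹ := ((Commute.refl u).pow_pow b a).inv_inv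
  rw [hc.eq, mul_assoc, inv_mul_cancel, mul_one, mul_inv_cancel]

/-- the set of characters stabilizing `χ` is a group -/
def stabG (χ : G → ℂ) : Subgroup (G →* ℂˣ) where
  carrier := {η | ∀ g, (η g : ℂ) * χ g = χ g}
  mul_mem' := by
    intro a b ha hb g
    rw [MonoidHom.mul_apply, Units.val_mul, mul_assoc, hb, ha]
  one_mem' := by
    intro g
    simp
  inv_mem' := by
    intro a ha g
    have h1 : (a g : ℂ) ≠ 0 := Units.ne_zero _
    rw [MonoidHom.inv_apply]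
    conv_lhs => rw [← ha g]
    rw [← mul_assoc]
    simp

theorem mem_stabG {χ : G → ℂ} {η : G →* ℂˣ} : η ∈ stabG χ ↔ ∀ g, (η g : ℂ) * χ g = χ g := Iff.rfl

end Vale.Agent.P275.H85.A2

namespace Vale.Agent.P275.H85

open A2

theorem pkgA2 : PkgA2 := by
  intro G _ _ _ g κ κ' κ₀ hκ hκ' hcl z
  classical
  set f : G → ℂ := fun z => ∑ A : Fin g → G, ∑ B : Fin g → G,
      if (List.ofFn fun i => A i * B i * (A i)⁻¹ * (B i)⁻¹).prod = z then
        ∏ i, ((κ i (A i) : ℂˣ) : ℂ) * ((κ' i (B i) : ℂˣ) : ℂ) else 0 with hf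
  -- the action of `f`
  have hact : ∀ π : Irr G, π.act f = (List.ofFn fun i => CS π (κ i) (κ' i)).prod := by
    intro π
    unfold CS
    rw [← sum_ofFn_prod g (fun i a b => ((κ i a : ℂ) * (κ' i b : ℂ)) • π.ρ (a * b * a⁻¹ * b⁻¹))]
    unfold Irr.act
    simp only [hf, Finset.sum_smul]
    rw [Finset.sum_comm]
    apply Finset.sum_congr rfl
    intro A _
    rw [Finset.sum_comm]
    apply Finset.sum_congr rfl
    intro B _
    rw [ofFn_smul π g (fun i => (κ i (A i) : ℂ) * (κ' i (B i) : ℂ)) (fun i => A i * B i * (A i)⁻¹ * (B i)⁻¹)]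
    rw [Finset.sum_eq_single (List.ofFn fun i => A i * B i * (A i)⁻¹ * (B i)⁻¹).prod]
    · rw [if_pos rfl]
    · intro x _ hx
      rw [if_neg (Ne.symm hx), zero_smul]
    · intro h; exact absurd (Finset.mem_univ _) h
  have hstab : ∀ π : Irr G, (∀ g, (κ₀ g : ℂ) * π.χ g = π.χ g) →
      π.act f = (((Fintype.card G : ℂ) / π.dim) ^ (2 * g)) • 1 := by
    intro π hπ
    rw [hact]
    have h1 : ∀ i, CS π (κ i) (κ' i) = (((Fintype.card G : ℂ) / π.dim) ^ 2) • 1 := by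
      intro i
      obtain ⟨a, ha⟩ := hκ i
      obtain ⟨b, hb⟩ := hκ' i
      rw [ha, hb]
      exact CS_val π κ₀ hπ a b
    simp only [h1]
    rw [List.ofFn_const, List.prod_replicate, smul_pow, one_pow, ← pow_mul]
  have hunst : ∀ π : Irr G, (¬ ∀ g, (κ₀ g : ℂ) * π.χ g = π.χ g) → π.act f = 0 := by
    intro π hπ
    rw [hact]
    obtain ⟨i, hi⟩ : ∃ i, ¬ ((∀ g, (κ i g : ℂ) * π.χ g = π.χ g) ∧ ∀ g, (κ' i g : ℂ) * π.χ g = π.χ g) := by
      by_contra hcon
      push Not at hcon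
      apply hπ
      have hle : Subgroup.closure (Set.range κ ∪ Set.range κ') ≤ stabG π.χ := by
        rw [Subgroup.closure_le]
        rintro η (⟨i, rfl⟩ | ⟨i, rfl⟩)
        · exact (hcon i).1
        · exact (hcon i).2
      exact hle hcl
    apply List.prod_eq_zero
    rw [List.mem_ofFn']
    exact ⟨i, CS_zero π _ _ hi⟩
  -- class function
  have hclass : IsClass f := by
    intro z h
    have hprod : ∀ x : Fin g → G, (List.ofFn fun i => h * x i * h⁻¹).prod = h * (List.ofFn x).prod * h⁻¹ := by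
      intro x
      have h1 := map_list_prod (MulAut.conj h) (List.ofFn x)
      rw [List.map_ofFn] at h1
      exact h1.symm
    simp only [hf]
    rw [← Equiv.sum_comp (Equiv.piCongrRight (fun _ : Fin g => (MulAut.conj h).toEquiv))]
    apply Finset.sum_congr rfl
    intro A _
    rw [← Equiv.sum_comp (Equiv.piCongrRight (fun _ : Fin g => (MulAut.conj h).toEquiv))]
    apply Finset.sum_congr rfl
    intro B _
    change (if (List.ofFn fun i => (h * A i * h⁻¹) * (h * B i * h⁻¹) * (h * A i * h⁻¹)⁻¹ * (h * B i * h⁻¹)⁻¹).prod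
        = h * z * h⁻¹ then ∏ i, ((κ i (h * A i * h⁻¹) : ℂˣ) : ℂ) * ((κ' i (h * B i * h⁻¹) : ℂˣ) : ℂ) else 0) = _
    have h2 : (fun i => (h * A i * h⁻¹) * (h * B i * h⁻¹) * (h * A i * h⁻¹)⁻¹ * (h * B i * h⁻¹)⁻¹) =
        (fun i => h * (A i * B i * (A i)⁻¹ * (B i)⁻¹) * h⁻¹) := by
      funext i
      group
    have h3 : ∀ (η : G →* ℂˣ) (a : G), η (h * a * h⁻¹) = η a := by
      intro η a
      rw [map_mul, map_mul, map_inv, mul_comm (η h), mul_inv_cancel_right]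
    simp only [h2, hprod, h3]
    have h4 : (h * (List.ofFn fun i => A i * B i * (A i)⁻¹ * (B i)⁻¹).prod * h⁻¹ = h * z * h⁻¹) ↔
        ((List.ofFn fun i => A i * B i * (A i)⁻¹ * (B i)⁻¹).prod = z) := by
      rw [mul_left_inj, mul_right_inj]
    simp only [h4]
  have hsum : ∀ π : Irr G, ∑ x, f x * π.χ x =
      if (∀ g, (κ₀ g : ℂ) * π.χ g = π.χ g) then (π.dim : ℂ) * ((Fintype.card G : ℂ) / π.dim) ^ (2 * g) else 0 := by
    intro π
    have h1 := π.act_class f hclass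
    have hd : (π.dim : ℂ) ≠ 0 := by exact_mod_cast π.dim_pos.ne'
    have hone : (1 : Module.End ℂ π.V) ≠ 0 := one_ne_zero
    by_cases h2 : ∀ g, (κ₀ g : ℂ) * π.χ g = π.χ g
    · rw [if_pos h2]
      rw [hstab π h2] at h1
      have h3 := smul_left_injective ℂ hone h1
      rw [h3]
      field_simp
    · rw [if_neg h2]
      rw [hunst π h2] at h1
      rcases smul_eq_zero.mp h1.symm with h3 | h3
      · rcases div_eq_zero_iff.mp h3 with h4 | h4
        · exact h4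
        · exact absurd h4 hd
      · exact absurd h3 hone
  have hclass' : IsClass (fun z => f z⁻¹) := by
    intro z h
    show f (h * z * h⁻¹)⁻¹ = f z⁻¹
    rw [← hclass z⁻¹ h]
    congr 1
    group
  have hip : ∀ χ ∈ irrSet G, ip (fun z => f z⁻¹) χ = (Fintype.card G : ℂ)⁻¹ *
      (if (∀ g, (κ₀ g : ℂ) * χ g = χ g) then ((Fintype.card G : ℂ) / χ 1) ^ (2 * g) * χ 1 else 0) := by
    intro χ hχ
    obtain ⟨π, rfl⟩ := mem_irrSet.mp hχ
    unfold ip
    congr 1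
    have h1 : ∑ x, f x⁻¹ * π.χ x⁻¹ = ∑ x, f x * π.χ x := Equiv.sum_comp (Equiv.inv G) (fun x => f x * π.χ x)
    rw [h1, hsum, π.χ_one, mul_comm (π.dim : ℂ)]
  have hexp := congrFun (expand _ hclass') z⁻¹
  simp only [inv_inv, Finset.sum_apply, Pi.smul_apply, smul_eq_mul] at hexp
  change f z = _
  rw [hexp, Finset.mul_sum, Finset.sum_filter]
  apply Finset.sum_congr rfl
  intro χ hχ
  rw [hip χ hχ]
  by_cases h2 : ∀ g, (κ₀ g : ℂ) * χ g = χ g
  · rw [if_pos h2, if_pos h2]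
    ring
  · rw [if_neg h2, if_neg h2]
    ring

end Vale.Agent.P275.H85
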