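import Vale.Agent.P275.H85.Defs

/-!
# Class functions on the linear groups over a finite field, parabolic induction
-/

set_option linter.style.haveILetI false
set_option linter.unusedSectionVars false

namespace Vale.Agent.P275.H85

open scoped BigOperators
open Module

section fin

variable (F : Type) [Field F] [Fintype F]
variable (V W : Type) [AddCommGroup V] [Module F V] [FiniteDimensional F V]
  [AddCommGroup W] [Module F W] [FiniteDimensional F W]

include F in
theorem finite_of_fd : Finite V := Module.finite_of_finite F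

noncomputable instance fintypeSub : Fintype (Submodule F V) := by
  haveI := finite_of_fd F V
  exact Fintype.ofFinite _

noncomputable instance fintypeHom : Fintype (V →ₗ[F] W) := by
  haveI := finite_of_fd F V
  haveI := finite_of_fd F W
  haveI : Finite (V →ₗ[F] W) := Module.finite_of_finite F
  exact Fintype.ofFinite _

end fin

/-- families of functions on the endomorphisms of finite dimensional spaces -/
def CF (F : Type) [Field F] : Type 1 :=
  ∀ (V : Type) [AddCommGroup V] [Module F V] [FiniteDimensional F V], (V →ₗ[F] V) → ℂ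

variable {F : Type} [Field F] [Fintype F]

/-- invariance under isomorphism -/
def IsoInv (f : CF F) : Prop :=
  ∀ (V W : Type) [AddCommGroup V] [Module F V] [FiniteDimensional F V]
    [AddCommGroup W] [Module F W] [FiniteDimensional F W] (e : V ≃ₗ[F] W)
    (φ : V →ₗ[F] V) (ψ : W →ₗ[F] W), (∀ v, e (φ v) = ψ (e v)) → f V φ = f W ψ

section term

variable {V W U : Type} [AddCommGroup V] [Module F V] [FiniteDimensional F V]
  [AddCommGroup W] [Module F W] [FiniteDimensional F W]
  [AddCommGroup U] [Module F U] [FiniteDimensional F U]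

open scoped Classical in
/-- the contribution of a subspace to the product -/
noncomputable def term (f g : CF F) (φ : V →ₗ[F] V) (K : Submodule F V) : ℂ :=
  if h : K ≤ K.comap φ then f K (φ.restrict h) * g (V ⧸ K) (K.mapQ K φ h) else 0

theorem term_of_not {f g : CF F} {φ : V →ₗ[F] V} {K : Submodule F V} (h : ¬ K ≤ K.comap φ) :
    term f g φ K = 0 := by
  unfold term
  rw [dif_neg h]

theorem term_of {f g : CF F} {φ : V →ₗ[F] V} {K : Submodule F V} (h : K ≤ K.comap φ) :
    term f g φ K = f K (φ.restrict h) * g (V ⧸ K) (K.mapQ K φ h) := by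
  unfold term
  rw [dif_pos h]

/-- the contribution of a subspace can be computed from an exact sequence -/
theorem term_exact {f g : CF F} (hf : IsoInv f) (hg : IsoInv g) {K : Submodule F V}
    (i : U →ₗ[F] V) (hi : Function.Injective i) (p : V →ₗ[F] W) (hp : Function.Surjective p)
    (hiK : LinearMap.range i = K) (hpK : LinearMap.ker p = K)
    (φ : V →ₗ[F] V) (φ₁ : U →ₗ[F] U) (φ₂ : W →ₗ[F] W)
    (h1 : ∀ u, i (φ₁ u) = φ (i u)) (h2 : ∀ v, p (φ v) = φ₂ (p v)) :
    term f g φ K = f U φ₁ * g W φ₂ := by
  have hst : K ≤ K.comap φ := by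
    intro v hv
    rw [← hiK] at hv
    obtain ⟨u, rfl⟩ := hv
    rw [Submodule.mem_comap, ← h1, ← hiK]
    exact ⟨_, rfl⟩
  rw [term_of hst]
  congr 1
  · symm
    apply hf _ _ ((LinearEquiv.ofInjective i hi).trans (LinearEquiv.ofEq _ _ hiK))
    intro u
    apply Subtype.ext
    simpa using h1 u
  · subst hpK
    apply hg _ _ (LinearMap.quotKerEquivOfSurjective p hp)
    intro v
    induction v using Submodule.Quotient.induction_on with
    | H v =>
      rw [Submodule.mapQ_apply]
      simp only [LinearMap.quotKerEquivOfSurjective_apply_mk]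
      exact h2 v

theorem term_stable_of_exact {K : Submodule F V}
    (p : V →ₗ[F] W) (hpK : LinearMap.ker p = K) (φ : V →ₗ[F] V) (φ₂ : W →ₗ[F] W)
    (h2 : ∀ v, p (φ v) = φ₂ (p v)) : K ≤ K.comap φ := by
  intro v hv
  rw [← hpK] at hv ⊢
  rw [Submodule.mem_comap, LinearMap.mem_ker, h2, LinearMap.mem_ker.mp hv, map_zero]

theorem term_congr {f g : CF F} (hf : IsoInv f) (hg : IsoInv g) (e : V ≃ₗ[F] W) (φ : V →ₗ[F] V)
    (ψ : W →ₗ[F] W) (h : ∀ v, e (φ v) = ψ (e v)) (K : Submodule F V) :
    term f g φ K = term f g ψ (K.map (e : V →ₗ[F] W)) := by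
  by_cases hK : K ≤ K.comap φ
  · symm
    rw [term_of hK]
    apply term_exact hf hg ((e : V →ₗ[F] W) ∘ₗ K.subtype) _ (K.mkQ ∘ₗ (e.symm : W →ₗ[F] V)) _ _ _
    · intro u
      simpa using h u
    · intro w
      have := h (e.symm w)
      rw [LinearEquiv.apply_symm_apply] at this
      simp only [LinearMap.comp_apply, LinearEquiv.coe_coe, ← this, LinearEquiv.symm_apply_apply]
      rw [Submodule.mkQ_apply, Submodule.mkQ_apply]
      rfl
    · exact e.injective.comp K.injective_subtype
    · exact K.mkQ_surjective.comp e.symm.surjective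
    · rw [LinearMap.range_comp, Submodule.range_subtype]
    · rw [LinearMap.ker_comp, Submodule.ker_mkQ]
      ext w
      simp only [Submodule.mem_comap, Submodule.mem_map, LinearEquiv.coe_coe]
      constructor
      · intro hw
        exact ⟨_, hw, by simp⟩
      · rintro ⟨v, hv, rfl⟩
        simpa using hv
  · have hU' : ¬ K.map (e : V →ₗ[F] W) ≤ (K.map (e : V →ₗ[F] W)).comap ψ := by
      intro hcon
      apply hK
      intro v hv
      have h1 : e v ∈ K.map (e : V →ₗ[F] W) := ⟨v, hv, rfl⟩
      obtain ⟨w, hw, hw2⟩ := hcon h1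
      rw [← h v] at hw2
      have : w = φ v := e.injective hw2
      rw [Submodule.mem_comap, ← this]
      exact hw
    rw [term_of_not hK, term_of_not hU']

end term

/-- The product (parabolic induction). -/
noncomputable def mul (f g : CF F) : CF F := fun V _ _ _ φ => ∑ K : Submodule F V, term f g φ K

/-- the unit -/
noncomputable def one : CF F := fun V _ _ _ _ => if finrank F V = 0 then 1 else 0

theorem inv_mul {f g : CF F} (hf : IsoInv f) (hg : IsoInv g) : IsoInv (mul f g) := by
  intro V W _ _ _ _ _ _ e φ ψ h
  unfold mul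
  rw [← Equiv.sum_comp (Submodule.orderIsoMapComap e).toEquiv]
  apply Finset.sum_congr rfl
  intro K _
  exact term_congr hf hg e φ ψ h K

theorem inv_one : IsoInv (one : CF F) := by
  intro V W _ _ _ _ _ _ e φ ψ h
  unfold one
  rw [e.finrank_eq]

end Vale.Agent.P275.H85
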