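import Vale.Agent.P275.H85.B9

/-!
# Products of cuspidal characters
-/

set_option linter.style.haveILetI false
set_option linter.unusedSectionVars false

namespace Vale.Agent.P275.H85

open scoped BigOperators MatrixGroups
open Module Matrix

variable {F : Type} [Field F] [Fintype F] [DecidableEq F]

/-- a cuspidal irreducible character -/
structure Cu (F : Type) [Field F] [Fintype F] [DecidableEq F] : Type where
  s : ℕ
  χ : GL (Fin s) F → ℂ
  pos : 0 < s
  irr : IsIrrChar χ
  cusp : CuspB (toCF χ)

namespace Cu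

/-- the family of a cuspidal character -/
noncomputable def f (c : Cu F) : CF F := toCF c.χ

theorem inv (c : Cu F) : IsoInv c.f := inv_toCF c.irr.isClass

theorem supp (c : Cu F) : Supp c.s c.f := supp_toCF c.χ

theorem rs_f (c : Cu F) : rs c.s c.f = c.χ := rs_toCF c.irr.isClass

end Cu

/-- product of a list of cuspidal characters -/
noncomputable def prodC : List (Cu F) → CF F
  | [] => one
  | c :: L => mul c.f (prodC L)

/-- total size -/
def size : List (Cu F) → ℕ
  | [] => 0
  | c :: L => size L + c.s

theorem inv_prodC : ∀ L : List (Cu F), IsoInv (prodC L)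
  | [] => inv_one
  | c :: L => inv_mul c.inv (inv_prodC L)

theorem supp_prodC : ∀ L : List (Cu F), Supp (size L) (prodC L)
  | [] => supp_one
  | c :: L => supp_mul c.supp (supp_prodC L) rfl

theorem size_append (L L' : List (Cu F)) : size (L ++ L') = size L' + size L := by
  induction L with
  | nil => rfl
  | cons c L ih =>
    show size (L ++ L') + c.s = size L' + (size L + c.s)
    rw [ih, add_assoc]

theorem prodC_append (L L' : List (Cu F)) : prodC (L ++ L') = mul (prodC L) (prodC L') := by
  induction L with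
  | nil => exact (CF_one_mul (inv_prodC L')).symm
  | cons c L ih =>
    show mul c.f (prodC (L ++ L')) = mul (mul c.f (prodC L)) (prodC L')
    rw [ih, CF_mul_assoc c.inv (inv_prodC L) (inv_prodC L')]

theorem toCF_rs' {n : ℕ} {f : CF F} (hf : IsoInv f) (hs : Supp n f) : toCF (rs n f) = f :=
  CF_ext (fun V _ _ _ φ => toCF_rs hf hs V φ)

theorem rs_one (g : GL (Fin 0) F) : rs 0 (one : CF F) g = 1 := by
  unfold rs one
  rw [if_pos (by simp)]

theorem pos_one : Pos (rs 0 (one : CF F)) := by
  refine ⟨fun g h => by rw [rs_one, rs_one], ?_⟩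
  rintro χ ⟨π, rfl⟩
  refine ⟨Module.finrank ℂ (Representation.IntertwiningMap π.ρ
    (Representation.trivial ℂ (GL (Fin 0) F) ℂ)), ?_⟩
  rw [← ip_character_nat]
  congr 1
  funext g
  rw [rs_one]
  unfold Representation.character
  have : Representation.trivial ℂ (GL (Fin 0) F) ℂ g = LinearMap.id := rfl
  rw [this, LinearMap.trace_id]
  simp

theorem pos_prodC : ∀ L : List (Cu F), Pos (rs (size L) (prodC L))
  | [] => pos_one
  | c :: L => by
    show Pos (rs (size L + c.s) (mul c.f (prodC L)))
    rw [← toCF_rs' (inv_prodC L) (supp_prodC L)]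
    exact pos_mul rfl c.irr.pos (pos_prodC L)

/-- cuspidal support -/
theorem exists_support : ∀ (n : ℕ), 0 < n → ∀ χ : GL (Fin n) F → ℂ, IsIrrChar χ →
    ∃ L : List (Cu F), size L = n ∧ ip (rs n (prodC L)) χ ≠ 0 := by
  classical
  intro n
  induction n using Nat.strong_induction_on with
  | _ n ih =>
    intro hn χ hχ
    by_cases hc : CuspB (toCF χ)
    · refine ⟨[⟨n, χ, hn, hχ, hc⟩], by simp [size], ?_⟩
      show ip (rs n (mul (toCF χ) one)) χ ≠ 0
      rw [CF_mul_one (inv_toCF hχ.isClass), rs_toCF hχ.isClass, ip_irr hχ hχ, if_pos rfl]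
      exact one_ne_zero
    · obtain ⟨e, m, hem, he, hm, α, β, hα, hβ, hne⟩ := exists_parents hχ hc
      obtain ⟨L, hL, hL'⟩ := ih e (by omega) he α hα
      obtain ⟨L2, hL2, hL2'⟩ := ih m (by omega) hm β hβ
      subst hL hL2
      refine ⟨L ++ L2, ?_, ?_⟩
      · rw [size_append, hem]
      · rw [prodC_append]
        have := con_mul hem (pos_prodC L) (pos_prodC L2) hα hβ hχ hL' hL2' hne
        rwa [toCF_rs' (inv_prodC L) (supp_prodC L), toCF_rs' (inv_prodC L2) (supp_prodC L2)] at this

end Vale.Agent.P275.H85
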