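import Vale.Agent.P275.H85.B10

/-!
# Inner products of products of cuspidal characters
-/

set_option linter.style.haveILetI false
set_option linter.unusedSectionVars false

namespace Vale.Agent.P275.H85

open scoped BigOperators MatrixGroups
open Module Matrix

variable {F : Type} [Field F] [Fintype F] [DecidableEq F]

/-- product of the duals -/
noncomputable def prodD : List (Cu F) → CF F
  | [] => one
  | c :: L => mul (dl c.f) (prodD L)

theorem inv_prodD : ∀ L : List (Cu F), IsoInv (prodD L)
  | [] => inv_one
  | c :: L => inv_mul (inv_dl c.inv) (inv_prodD L)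

theorem dl_one : dl (one : CF F) = one := by
  apply CF_ext
  intro V _ _ _ φ
  by_cases hu : IsUnit φ
  · obtain ⟨ψ, h1, h2⟩ := exists_inv hu
    rw [dl_of _ h1 h2]
    rfl
  · rw [dl_not _ hu, supp_one _ _ (Or.inr hu)]

theorem dl_prodC : ∀ L : List (Cu F), dl (prodC L) = prodD L
  | [] => dl_one
  | c :: L => by
    show dl (mul c.f (prodC L)) = mul (dl c.f) (prodD L)
    rw [← dl_prodC L]
    exact CF_ext (fun V _ _ _ φ => dl_mul _ _ V φ)

theorem Dop_one (E : Type) [AddCommGroup E] [Module F E] [FiniteDimensional F E]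
    (hE : Nontrivial E) (r : CF F) (V : Type) [AddCommGroup V] [Module F V]
    [FiniteDimensional F V] (x : V →ₗ[F] V) : Dop E r one V x = 0 := by
  unfold Dop
  apply Finset.sum_eq_zero
  intro a _
  unfold del
  rw [Finset.sum_eq_zero, mul_zero, mul_zero]
  intro X _
  unfold one
  rw [if_neg]
  rw [Module.finrank_prod]
  have : 0 < finrank F E := finrank_pos
  omega

theorem Dop_list (E : Type) [AddCommGroup E] [Module F E] [FiniteDimensional F E]
    (hE : Nontrivial E) {r : CF F} (hr : IsoInv r) (hcr : CuspB r) (L : List (Cu F)) :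
    ∀ (V : Type) [AddCommGroup V] [Module F V] [FiniteDimensional F V] (x : V →ₗ[F] V),
    Dop E r (prodD L) V x = ∑ i : Fin L.length,
      (∑ a : E →ₗ[F] E, r E a * dl (L.get i).f E a) * prodD (L.eraseIdx i) V x := by
  induction L with
  | nil =>
    intro V _ _ _ x
    simp only [List.length_nil, Finset.univ_eq_empty, Finset.sum_empty]
    exact Dop_one E hE r V x
  | cons c L ih =>
    intro V _ _ _ x
    show Dop E r (mul (dl c.f) (prodD L)) V x = _
    rw [derivation (inv_dl c.inv) (inv_prodD L) hr (cusp_dl c.cusp) hcr hE x]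
    rw [mul_sum_right Finset.univ
      (fun i : Fin L.length => ∑ a : E →ₗ[F] E, r E a * dl (L.get i).f E a)
      (fun i => prodD (L.eraseIdx i)) (dl c.f) (Dop E r (prodD L)) ih x]
    simp only [List.length_cons, Fin.sum_univ_succ]
    rfl

theorem ip_cu (c c' : Cu F) [Decidable (c = c')] :
    ip (rs c.s c.f) (rs c.s c'.f) = if c = c' then 1 else 0 := by
  classical
  by_cases hs : c.s = c'.s
  · obtain ⟨s, χ, h1, h2, h3⟩ := c
    obtain ⟨s', χ', h1', h2', h3'⟩ := c'
    dsimp only at hs
    subst hs
    unfold Cu.f
    dsimp only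
    rw [rs_toCF h2.isClass, rs_toCF h2'.isClass, ip_irr h2 h2']
    simp
  · have h1 : rs c.s c'.f = 0 := by
      funext g
      unfold rs
      exact c'.supp _ _ (Or.inl (by simpa using hs))
    rw [h1, if_neg (fun h => hs (by rw [h]))]
    simp [ip]

/-- the pairing of two lists -/
noncomputable def pair (L L' : List (Cu F)) : ℂ :=
  ip (rs (size L) (prodC L)) (rs (size L) (prodC L'))

open scoped Classical in
theorem pair_cons (c : Cu F) (L L' : List (Cu F)) :
    pair (c :: L) L' = ∑ i : Fin L'.length, if c = L'.get i then pair L (L'.eraseIdx i) else 0 := by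
  have hE : Nontrivial (Fin c.s → F) := by
    haveI : Nonempty (Fin c.s) := ⟨⟨0, c.pos⟩⟩
    infer_instance
  show ip (rs (size L + c.s) (mul c.f (prodC L))) (rs (size L + c.s) (prodC L')) = _
  rw [ip_mul c.inv (inv_prodC L) (inv_prodC L') c.supp (supp_prodC L) rfl, dl_prodC]
  have h1 : ∀ x : GL (Fin (size L)) F, rs (size L) (Dop (Fin c.s → F) c.f (prodD L')) x
      = ∑ i : Fin L'.length, ((Fintype.card (GL (Fin c.s) F) : ℂ) * (if c = L'.get i then 1 else 0)) *
        rs (size L) (prodC (L'.eraseIdx i)) x⁻¹ := by
    intro x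
    unfold rs
    rw [Dop_list _ hE c.inv c.cusp]
    apply Finset.sum_congr rfl
    intro i _
    congr 1
    · rw [← ip_cu]
      unfold ip
      rw [← mul_assoc, mul_inv_cancel₀ Irr.card_ne, one_mul]
      rw [sum_end _ (fun φ hφ => by rw [c.supp _ _ (Or.inr hφ), zero_mul])]
      apply Finset.sum_congr rfl
      intro g _
      rw [← rs_dl]
      rfl
    · have := rs_dl (prodC (L'.eraseIdx i)) (size L) x
      rw [dl_prodC] at this
      exact this
  simp only [h1]
  have c1 : (Fintype.card (GL (Fin c.s) F) : ℂ) ≠ 0 := Irr.card_ne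
  simp only [Finset.mul_sum]
  rw [Finset.sum_comm]
  apply Finset.sum_congr rfl
  intro i _
  split_ifs with h
  · unfold pair ip
    rw [Finset.mul_sum]
    apply Finset.sum_congr rfl
    intro x _
    field_simp
  · simp

theorem perm_eraseIdx {α : Type*} : ∀ (L : List α) (i : Fin L.length),
    (L.get i :: L.eraseIdx i).Perm L
  | [], i => i.elim0
  | a :: L, ⟨0, _⟩ => List.Perm.refl _
  | a :: L, ⟨i + 1, h⟩ => by
    have ih := perm_eraseIdx L ⟨i, by simpa using h⟩
    show (L.get ⟨i, _⟩ :: a :: L.eraseIdx i).Perm (a :: L)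
    exact (List.Perm.swap _ _ _).trans (ih.cons a)

theorem perm_of_pair (L : List (Cu F)) : ∀ L' : List (Cu F), pair L L' ≠ 0 → L.Perm L' := by
  classical
  induction L with
  | nil =>
    intro L' h
    cases L' with
    | nil => exact List.Perm.refl _
    | cons c L' =>
      exfalso
      apply h
      have h1 : rs (size ([] : List (Cu F))) (prodC (c :: L')) = 0 := by
        funext g
        unfold rs
        apply supp_prodC (c :: L')
        left
        have := c.pos
        have h2 : size (c :: L') = size L' + c.s := rfl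
        have h3 : size ([] : List (Cu F)) = 0 := rfl
        rw [h2, h3]
        simp only [Module.finrank_fintype_fun_eq_card, Fintype.card_fin]
        omega
      unfold pair
      rw [h1]
      simp [ip]
  | cons c L ih =>
    intro L' h
    rw [pair_cons] at h
    obtain ⟨i, _, hi⟩ := Finset.exists_ne_zero_of_sum_ne_zero h
    by_cases hc : c = L'.get i
    · rw [if_pos hc] at hi
      have h1 := ih _ hi
      have h2 := perm_eraseIdx L' i
      rw [← hc] at h2
      exact (h1.cons c).trans h2
    · rw [if_neg hc] at hi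
      exact absurd rfl hi

theorem pair_nodup (L : List (Cu F)) : L.Nodup → ∀ L' : List (Cu F), L.Perm L' → pair L L' = 1 := by
  classical
  induction L with
  | nil =>
    intro _ L' h
    have h1 : L' = [] := List.Perm.nil_eq h |>.symm
    subst h1
    unfold pair ip
    show (Fintype.card (GL (Fin 0) F) : ℂ)⁻¹ * ∑ x : GL (Fin 0) F, rs 0 one x * rs 0 one x⁻¹ = 1
    simp only [rs_one, mul_one, Finset.sum_const, Finset.card_univ, nsmul_eq_mul]
    exact inv_mul_cancel₀ Irr.card_ne
  | cons c L ih =>
    intro hnd L' h
    rw [pair_cons]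
    have hnd' : L'.Nodup := h.nodup_iff.mp hnd
    obtain ⟨i, hi⟩ : ∃ i : Fin L'.length, L'.get i = c := by
      have : c ∈ L' := h.subset (List.mem_cons_self)
      exact List.get_of_mem this
    rw [Finset.sum_eq_single i]
    · rw [if_pos hi.symm]
      apply ih (List.nodup_cons.mp hnd).2
      have h2 := perm_eraseIdx L' i
      rw [hi] at h2
      exact (h.trans h2.symm).cons_inv
    · intro k _ hk
      rw [if_neg]
      intro hck
      apply hk
      exact (List.nodup_iff_injective_get.mp hnd') (by rw [← hck, hi])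
    · intro h
      exact absurd (Finset.mem_univ _) h

end Vale.Agent.P275.H85
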