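import Vale.Agent.P275.H85.B1

/-!
# Cuspidality and the derivation property
-/

set_option linter.style.haveILetI false
set_option linter.unusedSectionVars false

namespace Vale.Agent.P275.H85

open scoped BigOperators
open Module

variable {F : Type} [Field F] [Fintype F]

section blk

variable {V E Q K : Type} [AddCommGroup V] [Module F V] [FiniteDimensional F V]
  [AddCommGroup E] [Module F E] [FiniteDimensional F E]
  [AddCommGroup Q] [Module F Q] [FiniteDimensional F Q]
  [AddCommGroup K] [Module F K] [FiniteDimensional F K]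

/-- block triangular endomorphisms of `V × E` preserving `E` -/
def blk (a : E →ₗ[F] E) (X : V →ₗ[F] E) (x : V →ₗ[F] V) : V × E →ₗ[F] V × E :=
  (x ∘ₗ LinearMap.fst F V E).prod (X ∘ₗ LinearMap.fst F V E + a ∘ₗ LinearMap.snd F V E)

@[simp] theorem blk_apply (a : E →ₗ[F] E) (X : V →ₗ[F] E) (x : V →ₗ[F] V) (v : V × E) :
    blk a X x v = (x v.1, X v.1 + a v.2) := rfl

end blk

/-- cuspidality -/
def CuspB (f : CF F) : Prop :=
  ∀ (V E : Type) [AddCommGroup V] [Module F V] [FiniteDimensional F V]
    [AddCommGroup E] [Module F E] [FiniteDimensional F E], Nontrivial V → Nontrivial E →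
    ∀ (a : E →ₗ[F] E) (x : V →ₗ[F] V), ∑ X : V →ₗ[F] E, f (V × E) (blk a X x) = 0

section avg

variable {A B : Type} [AddCommGroup A] [Fintype A] [AddCommGroup B] [Fintype B]

/-- a sum vanishes if the sums over translates vanish -/
theorem sum_eq_zero_of_translates (p : B → A) (G : A → ℂ)
    (h : ∀ x, ∑ y, G (x + p y) = 0) : ∑ x, G x = 0 := by
  have h1 : ∑ x, ∑ y, G (x + p y) = 0 := Finset.sum_eq_zero fun x _ => h x
  rw [Finset.sum_comm] at h1
  have h2 : ∀ y, ∑ x, G (x + p y) = ∑ x, G x := by
    intro y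
    exact Equiv.sum_comp (Equiv.addRight (p y)) G
  simp only [h2, Finset.sum_const, Finset.card_univ, nsmul_eq_mul] at h1
  rcases mul_eq_zero.mp h1 with h3 | h3
  · exfalso
    have : Fintype.card B ≠ 0 := Fintype.card_ne_zero
    exact this (by exact_mod_cast h3)
  · exact h3

end avg

section cusp

variable {V E Q K W : Type} [AddCommGroup V] [Module F V] [FiniteDimensional F V]
  [AddCommGroup E] [Module F E] [FiniteDimensional F E]
  [AddCommGroup Q] [Module F Q] [FiniteDimensional F Q]
  [AddCommGroup K] [Module F K] [FiniteDimensional F K]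
  [AddCommGroup W] [Module F W] [FiniteDimensional F W]

/-- cuspidality for an exact sequence `0 → K → W → Q → 0`. -/
theorem cusp_exact {f : CF F} (hf : IsoInv f) (hc : CuspB f) (hK : Nontrivial K) (hQ : Nontrivial Q)
    (i : K →ₗ[F] W) (hi : Function.Injective i) (p : W →ₗ[F] Q) (hp : Function.Surjective p)
    (hip : LinearMap.range i = LinearMap.ker p) (T : W →ₗ[F] W)
    (hT : LinearMap.ker p ≤ (LinearMap.ker p).comap T) :
    ∑ N : Q →ₗ[F] K, f W (T + i ∘ₗ N ∘ₗ p) = 0 := by
  obtain ⟨s, hs⟩ := p.exists_rightInverse_of_surjective (LinearMap.range_eq_top.mpr hp)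
  have hs' : ∀ q, p (s q) = q := fun q => LinearMap.congr_fun hs q
  have hpi : ∀ k, p (i k) = 0 := by
    intro k
    rw [← LinearMap.mem_ker, ← hip]
    exact ⟨k, rfl⟩
  let θ₀ : Q × K →ₗ[F] W := s.coprod i
  have hθ : Function.Bijective θ₀ := by
    constructor
    · rw [← LinearMap.ker_eq_bot, LinearMap.ker_eq_bot']
      rintro ⟨q, k⟩ h
      have h1 : s q + i k = 0 := h
      have h2 : q = 0 := by
        have := congrArg p h1
        rw [map_add, hs', hpi, add_zero, map_zero] at this
        exact this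
      subst h2
      rw [map_zero, zero_add] at h1
      have h3 : k = 0 := hi (by rw [h1, map_zero])
      rw [h3]
      rfl
    · intro w
      have : w - s (p w) ∈ LinearMap.range i := by
        rw [hip, LinearMap.mem_ker, map_sub, hs', sub_self]
      obtain ⟨k, hk⟩ := this
      refine ⟨(p w, k), ?_⟩
      show s (p w) + i k = w
      rw [hk]
      abel
  let θ : (Q × K) ≃ₗ[F] W := LinearEquiv.ofBijective θ₀ hθ
  have hθa : ∀ z : Q × K, θ z = s z.1 + i z.2 := fun z => rfl
  -- the components of `T`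
  have hθs1 : ∀ w, (θ.symm w).1 = p w := by
    intro w
    obtain ⟨z, rfl⟩ := θ.surjective w
    rw [LinearEquiv.symm_apply_apply, hθa, map_add, hs', hpi, add_zero]
  let a : K →ₗ[F] K := LinearMap.snd F Q K ∘ₗ (θ.symm : W →ₗ[F] Q × K) ∘ₗ T ∘ₗ i
  let x : Q →ₗ[F] Q := p ∘ₗ T ∘ₗ s
  let X : Q →ₗ[F] K := LinearMap.snd F Q K ∘ₗ (θ.symm : W →ₗ[F] Q × K) ∘ₗ T ∘ₗ s
  have hpTi : ∀ k, p (T (i k)) = 0 := by
    intro k
    have : i k ∈ LinearMap.ker p := by rw [LinearMap.mem_ker, hpi]
    exact hT this
  have key : ∀ N : Q →ₗ[F] K, f W (T + i ∘ₗ N ∘ₗ p) = f (Q × K) (blk a (X + N) x) := by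
    intro N
    symm
    apply hf _ _ θ
    rintro ⟨q, k⟩
    have e1 : s (p (T (s q))) + i (X q) = T (s q) := by
      have := θ.apply_symm_apply (T (s q))
      rw [hθa, hθs1] at this
      exact this
    have e2 : i (a k) = T (i k) := by
      have := θ.apply_symm_apply (T (i k))
      rw [hθa, hθs1, hpTi, map_zero, zero_add] at this
      exact this
    have e3 : θ (blk a (X + N) x (q, k)) = s (p (T (s q))) + i (X q + N q + a k) := rfl
    rw [e3, hθa]
    simp only [LinearMap.add_apply, map_add, LinearMap.comp_apply, hs', hpi, map_zero, add_zero]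
    rw [← e2]
    nth_rw 2 [← e1]
    abel
  simp only [key]
  rw [← hc Q K hQ hK a x]
  exact Equiv.sum_comp (Equiv.addLeft X) (fun N => f (Q × K) (blk a N x))

end cusp

section term2

variable {V : Type} [AddCommGroup V] [Module F V] [FiniteDimensional F V]

theorem stable_add {T N : V →ₗ[F] V} {K : Submodule F V} (hN : LinearMap.range N ≤ K)
    (h : K ≤ K.comap T) : K ≤ K.comap (T + N) := by
  intro v hv
  rw [Submodule.mem_comap, LinearMap.add_apply]
  exact K.add_mem (h hv) (hN ⟨v, rfl⟩)

theorem stable_add_iff {T N : V →ₗ[F] V} {K : Submodule F V} (hN : LinearMap.range N ≤ K) :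
    K ≤ K.comap (T + N) ↔ K ≤ K.comap T := by
  constructor
  · intro h
    have h1 : LinearMap.range (-N) ≤ K := by
      rintro _ ⟨v, rfl⟩
      rw [LinearMap.neg_apply]
      exact K.neg_mem (hN ⟨v, rfl⟩)
    have := stable_add h1 h
    rwa [add_neg_cancel_right] at this
  · exact stable_add hN

theorem term_add {f g : CF F} {T N : V →ₗ[F] V} {K : Submodule F V}
    (hN : LinearMap.range N ≤ K) (h : K ≤ K.comap T) :
    term f g (T + N) K = f K (T.restrict h + (N.codRestrict K (fun v => hN ⟨v, rfl⟩)) ∘ₗ K.subtype)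
      * g (V ⧸ K) (K.mapQ K T h) := by
  rw [term_of (stable_add hN h)]
  congr 2
  apply LinearMap.ext
  intro v
  induction v using Submodule.Quotient.induction_on with
  | H v =>
    rw [Submodule.mapQ_apply, Submodule.mapQ_apply, LinearMap.add_apply]
    rw [Submodule.Quotient.mk_add, (Submodule.Quotient.mk_eq_zero K).mpr (hN ⟨v, rfl⟩), add_zero]

theorem term_add_of_zero {f g : CF F} {T N : V →ₗ[F] V} {K : Submodule F V}
    (hN : LinearMap.range N ≤ K) (hN2 : K ≤ LinearMap.ker N) :
    term f g (T + N) K = term f g T K := by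
  by_cases h : K ≤ K.comap T
  · rw [term_add hN h, term_of h]
    congr 2
    apply LinearMap.ext
    intro v
    apply Subtype.ext
    simp only [LinearMap.add_apply, LinearMap.comp_apply, Submodule.subtype_apply, Submodule.coe_add,
      LinearMap.codRestrict_apply]
    rw [LinearMap.mem_ker.mp (hN2 v.2), add_zero]
  · rw [term_of_not h, term_of_not (fun h' => h ((stable_add_iff hN).mp h'))]

end term2

end Vale.Agent.P275.H85
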