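import Vale.Agent.P275.H85.B2

/-!
# The derivation property
-/

set_option linter.style.haveILetI false
set_option linter.unusedSectionVars false

namespace Vale.Agent.P275.H85

open scoped BigOperators
open Module

variable {F : Type} [Field F] [Fintype F]

section cases

variable {V E : Type} [AddCommGroup V] [Module F V] [FiniteDimensional F V]
  [AddCommGroup E] [Module F E] [FiniteDimensional F E]

/-- averaged restriction -/
noncomputable def del (f : CF F) (a : E →ₗ[F] E) (x : V →ₗ[F] V) : ℂ :=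
  (Fintype.card (V →ₗ[F] E) : ℂ)⁻¹ * ∑ X : V →ₗ[F] E, f (V × E) (blk a X x)

theorem caseA {σ Z : CF F} (hσ : IsoInv σ) (hc : CuspB σ) (a : E →ₗ[F] E) (x : V →ₗ[F] V)
    (W : Submodule F (V × E)) (h1 : W.comap (LinearMap.inr F V E) ≠ ⊥)
    (h2 : W.map (LinearMap.fst F V E) ≠ ⊥) :
    ∑ X : V →ₗ[F] E, term σ Z (blk a X x) W = 0 := by
  set W₁ := W.comap (LinearMap.inr F V E) with hW₁
  set W₂ := W.map (LinearMap.fst F V E) with hW₂
  obtain ⟨r, hr⟩ := W₂.subtype.exists_leftInverse_of_injective (by rw [Submodule.ker_subtype])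
  have hr' : ∀ w : W₂, r w = w := fun w => LinearMap.congr_fun hr w
  apply sum_eq_zero_of_translates (fun N : W₂ →ₗ[F] W₁ => W₁.subtype ∘ₗ N ∘ₗ r)
  intro X
  let N' : (W₂ →ₗ[F] W₁) → (V × E →ₗ[F] V × E) := fun N =>
    LinearMap.inr F V E ∘ₗ W₁.subtype ∘ₗ N ∘ₗ r ∘ₗ LinearMap.fst F V E
  have hN' : ∀ N, LinearMap.range (N' N) ≤ W := by
    rintro N _ ⟨v, rfl⟩
    exact (N (r v.1)).2
  have hadd : ∀ N : W₂ →ₗ[F] W₁, blk a (X + W₁.subtype ∘ₗ N ∘ₗ r) x = blk a X x + N' N := by
    intro N
    apply LinearMap.ext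
    intro v
    simp only [blk_apply, LinearMap.add_apply, N', LinearMap.comp_apply, LinearMap.inr_apply,
      LinearMap.fst_apply, Prod.mk_add_mk, add_zero]
    congr 1
    abel
  simp only [hadd]
  by_cases h : W ≤ W.comap (blk a X x)
  · have e1 : ∀ N, term σ Z (blk a X x + N' N) W = _ := fun N => term_add (hN' N) h
    simp only [e1]
    rw [← Finset.sum_mul]
    convert zero_mul _ using 2
    let i : W₁ →ₗ[F] W := ((LinearMap.inr F V E).domRestrict W₁).codRestrict W (fun k => k.2)
    let p : W →ₗ[F] W₂ := ((LinearMap.fst F V E).domRestrict W).codRestrict W₂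
      (fun w => ⟨w, w.2, rfl⟩)
    have hip : LinearMap.range i = LinearMap.ker p := by
      ext w
      constructor
      · rintro ⟨k, rfl⟩
        rw [LinearMap.mem_ker]
        rfl
      · intro hw
        have hw1 : w.1.1 = 0 := congrArg Subtype.val (LinearMap.mem_ker.mp hw)
        refine ⟨⟨w.1.2, ?_⟩, ?_⟩
        · show ((0 : V), w.1.2) ∈ W
          rw [← hw1]
          exact w.2
        · apply Subtype.ext
          show ((0 : V), w.1.2) = w.1
          rw [← hw1]
    have hK : Nontrivial W₁ := Submodule.nontrivial_iff_ne_bot.mpr h1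
    have hQ : Nontrivial W₂ := Submodule.nontrivial_iff_ne_bot.mpr h2
    have := cusp_exact hσ hc hK hQ i (by
      intro u v huv
      have h3 := congrArg (fun z : W => z.1.2) huv
      exact Subtype.ext h3) p (by
      rintro ⟨_, w, hw, rfl⟩
      exact ⟨⟨w, hw⟩, rfl⟩) hip ((blk a X x).restrict h) (by
      intro w hw
      have hw1 : w.1.1 = 0 := congrArg Subtype.val (LinearMap.mem_ker.mp hw)
      rw [Submodule.mem_comap, LinearMap.mem_ker]
      apply Subtype.ext
      show x w.1.1 = 0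
      rw [hw1, map_zero])
    rw [← this]
    apply Finset.sum_congr rfl
    intro N _
    congr 2
    apply LinearMap.ext
    intro w
    apply Subtype.ext
    show ((0 : V), ((N (r w.1.1) : W₁) : E)) = ((0 : V), ((N (p w) : W₁) : E))
    have h5 := hr' (p w)
    have h6 : ((p w : W₂) : V) = w.1.1 := rfl
    rw [h6] at h5
    rw [h5]
  · apply Finset.sum_eq_zero
    intro N _
    exact term_of_not (fun h' => h ((stable_add_iff (hN' N)).mp h'))

theorem caseB {σ Z r : CF F} (hr : IsoInv r) (hc : CuspB r) (x : V →ₗ[F] V)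
    (K : Submodule F E) (h1 : K ≠ ⊥) (h2 : K ≠ ⊤) :
    ∑ a : E →ₗ[F] E, r E a * ∑ X : V →ₗ[F] E,
      term σ Z (blk a X x) ((⊥ : Submodule F V).prod K) = 0 := by
  apply sum_eq_zero_of_translates (fun N : (E ⧸ K) →ₗ[F] K => K.subtype ∘ₗ N ∘ₗ K.mkQ)
  intro a
  have e1 : ∀ N : (E ⧸ K) →ₗ[F] K, ∑ X : V →ₗ[F] E,
      term σ Z (blk (a + K.subtype ∘ₗ N ∘ₗ K.mkQ) X x) ((⊥ : Submodule F V).prod K)
      = ∑ X : V →ₗ[F] E, term σ Z (blk a X x) ((⊥ : Submodule F V).prod K) := by
    intro N
    apply Finset.sum_congr rfl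
    intro X _
    have e2 : blk (a + K.subtype ∘ₗ N ∘ₗ K.mkQ) X x = blk a X x
      + LinearMap.inr F V E ∘ₗ K.subtype ∘ₗ N ∘ₗ K.mkQ ∘ₗ LinearMap.snd F V E := by
      apply LinearMap.ext
      intro v
      simp only [blk_apply, LinearMap.add_apply, LinearMap.comp_apply, LinearMap.inr_apply,
        LinearMap.snd_apply, Prod.mk_add_mk, add_zero]
      congr 1
      abel
    rw [e2]
    apply term_add_of_zero
    · rintro _ ⟨v, rfl⟩
      exact ⟨rfl, (N (K.mkQ v.2)).2⟩
    · rintro ⟨v, e⟩ ⟨_, he⟩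
      rw [LinearMap.mem_ker]
      simp only [LinearMap.comp_apply, LinearMap.snd_apply]
      have : K.mkQ e = 0 := by
        rw [← LinearMap.mem_ker, Submodule.ker_mkQ]
        exact he
      rw [this, map_zero, map_zero, map_zero]
  simp only [e1]
  rw [← Finset.sum_mul]
  by_cases h : K ≤ K.comap a
  · rw [cusp_exact hr hc (Submodule.nontrivial_iff_ne_bot.mpr h1)
      (Submodule.Quotient.nontrivial_iff.mpr h2) K.subtype K.injective_subtype K.mkQ
      K.mkQ_surjective (by rw [Submodule.range_subtype, Submodule.ker_mkQ]) a (by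
        rw [Submodule.ker_mkQ]; exact h), zero_mul]
  · convert mul_zero _
    apply Finset.sum_eq_zero
    intro X _
    apply term_of_not
    intro h'
    apply h
    intro e he
    have h3 : ((0 : V), e) ∈ (⊥ : Submodule F V).prod K := ⟨rfl, he⟩
    have h4 := (h' h3).2
    rw [blk_apply] at h4
    simpa using h4

theorem caseT {σ Z : CF F} (hσ : IsoInv σ) (hZ : IsoInv Z) (a : E →ₗ[F] E) (X : V →ₗ[F] E)
    (x : V →ₗ[F] V) :
    term σ Z (blk a X x) ((⊥ : Submodule F V).prod ⊤) = σ E a * Z V x := by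
  apply term_exact hσ hZ (LinearMap.inr F V E) LinearMap.inr_injective (LinearMap.fst F V E)
    Prod.fst_surjective
  · ext ⟨v, e⟩
    simp [Submodule.mem_prod, eq_comm]
  · ext ⟨v, e⟩
    simp [Submodule.mem_prod]
  · intro u
    simp
  · intro v
    simp

/-- the shear -/
def nsh (ψ : V →ₗ[F] E) : (V × E) ≃ₗ[F] V × E :=
  LinearEquiv.ofLinearMap
    ((LinearMap.fst F V E).prod (ψ ∘ₗ LinearMap.fst F V E + LinearMap.snd F V E))
    ((LinearMap.fst F V E).prod (-(ψ ∘ₗ LinearMap.fst F V E) + LinearMap.snd F V E))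
    (by ext <;> simp) (by ext <;> simp)

theorem nsh_apply (ψ : V →ₗ[F] E) (v : V × E) : nsh ψ v = (v.1, ψ v.1 + v.2) := rfl

/-- the graph of a map defined on a subspace -/
def gr (U : Submodule F V) (φ : U →ₗ[F] E) : Submodule F (V × E) :=
  LinearMap.range (U.subtype.prod φ)

theorem caseC1 {σ Z : CF F} (hσ : IsoInv σ) (hZ : IsoInv Z) (a : E →ₗ[F] E)
    (x : V →ₗ[F] V) (U : Submodule F V) (φ : U →ₗ[F] E) :
    ∑ X : V →ₗ[F] E, term σ Z (blk a X x) (gr U φ)
      = ∑ X : V →ₗ[F] E, term σ Z (blk a X x) (U.prod ⊥) := by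
  obtain ⟨ψ, hψ⟩ := LinearMap.exists_extend φ
  rw [← Equiv.sum_comp (Equiv.addRight (a ∘ₗ ψ - ψ ∘ₗ x))
    (fun X => term σ Z (blk a X x) (U.prod ⊥))]
  apply Finset.sum_congr rfl
  intro X _
  rw [Equiv.coe_addRight]
  rw [term_congr hσ hZ (nsh ψ) (blk a (X + (a ∘ₗ ψ - ψ ∘ₗ x)) x) (blk a X x) (by
    intro v
    simp only [nsh_apply, blk_apply, LinearMap.add_apply, LinearMap.sub_apply,
      LinearMap.comp_apply, map_add]
    congr 1
    abel) (U.prod ⊥)]
  congr 1
  ext ⟨v, e⟩
  simp only [gr, LinearMap.mem_range, Submodule.mem_map]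
  constructor
  · rintro ⟨u, hu⟩
    refine ⟨((u : V), 0), ⟨u.2, rfl⟩, ?_⟩
    rw [← hu]
    show nsh ψ ((u : V), 0) = _
    rw [nsh_apply]
    have : ψ (u : V) = φ u := LinearMap.congr_fun hψ u
    simp [this]
  · rintro ⟨⟨w, z⟩, ⟨hw, hz⟩, hwz⟩
    refine ⟨⟨w, hw⟩, ?_⟩
    rw [← hwz]
    show _ = nsh ψ (w, z)
    rw [nsh_apply]
    have hz' : z = 0 := hz
    have : ψ w = φ ⟨w, hw⟩ := LinearMap.congr_fun hψ ⟨w, hw⟩
    simp [this, hz']

theorem card_hom_prod (U : Submodule F V) :
    Fintype.card (V →ₗ[F] E) = Fintype.card (U →ₗ[F] E) * Fintype.card ((V ⧸ U) →ₗ[F] E) := by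
  have h1 : ∀ (A : Type) [AddCommGroup A] [Module F A] [FiniteDimensional F A],
      Fintype.card (A →ₗ[F] E) = Fintype.card F ^ (finrank F A * finrank F E) := by
    intro A _ _ _
    rw [Module.card_eq_pow_finrank (K := F), Module.finrank_linearMap]
  rw [h1, h1, h1, ← pow_add, ← add_mul, add_comm, Submodule.finrank_quotient_add_finrank]

theorem caseC2 {σ Z : CF F} (hσ : IsoInv σ) (hZ : IsoInv Z) (a : E →ₗ[F] E)
    (x : V →ₗ[F] V) (U : Submodule F V) (h : U ≤ U.comap x) :
    ∑ X : V →ₗ[F] E, term σ Z (blk a X x) (U.prod ⊥)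
      = σ U (x.restrict h) *
        ∑ X : (V ⧸ U) →ₗ[F] E, Z ((V ⧸ U) × E) (blk a X (U.mapQ U x h)) := by
  classical
  rw [Finset.mul_sum]
  symm
  refine Finset.sum_of_injOn (fun X => X ∘ₗ U.mkQ) ?_ (fun _ _ => Finset.mem_coe.mpr (Finset.mem_univ _)) ?_ ?_
  · intro X _ Y _ hXY
    apply LinearMap.ext
    intro v
    induction v using Submodule.Quotient.induction_on with
    | H v => exact LinearMap.congr_fun hXY v
  · intro X _ hX
    apply term_of_not
    intro hst
    apply hX
    have hXU : U ≤ LinearMap.ker X := by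
      intro u hu
      have h3 : (u, (0 : E)) ∈ U.prod (⊥ : Submodule F E) := ⟨hu, rfl⟩
      have h4 := (hst h3).2
      rw [blk_apply] at h4
      rw [LinearMap.mem_ker]
      simpa using h4
    refine ⟨U.liftQ X hXU, Finset.mem_coe.mpr (Finset.mem_univ _), ?_⟩
    exact U.liftQ_mkQ X hXU
  · intro X _
    symm
    apply term_exact hσ hZ (LinearMap.inl F V E ∘ₗ U.subtype)
      (LinearMap.inl_injective.comp U.injective_subtype)
      (U.mkQ.prodMap (LinearMap.id : E →ₗ[F] E))
      (Function.Surjective.prodMap U.mkQ_surjective Function.surjective_id)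
    · ext ⟨v, e⟩
      simp only [LinearMap.mem_range, LinearMap.comp_apply, LinearMap.inl_apply,
        Submodule.subtype_apply, Submodule.mem_prod, Submodule.mem_bot]
      constructor
      · rintro ⟨u, hu⟩
        have h1 : (u : V) = v := congrArg Prod.fst hu
        have h2 : (0 : E) = e := congrArg Prod.snd hu
        exact ⟨h1 ▸ u.2, h2.symm⟩
      · rintro ⟨hv, he⟩
        exact ⟨⟨v, hv⟩, by rw [he]⟩
    · ext ⟨v, e⟩
      simp [Submodule.mem_prod]
    · intro u
      apply Prod.ext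
      · simp
      · have : U.mkQ (u : V) = 0 := by
          rw [← LinearMap.mem_ker, Submodule.ker_mkQ]
          exact u.2
        simp only [LinearMap.comp_apply, LinearMap.inl_apply, blk_apply, Submodule.subtype_apply,
          this, map_zero, add_zero]
    · intro v
      apply Prod.ext
      · simp
      · simp

theorem gr_inj {U U' : Submodule F V} {φ : U →ₗ[F] E} {φ' : U' →ₗ[F] E}
    (h : gr U φ = gr U' φ') : (⟨U, φ⟩ : Σ U : Submodule F V, U →ₗ[F] E) = ⟨U', φ'⟩ := by
  have key : ∀ {U U' : Submodule F V} {φ : U →ₗ[F] E} {φ' : U' →ₗ[F] E}, gr U φ = gr U' φ' →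
      ∀ u : U, ∃ h : (u : V) ∈ U', φ' ⟨u, h⟩ = φ u := by
    intro U U' φ φ' h u
    have h1 : ((u : V), φ u) ∈ gr U φ := ⟨u, rfl⟩
    rw [h] at h1
    obtain ⟨w, hw⟩ := h1
    have h2 : (w : V) = u := congrArg Prod.fst hw
    have h3 : φ' w = φ u := congrArg Prod.snd hw
    have h4 : (u : V) ∈ U' := h2 ▸ w.2
    refine ⟨h4, ?_⟩
    rw [← h3]
    congr 1
    exact Subtype.ext h2.symm
  have hU : U = U' := by
    apply le_antisymm
    · intro u hu
      exact (key h ⟨u, hu⟩).1
    · intro u hu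
      exact (key h.symm ⟨u, hu⟩).1
  subst hU
  congr 1
  apply LinearMap.ext
  intro u
  obtain ⟨_, h2⟩ := key h u
  exact h2.symm

theorem exists_gr (W : Submodule F (V × E)) (hW : W.comap (LinearMap.inr F V E) = ⊥) :
    ∃ (U : Submodule F V) (φ : U →ₗ[F] E), gr U φ = W := by
  let p : W →ₗ[F] (W.map (LinearMap.fst F V E)) :=
    ((LinearMap.fst F V E).domRestrict W).codRestrict _ (fun w => ⟨w, w.2, rfl⟩)
  have hp : Function.Bijective p := by
    constructor
    · rw [← LinearMap.ker_eq_bot, LinearMap.ker_eq_bot']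
      intro w hw
      have h1 : w.1.1 = 0 := congrArg Subtype.val hw
      have h2 : w.1.2 ∈ W.comap (LinearMap.inr F V E) := by
        rw [Submodule.mem_comap]
        show ((0 : V), w.1.2) ∈ W
        rw [← h1]
        exact w.2
      rw [hW] at h2
      apply Subtype.ext
      apply Prod.ext
      · exact h1
      · exact h2
    · rintro ⟨_, w, hw, rfl⟩
      exact ⟨⟨w, hw⟩, rfl⟩
  let e := LinearEquiv.ofBijective p hp
  have he : ∀ w : W, ((e w : W.map (LinearMap.fst F V E)) : V) = w.1.1 := fun w => rfl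
  refine ⟨W.map (LinearMap.fst F V E),
    LinearMap.snd F V E ∘ₗ W.subtype ∘ₗ (e.symm : _ →ₗ[F] W), ?_⟩
  ext ⟨v, z⟩
  constructor
  · rintro ⟨u, hu⟩
    obtain ⟨w, rfl⟩ := e.surjective u
    rw [← hu]
    have : ((W.map (LinearMap.fst F V E)).subtype.prod
        (LinearMap.snd F V E ∘ₗ W.subtype ∘ₗ (e.symm : _ →ₗ[F] W))) (e w) = (w : V × E) := by
      apply Prod.ext
      · exact he w
      · simp
    rw [this]
    exact w.2
  · intro hw
    refine ⟨e ⟨(v, z), hw⟩, ?_⟩
    apply Prod.ext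
    · exact he ⟨(v, z), hw⟩
    · simp

theorem gr_comap (U : Submodule F V) (φ : U →ₗ[F] E) :
    (gr U φ).comap (LinearMap.inr F V E) = ⊥ := by
  rw [eq_bot_iff]
  intro e he
  rw [Submodule.mem_comap] at he
  obtain ⟨u, hu⟩ := he
  have h1 : (u : V) = 0 := congrArg Prod.fst hu
  have h2 : φ u = e := congrArg Prod.snd hu
  have h3 : u = 0 := Subtype.ext h1
  rw [Submodule.mem_bot, ← h2, h3, map_zero]

open scoped Classical in
theorem sum_gr (G : Submodule F (V × E) → ℂ) :
    ∑ W ∈ Finset.univ.filter (fun W : Submodule F (V × E) => W.comap (LinearMap.inr F V E) = ⊥), G W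
      = ∑ U : Submodule F V, ∑ φ : U →ₗ[F] E, G (gr U φ) := by
  rw [Finset.sum_sigma']
  symm
  apply Finset.sum_bij (fun (z : Σ U : Submodule F V, U →ₗ[F] E) _ => gr z.1 z.2)
  · intro z _
    rw [Finset.mem_filter]
    exact ⟨Finset.mem_univ _, gr_comap _ _⟩
  · rintro ⟨U, φ⟩ _ ⟨U', φ'⟩ _ h
    exact gr_inj h
  · intro W hW
    obtain ⟨U, φ, h⟩ := exists_gr W (Finset.mem_filter.mp hW).2
    exact ⟨⟨U, φ⟩, by simp, h⟩
  · intro z _
    rfl

end cases

/-- pairing against a function on the endomorphisms of `E` -/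
noncomputable def Dop (E : Type) [AddCommGroup E] [Module F E] [FiniteDimensional F E]
    (r f : CF F) : CF F := fun _ _ _ _ x => ∑ a : E →ₗ[F] E, r E a * del f a x

section deriv

variable {V E : Type} [AddCommGroup V] [Module F V] [FiniteDimensional F V]
  [AddCommGroup E] [Module F E] [FiniteDimensional F E]

theorem derivation {σ Z r : CF F} (hσ : IsoInv σ) (hZ : IsoInv Z) (hr : IsoInv r) (hcσ : CuspB σ)
    (hcr : CuspB r) (hE : Nontrivial E) (x : V →ₗ[F] V) :
    Dop E r (mul σ Z) V x = (∑ a : E →ₗ[F] E, r E a * σ E a) * Z V x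
      + mul σ (Dop E r Z) V x := by
  classical
  set c : ℂ := (Fintype.card (V →ₗ[F] E) : ℂ) with hc
  have hc0 : c ≠ 0 := by
    rw [hc]
    exact_mod_cast (Fintype.card_ne_zero : Fintype.card (V →ₗ[F] E) ≠ 0)
  let S : Submodule F (V × E) → ℂ := fun W => c⁻¹ * ∑ a : E →ₗ[F] E, r E a *
        ∑ X : V →ₗ[F] E, term σ Z (blk a X x) W
  have e0 : Dop E r (mul σ Z) V x = ∑ W : Submodule F (V × E), S W := by
    unfold Dop del mul
    simp only [S, Finset.mul_sum]
    symm
    rw [Finset.sum_comm]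
    apply Finset.sum_congr rfl
    intro a _
    rw [Finset.sum_comm]
    apply Finset.sum_congr rfl
    intro X _
    apply Finset.sum_congr rfl
    intro W _
    rw [hc]
    ring
  have e1 : ∑ W ∈ Finset.univ.filter
      (fun W : Submodule F (V × E) => W.comap (LinearMap.inr F V E) = ⊥), S W
      = mul σ (Dop E r Z) V x := by
    rw [sum_gr]
    unfold mul
    apply Finset.sum_congr rfl
    intro U _
    have e2 : ∀ φ : U →ₗ[F] E, S (gr U φ) = S (U.prod ⊥) := by
      intro φ
      simp only [S, caseC1 hσ hZ]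
    simp only [e2, Finset.sum_const, Finset.card_univ, nsmul_eq_mul]
    by_cases h : U ≤ U.comap x
    · rw [term_of h]
      simp only [S, caseC2 hσ hZ _ x U h]
      have h1 : c = (Fintype.card (U →ₗ[F] E) : ℂ) * (Fintype.card ((V ⧸ U) →ₗ[F] E) : ℂ) := by
        rw [hc, card_hom_prod U]
        push_cast
        rfl
      have h2 : (Fintype.card (U →ₗ[F] E) : ℂ) ≠ 0 := by
        exact_mod_cast (Fintype.card_ne_zero : Fintype.card (U →ₗ[F] E) ≠ 0)
      have h3 : (Fintype.card ((V ⧸ U) →ₗ[F] E) : ℂ) ≠ 0 := by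
        exact_mod_cast (Fintype.card_ne_zero : Fintype.card ((V ⧸ U) →ₗ[F] E) ≠ 0)
      have h4 : (Fintype.card (U →ₗ[F] E) : ℂ) * c⁻¹ = (Fintype.card ((V ⧸ U) →ₗ[F] E) : ℂ)⁻¹ := by
        rw [h1]
        field_simp
      rw [← mul_assoc, h4]
      unfold Dop del
      rw [Finset.mul_sum, Finset.mul_sum]
      apply Finset.sum_congr rfl
      intro a _
      ring
    · rw [term_of_not h]
      have h1 : ∀ a : E →ₗ[F] E, ∀ X : V →ₗ[F] E, term σ Z (blk a X x) (U.prod ⊥) = 0 := by
        intro a X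
        apply term_of_not
        intro h'
        apply h
        intro u hu
        have h3 : (u, (0 : E)) ∈ U.prod (⊥ : Submodule F E) := ⟨hu, rfl⟩
        exact (h' h3).1
      simp [S, h1]
  have e3 : ∑ W ∈ Finset.univ.filter
      (fun W : Submodule F (V × E) => ¬ W.comap (LinearMap.inr F V E) = ⊥), S W
      = (∑ a : E →ₗ[F] E, r E a * σ E a) * Z V x := by
    rw [Finset.sum_eq_single ((⊥ : Submodule F V).prod ⊤)]
    · simp only [S, caseT hσ hZ, Finset.sum_const, Finset.card_univ, nsmul_eq_mul]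
      rw [← hc, Finset.sum_mul, Finset.mul_sum]
      apply Finset.sum_congr rfl
      intro a _
      field_simp
    · intro W hW hne
      have hW1 := (Finset.mem_filter.mp hW).2
      by_cases h2 : W.map (LinearMap.fst F V E) = ⊥
      · have hWe : W = (⊥ : Submodule F V).prod (W.comap (LinearMap.inr F V E)) := by
          ext ⟨v, e⟩
          constructor
          · intro hw
            have h3 : v ∈ W.map (LinearMap.fst F V E) := ⟨_, hw, rfl⟩
            rw [h2] at h3
            refine ⟨h3, ?_⟩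
            have h4 : v = 0 := h3
            subst h4
            exact hw
          · rintro ⟨h3, h4⟩
            have h5 : v = 0 := h3
            subst h5
            exact h4
        have h4 : W.comap (LinearMap.inr F V E) ≠ ⊤ := by
          intro h5
          apply hne
          rw [hWe, h5]
        simp only [S]
        rw [hWe, caseB hr hcr x _ hW1 h4, mul_zero]
      · simp only [S]
        have : ∀ a : E →ₗ[F] E, ∑ X : V →ₗ[F] E, term σ Z (blk a X x) W = 0 :=
          fun a => caseA hσ hcσ a x W hW1 h2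
        simp [this]
    · intro h
      exfalso
      apply h
      rw [Finset.mem_filter]
      refine ⟨Finset.mem_univ _, ?_⟩
      intro h1
      obtain ⟨e, he⟩ := exists_ne (0 : E)
      apply he
      have : e ∈ (((⊥ : Submodule F V).prod ⊤).comap (LinearMap.inr F V E) : Submodule F E) :=
        ⟨rfl, trivial⟩
      rw [h1] at this
      exact this
  rw [e0, ← Finset.sum_filter_add_sum_filter_not Finset.univ
    (fun W : Submodule F (V × E) => W.comap (LinearMap.inr F V E) = ⊥), e1, e3, add_comm]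

end deriv

end Vale.Agent.P275.H85
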