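import Vale.Agent.P275.H85.B3

/-!
# Passing between functions on `GL_n` and families of functions
-/

set_option linter.style.haveILetI false
set_option linter.unusedSectionVars false

namespace Vale.Agent.P275.H85

open scoped BigOperators MatrixGroups
open Module Matrix

variable {F : Type} [Field F] [Fintype F] [DecidableEq F] {n : ℕ}

theorem ez_unit (χ : GL (Fin n) F → ℂ) (g : GL (Fin n) F) :
    ez χ (g : Matrix (Fin n) (Fin n) F) = χ g := by
  unfold ez
  rw [dif_pos g.isUnit]
  congr 1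
  ext
  simp

theorem ez_not (χ : GL (Fin n) F → ℂ) {A : Matrix (Fin n) (Fin n) F} (h : ¬ IsUnit A) :
    ez χ A = 0 := by
  unfold ez
  rw [dif_neg h]

theorem ez_conj {χ : GL (Fin n) F → ℂ} (h : IsClass χ) {P Q A : Matrix (Fin n) (Fin n) F}
    (hPQ : P * Q = 1) (hQP : Q * P = 1) : ez χ (P * A * Q) = ez χ A := by
  let u : GL (Fin n) F := ⟨P, Q, hPQ, hQP⟩
  by_cases hA : IsUnit A
  · obtain ⟨a, rfl⟩ := hA
    have : P * (a : Matrix (Fin n) (Fin n) F) * Q = ((u * a * u⁻¹ : GL (Fin n) F) : Matrix (Fin n) (Fin n) F) := rfl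
    rw [this, ez_unit, ez_unit, h]
  · rw [ez_not _ hA, ez_not]
    rintro ⟨b, hb⟩
    apply hA
    refine ⟨u⁻¹ * b * u, ?_⟩
    show Q * b.1 * P = A
    rw [hb]
    calc Q * (P * A * Q) * P = (Q * P) * A * (Q * P) := by simp only [Matrix.mul_assoc]
      _ = A := by rw [hQP, Matrix.one_mul, Matrix.mul_one]

/-- a class function on `GL_n` as a family -/
noncomputable def toCF (χ : GL (Fin n) F → ℂ) : CF F := fun V _ _ _ φ =>
  if h : finrank F V = n then
    ez χ (LinearMap.toMatrix (finBasisOfFinrankEq F V h) (finBasisOfFinrankEq F V h) φ) else 0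

section
variable {V W : Type} [AddCommGroup V] [Module F V] [FiniteDimensional F V]
  [AddCommGroup W] [Module F W] [FiniteDimensional F W]

theorem toCF_basis {χ : GL (Fin n) F → ℂ} (hχ : IsClass χ) (b : Basis (Fin n) F V)
    (φ : V →ₗ[F] V) : toCF χ V φ = ez χ (LinearMap.toMatrix b b φ) := by
  have hn : finrank F V = n := by
    rw [Module.finrank_eq_card_basis b, Fintype.card_fin]
  unfold toCF
  rw [dif_pos hn]
  set c := finBasisOfFinrankEq F V hn
  rw [← basis_toMatrix_mul_linearMap_toMatrix_mul_basis_toMatrix b c b c φ]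
  symm
  apply ez_conj hχ
  · exact Basis.toMatrix_mul_toMatrix_flip _ _
  · exact Basis.toMatrix_mul_toMatrix_flip _ _

theorem toCF_of_ne {χ : GL (Fin n) F → ℂ} (h : finrank F V ≠ n) (φ : V →ₗ[F] V) :
    toCF χ V φ = 0 := by
  unfold toCF
  rw [dif_neg h]

theorem inv_toCF {χ : GL (Fin n) F → ℂ} (hχ : IsClass χ) : IsoInv (toCF χ) := by
  intro V W _ _ _ _ _ _ e φ ψ h
  by_cases hn : finrank F V = n
  · have b := finBasisOfFinrankEq F V hn
    rw [toCF_basis hχ b, toCF_basis hχ (b.map e)]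
    congr 1
    ext i j
    simp only [LinearMap.toMatrix_apply, Basis.map_apply, Basis.map_repr, LinearEquiv.trans_apply]
    rw [← h, LinearEquiv.symm_apply_apply]
  · rw [toCF_of_ne hn, toCF_of_ne (by rwa [← e.finrank_eq])]

end

/-- restriction of a family to `GL_n` -/
noncomputable def rs (n : ℕ) (f : CF F) : GL (Fin n) F → ℂ :=
  fun g => f (Fin n → F) (Matrix.toLin' (g : Matrix (Fin n) (Fin n) F))

theorem toCF_toLin' {χ : GL (Fin n) F → ℂ} (hχ : IsClass χ) (A : Matrix (Fin n) (Fin n) F) :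
    toCF χ (Fin n → F) (Matrix.toLin' A) = ez χ A := by
  rw [toCF_basis hχ (Pi.basisFun F (Fin n)), LinearMap.toMatrix_eq_toMatrix', LinearMap.toMatrix'_toLin']

theorem rs_toCF {χ : GL (Fin n) F → ℂ} (hχ : IsClass χ) : rs n (toCF χ) = χ := by
  funext g
  unfold rs
  rw [toCF_toLin' hχ, ez_unit]

/-- the support condition -/
def Supp (n : ℕ) (f : CF F) : Prop :=
  ∀ (V : Type) [AddCommGroup V] [Module F V] [FiniteDimensional F V] (φ : V →ₗ[F] V),
    (finrank F V ≠ n ∨ ¬ IsUnit φ) → f V φ = 0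

theorem supp_toCF (χ : GL (Fin n) F → ℂ) : Supp n (toCF χ) := by
  intro V _ _ _ φ h
  by_cases hn : finrank F V = n
  · have hφ : ¬ IsUnit φ := by
      rcases h with h | h
      · exact absurd hn h
      · exact h
    unfold toCF
    rw [dif_pos hn]
    apply ez_not
    intro hu
    apply hφ
    exact (LinearMap.isUnit_toMatrix_iff _).mp hu
  · exact toCF_of_ne hn φ

/-- the linear equivalence given by an invertible matrix -/
def lq (h : GL (Fin n) F) : (Fin n → F) ≃ₗ[F] (Fin n → F) :=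
  LinearEquiv.ofLinearMap (Matrix.toLin' (h : Matrix (Fin n) (Fin n) F))
    (Matrix.toLin' ((h⁻¹ : GL (Fin n) F) : Matrix (Fin n) (Fin n) F))
    (by rw [← Matrix.toLin'_mul, ← Units.val_mul, mul_inv_cancel, Units.val_one, Matrix.toLin'_one])
    (by rw [← Matrix.toLin'_mul, ← Units.val_mul, inv_mul_cancel, Units.val_one, Matrix.toLin'_one])

theorem lq_apply (h : GL (Fin n) F) (v : Fin n → F) :
    lq h v = (h : Matrix (Fin n) (Fin n) F) *ᵥ v := rfl

theorem isClass_rs {f : CF F} (hf : IsoInv f) : IsClass (rs n f) := by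
  intro g h
  unfold rs
  symm
  apply hf _ _ (lq h)
  intro v
  simp only [lq_apply, Matrix.toLin'_apply, Matrix.mulVec_mulVec, ← Units.val_mul]
  rw [inv_mul_cancel_right]

theorem toCF_rs {f : CF F} (hf : IsoInv f) (hs : Supp n f) (V : Type) [AddCommGroup V] [Module F V]
    [FiniteDimensional F V] (φ : V →ₗ[F] V) : toCF (rs n f) V φ = f V φ := by
  by_cases h : finrank F V ≠ n ∨ ¬ IsUnit φ
  · rw [hs V φ h, supp_toCF _ V φ h]
  · push Not at h
    obtain ⟨hn, hφ⟩ := h
    set b := finBasisOfFinrankEq F V hn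
    rw [toCF_basis (isClass_rs hf) b]
    have hu := (LinearMap.isUnit_toMatrix_iff (v₁ := b) (f := φ)).mpr hφ
    obtain ⟨g, hg⟩ := hu
    rw [← hg, ez_unit]
    unfold rs
    symm
    apply hf _ _ b.equivFun
    intro v
    rw [Matrix.toLin'_apply, hg, Basis.equivFun_apply, Basis.equivFun_apply,
      LinearMap.toMatrix_mulVec_repr]

/-- sums over endomorphisms of functions supported on units -/
theorem sum_end (f : ((Fin n → F) →ₗ[F] (Fin n → F)) → ℂ) (hf : ∀ φ, ¬ IsUnit φ → f φ = 0) :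
    ∑ φ, f φ = ∑ g : GL (Fin n) F, f (Matrix.toLin' (g : Matrix (Fin n) (Fin n) F)) := by
  classical
  symm
  refine Finset.sum_of_injOn (fun g : GL (Fin n) F => Matrix.toLin' (g : Matrix (Fin n) (Fin n) F))
    ?_ (fun _ _ => Finset.mem_coe.mpr (Finset.mem_univ _)) ?_ (fun _ _ => rfl)
  · intro g _ h _ hgh
    apply Units.ext
    exact Matrix.toLin'.injective hgh
  · intro φ _ hφ
    apply hf
    intro hu
    apply hφ
    have : IsUnit (LinearMap.toMatrix' φ) := by
      rw [← Matrix.isUnit_toLin'_iff, Matrix.toLin'_toMatrix']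
      exact hu
    obtain ⟨g, hg⟩ := this
    refine ⟨g, Finset.mem_coe.mpr (Finset.mem_univ _), ?_⟩
    show Matrix.toLin' (g : Matrix (Fin n) (Fin n) F) = φ
    rw [hg, Matrix.toLin'_toMatrix']

end Vale.Agent.P275.H85
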