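import Vale.Agent.P275.H85.B4

/-!
# Duality, supports
-/

set_option linter.style.haveILetI false
set_option linter.unusedSectionVars false

namespace Vale.Agent.P275.H85

open scoped BigOperators MatrixGroups
open Module Matrix

variable {F : Type} [Field F] [Fintype F] [DecidableEq F]

section unit

variable {V W E : Type} [AddCommGroup V] [Module F V] [FiniteDimensional F V]
  [AddCommGroup W] [Module F W] [FiniteDimensional F W]
  [AddCommGroup E] [Module F E] [FiniteDimensional F E]

theorem isUnit_iff_inj {φ : V →ₗ[F] V} : IsUnit φ ↔ Function.Injective φ := by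
  rw [LinearMap.isUnit_iff_ker_eq_bot, LinearMap.ker_eq_bot]

theorem isUnit_iff_surj {φ : V →ₗ[F] V} : IsUnit φ ↔ Function.Surjective φ := by
  rw [LinearMap.isUnit_iff_range_eq_top, LinearMap.range_eq_top]

theorem isUnit_stable {φ : V →ₗ[F] V} {K : Submodule F V} (h : K ≤ K.comap φ) :
    IsUnit φ ↔ IsUnit (φ.restrict h) ∧ IsUnit (K.mapQ K φ h) := by
  constructor
  · intro hu
    constructor
    · rw [isUnit_iff_inj] at hu ⊢
      intro x y hxy
      apply Subtype.ext
      exact hu (congrArg Subtype.val hxy)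
    · rw [isUnit_iff_surj] at hu ⊢
      intro v
      obtain ⟨v, rfl⟩ := K.mkQ_surjective v
      obtain ⟨w, rfl⟩ := hu v
      exact ⟨K.mkQ w, rfl⟩
  · rintro ⟨h1, h2⟩
    rw [isUnit_iff_inj] at h1 h2 ⊢
    rw [← LinearMap.ker_eq_bot, LinearMap.ker_eq_bot']
    intro v hv
    have h3 : K.mkQ v = 0 := by
      apply h2
      rw [map_zero]
      show K.mkQ (φ v) = 0
      rw [hv, map_zero]
    have h4 : v ∈ K := by
      rwa [← LinearMap.mem_ker, Submodule.ker_mkQ] at h3
    have h5 : (⟨v, h4⟩ : K) = 0 := by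
      apply h1
      rw [map_zero]
      apply Subtype.ext
      exact hv
    exact congrArg Subtype.val h5

open scoped Classical in
/-- the dual -/
noncomputable def dl (f : CF F) : CF F := fun V _ _ _ φ =>
  if IsUnit φ then f V (Ring.inverse φ) else 0

theorem dl_of (f : CF F) {φ ψ : V →ₗ[F] V} (h1 : φ ∘ₗ ψ = LinearMap.id) (h2 : ψ ∘ₗ φ = LinearMap.id) :
    dl f V φ = f V ψ := by
  let u : (V →ₗ[F] V)ˣ := ⟨φ, ψ, h1, h2⟩
  unfold dl
  rw [if_pos ⟨u, rfl⟩]
  congr 1
  have : φ = (u : V →ₗ[F] V) := rfl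
  rw [this, Ring.inverse_unit]
  rfl

theorem dl_not (f : CF F) {φ : V →ₗ[F] V} (h : ¬ IsUnit φ) : dl f V φ = 0 := by
  unfold dl
  rw [if_neg h]

theorem exists_inv {φ : V →ₗ[F] V} (h : IsUnit φ) :
    ∃ ψ : V →ₗ[F] V, φ ∘ₗ ψ = LinearMap.id ∧ ψ ∘ₗ φ = LinearMap.id := by
  obtain ⟨u, rfl⟩ := h
  exact ⟨(u⁻¹ : (V →ₗ[F] V)ˣ), u.mul_inv, u.inv_mul⟩

end unit

theorem inv_dl {f : CF F} (hf : IsoInv f) : IsoInv (dl f) := by
  intro V W _ _ _ _ _ _ e φ ψ h
  by_cases hu : IsUnit φ
  · obtain ⟨φ', h1, h2⟩ := exists_inv hu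
    let ψ' : W →ₗ[F] W := (e : V →ₗ[F] W) ∘ₗ φ' ∘ₗ (e.symm : W →ₗ[F] V)
    have h1' : ∀ v, φ (φ' v) = v := fun v => LinearMap.congr_fun h1 v
    have h2' : ∀ v, φ' (φ v) = v := fun v => LinearMap.congr_fun h2 v
    rw [dl_of f h1 h2, dl_of f (ψ := ψ')]
    · apply hf _ _ e
      intro v
      simp [ψ']
    · apply LinearMap.ext
      intro w
      simp only [ψ', LinearMap.comp_apply, LinearEquiv.coe_coe, LinearMap.id_apply]
      rw [← h, h1', LinearEquiv.apply_symm_apply]
    · apply LinearMap.ext
      intro w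
      obtain ⟨v, rfl⟩ := e.surjective w
      simp only [ψ', LinearMap.comp_apply, LinearEquiv.coe_coe, LinearMap.id_apply]
      rw [← h, LinearEquiv.symm_apply_apply, h2']
  · rw [dl_not f hu, dl_not f]
    intro hu'
    apply hu
    rw [isUnit_iff_inj] at hu' ⊢
    intro x y hxy
    apply e.injective
    apply hu'
    rw [← h, ← h, hxy]

theorem dl_mul (f g : CF F) (V : Type) [AddCommGroup V] [Module F V] [FiniteDimensional F V]
    (φ : V →ₗ[F] V) : dl (mul f g) V φ = mul (dl f) (dl g) V φ := by
  by_cases hu : IsUnit φ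
  · obtain ⟨ψ, h1, h2⟩ := exists_inv hu
    have h1' : ∀ v, φ (ψ v) = v := fun v => LinearMap.congr_fun h1 v
    have h2' : ∀ v, ψ (φ v) = v := fun v => LinearMap.congr_fun h2 v
    rw [dl_of _ h1 h2]
    unfold mul
    apply Finset.sum_congr rfl
    intro K _
    have key : ∀ {φ ψ : V →ₗ[F] V}, (∀ v, φ (ψ v) = v) → (∀ v, ψ (φ v) = v) →
        K ≤ K.comap φ → K ≤ K.comap ψ := by
      intro φ ψ h1 h2 h
      have hinj : Function.Injective (φ.restrict h) := by
        intro x y hxy
        apply Subtype.ext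
        have := congrArg Subtype.val hxy
        have h3 : φ x = φ y := this
        rw [← h2 x, ← h2 y, h3]
      have hsurj : Function.Surjective (φ.restrict h) :=
        isUnit_iff_surj.mp (isUnit_iff_inj.mpr hinj)
      intro v hv
      obtain ⟨w, hw⟩ := hsurj ⟨v, hv⟩
      have h3 : φ w = v := congrArg Subtype.val hw
      rw [Submodule.mem_comap, ← h3, h2]
      exact w.2
    by_cases h : K ≤ K.comap φ
    · have h' := key h1' h2' h
      rw [term_of h, term_of h', dl_of f (ψ := ψ.restrict h'), dl_of g (ψ := K.mapQ K ψ h')]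
      · apply LinearMap.ext
        intro v
        obtain ⟨v, rfl⟩ := K.mkQ_surjective v
        show K.mkQ (φ (ψ v)) = K.mkQ v
        rw [h1']
      · apply LinearMap.ext
        intro v
        obtain ⟨v, rfl⟩ := K.mkQ_surjective v
        show K.mkQ (ψ (φ v)) = K.mkQ v
        rw [h2']
      · apply LinearMap.ext
        intro v
        apply Subtype.ext
        exact h1' v
      · apply LinearMap.ext
        intro v
        apply Subtype.ext
        exact h2' v
    · rw [term_of_not h, term_of_not (fun h' => h (key h2' h1' h'))]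
  · rw [dl_not _ hu]
    unfold mul
    symm
    apply Finset.sum_eq_zero
    intro K _
    by_cases h : K ≤ K.comap φ
    · rw [term_of h]
      rw [isUnit_stable h, not_and_or] at hu
      rcases hu with hu | hu
      · rw [dl_not f hu, zero_mul]
      · rw [dl_not g hu, mul_zero]
    · exact term_of_not h

theorem supp_mul {f g : CF F} {e m n : ℕ} (hf : Supp e f) (hg : Supp m g) (hn : m + e = n) :
    Supp n (mul f g) := by
  intro V _ _ _ φ h
  unfold mul
  apply Finset.sum_eq_zero
  intro K _
  by_cases hK : K ≤ K.comap φ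
  · rw [term_of hK]
    by_cases h1 : finrank F K ≠ e ∨ ¬ IsUnit (φ.restrict hK)
    · rw [hf _ _ h1, zero_mul]
    · by_cases h2 : finrank F (V ⧸ K) ≠ m ∨ ¬ IsUnit (K.mapQ K φ hK)
      · rw [hg _ _ h2, mul_zero]
      · exfalso
        push Not at h1 h2
        rcases h with h | h
        · apply h
          rw [← hn, ← h1.1, ← h2.1, Submodule.finrank_quotient_add_finrank]
        · exact h ((isUnit_stable hK).mpr ⟨h1.2, h2.2⟩)
  · exact term_of_not hK

theorem supp_one : Supp 0 (one : CF F) := by
  intro V _ _ _ φ h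
  unfold one
  rw [if_neg]
  intro h0
  rcases h with h | h
  · exact h h0
  · apply h
    rw [isUnit_iff_inj]
    intro x y _
    haveI : Subsingleton V := finrank_zero_iff.mp h0
    exact Subsingleton.elim _ _

theorem supp_dl {f : CF F} {n : ℕ} (hf : Supp n f) : Supp n (dl f) := by
  intro V _ _ _ φ h
  by_cases hu : IsUnit φ
  · obtain ⟨ψ, h1, h2⟩ := exists_inv hu
    rw [dl_of f h1 h2]
    apply hf
    left
    rcases h with h | h
    · exact h
    · exact absurd hu h
  · exact dl_not f hu

theorem cusp_dl {f : CF F} (hc : CuspB f) : CuspB (dl f) := by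
  intro V E _ _ _ _ _ _ hV hE a x
  by_cases hu : IsUnit a ∧ IsUnit x
  · obtain ⟨a', ha1, ha2⟩ := exists_inv hu.1
    obtain ⟨x', hx1, hx2⟩ := exists_inv hu.2
    have ha1' : ∀ v, a (a' v) = v := fun v => LinearMap.congr_fun ha1 v
    have ha2' : ∀ v, a' (a v) = v := fun v => LinearMap.congr_fun ha2 v
    have hx1' : ∀ v, x (x' v) = v := fun v => LinearMap.congr_fun hx1 v
    have hx2' : ∀ v, x' (x v) = v := fun v => LinearMap.congr_fun hx2 v
    rw [← hc V E hV hE a' x']
    let eX : (V →ₗ[F] E) ≃ (V →ₗ[F] E) :=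
      { toFun := fun X => - (a' ∘ₗ X ∘ₗ x')
        invFun := fun X => - (a ∘ₗ X ∘ₗ x)
        left_inv := fun X => by
          apply LinearMap.ext
          intro v
          simp [ha1', hx2']
        right_inv := fun X => by
          apply LinearMap.ext
          intro v
          simp [ha2', hx1'] }
    rw [← Equiv.sum_comp eX (fun X => f (V × E) (blk a' X x'))]
    apply Finset.sum_congr rfl
    intro X _
    apply dl_of
    · apply LinearMap.ext
      intro v
      apply Prod.ext
      · simp [hx1']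
      · simp [eX, ha1']
    · apply LinearMap.ext
      intro v
      apply Prod.ext
      · simp [hx2']
      · simp [eX, hx2', ha2']
  · apply Finset.sum_eq_zero
    intro X _
    apply dl_not
    intro h
    apply hu
    have hst : (⊥ : Submodule F V).prod (⊤ : Submodule F E) ≤
        ((⊥ : Submodule F V).prod (⊤ : Submodule F E)).comap (blk a X x) := by
      rintro ⟨v, e⟩ ⟨hv, _⟩
      have : v = 0 := hv
      subst this
      exact ⟨by simp, trivial⟩
    constructor
    · rw [isUnit_iff_inj] at h ⊢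
      intro p q hpq
      have := @h ((0 : V), p) (0, q) (by simp [hpq])
      exact congrArg Prod.snd this
    · rw [isUnit_iff_surj] at h ⊢
      intro v
      obtain ⟨w, hw⟩ := h (v, 0)
      exact ⟨w.1, congrArg Prod.fst hw⟩

theorem rs_dl (f : CF F) (n : ℕ) (g : GL (Fin n) F) : rs n (dl f) g = rs n f g⁻¹ := by
  unfold rs
  apply dl_of
  · rw [← Matrix.toLin'_mul, ← Units.val_mul, mul_inv_cancel, Units.val_one, Matrix.toLin'_one]
  · rw [← Matrix.toLin'_mul, ← Units.val_mul, inv_mul_cancel, Units.val_one, Matrix.toLin'_one]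

end Vale.Agent.P275.H85
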