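import Vale.Agent.P275.H85.B5

/-!
# Sums over stabilizers, counting subspaces, adjointness
-/

set_option linter.style.haveILetI false
set_option linter.unusedSectionVars false

namespace Vale.Agent.P275.H85

open scoped BigOperators MatrixGroups
open Module Matrix

variable {F : Type} [Field F] [Fintype F] [DecidableEq F]

section stab

variable {V E V' : Type} [AddCommGroup V] [Module F V] [FiniteDimensional F V]
  [AddCommGroup E] [Module F E] [FiniteDimensional F E]
  [AddCommGroup V'] [Module F V'] [FiniteDimensional F V']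

theorem exists_theta (K : Submodule F V') (h1 : finrank F K = finrank F E)
    (h2 : finrank F V' = finrank F V + finrank F E) :
    ∃ θ : (V × E) ≃ₗ[F] V',
      ((⊥ : Submodule F V).prod (⊤ : Submodule F E)).map (θ : V × E →ₗ[F] V') = K := by
  obtain ⟨C, hC⟩ := K.exists_isCompl
  have h3 := Submodule.finrank_add_eq_of_isCompl hC
  let e1 : E ≃ₗ[F] K := LinearEquiv.ofFinrankEq _ _ h1.symm
  let e2 : V ≃ₗ[F] C := LinearEquiv.ofFinrankEq _ _ (by omega)
  let θ : (V × E) ≃ₗ[F] V' := (e2.prodCongr e1).trans (Submodule.prodEquivOfIsCompl C K hC.symm)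
  have hθ : ∀ z : V × E, θ z = (e2 z.1 : V') + (e1 z.2 : V') := fun z => rfl
  refine ⟨θ, ?_⟩
  ext w
  rw [Submodule.mem_map]
  constructor
  · rintro ⟨z, ⟨hz, _⟩, rfl⟩
    have hz' : z.1 = 0 := hz
    rw [LinearEquiv.coe_coe, hθ, hz', map_zero]
    simp
  · intro hw
    refine ⟨(0, e1.symm ⟨w, hw⟩), ⟨rfl, trivial⟩, ?_⟩
    rw [LinearEquiv.coe_coe, hθ]
    simp

theorem sum_stab0 {f g : CF F} (hf : IsoInv f) (hg : IsoInv g) (H : (V × E →ₗ[F] V × E) → ℂ) :
    ∑ T : V × E →ₗ[F] V × E, term f g T ((⊥ : Submodule F V).prod ⊤) * H T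
      = ∑ a : E →ₗ[F] E, ∑ x : V →ₗ[F] V, ∑ X : V →ₗ[F] E, f E a * g V x * H (blk a X x) := by
  classical
  have e1 : ∑ a : E →ₗ[F] E, ∑ x : V →ₗ[F] V, ∑ X : V →ₗ[F] E, f E a * g V x * H (blk a X x)
      = ∑ t : (E →ₗ[F] E) × (V →ₗ[F] V) × (V →ₗ[F] E),
        f E t.1 * g V t.2.1 * H (blk t.1 t.2.2 t.2.1) := by
    rw [Fintype.sum_prod_type]
    apply Finset.sum_congr rfl
    intro a _
    rw [Fintype.sum_prod_type]
  rw [e1]
  symm
  refine Finset.sum_of_injOn
    (fun t : (E →ₗ[F] E) × (V →ₗ[F] V) × (V →ₗ[F] E) => blk t.1 t.2.2 t.2.1) ?_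
    (fun _ _ => Finset.mem_coe.mpr (Finset.mem_univ _)) ?_ ?_
  · rintro ⟨a, x, X⟩ _ ⟨a', x', X'⟩ _ h
    have h1 : ∀ z, blk a X x z = blk a' X' x' z := fun z => LinearMap.congr_fun h z
    have h2 : a = a' := by
      apply LinearMap.ext
      intro e
      have := congrArg Prod.snd (h1 (0, e))
      simpa using this
    have h3 : x = x' := by
      apply LinearMap.ext
      intro v
      have := congrArg Prod.fst (h1 (v, 0))
      simpa using this
    have h4 : X = X' := by
      apply LinearMap.ext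
      intro v
      have := congrArg Prod.snd (h1 (v, 0))
      simpa using this
    rw [h2, h3, h4]
  · intro T _ hT
    rw [term_of_not, zero_mul]
    intro hst
    apply hT
    refine ⟨(LinearMap.snd F V E ∘ₗ T ∘ₗ LinearMap.inr F V E,
      LinearMap.fst F V E ∘ₗ T ∘ₗ LinearMap.inl F V E,
      LinearMap.snd F V E ∘ₗ T ∘ₗ LinearMap.inl F V E), Finset.mem_coe.mpr (Finset.mem_univ _), ?_⟩
    apply LinearMap.ext
    rintro ⟨v, e⟩
    have h1 : T (v, e) = T (v, 0) + T (0, e) := by
      rw [← map_add]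
      simp
    have h2 : (T (0, e)).1 = 0 := (hst (show ((0 : V), e) ∈ (⊥ : Submodule F V).prod (⊤ : Submodule F E) from ⟨rfl, trivial⟩)).1
    rw [h1]
    apply Prod.ext
    · simp [h2]
    · simp
  · rintro ⟨a, x, X⟩ _
    show f E a * g V x * H (blk a X x) = term f g (blk a X x) _ * H (blk a X x)
    rw [caseT hf hg]

theorem sum_stab {f g H : CF F} (hf : IsoInv f) (hg : IsoInv g) (hH : IsoInv H)
    (K : Submodule F V') (h1 : finrank F K = finrank F E)
    (h2 : finrank F V' = finrank F V + finrank F E) :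
    ∑ φ : V' →ₗ[F] V', term f g φ K * H V' φ
      = ∑ a : E →ₗ[F] E, ∑ x : V →ₗ[F] V, ∑ X : V →ₗ[F] E,
        f E a * g V x * H (V × E) (blk a X x) := by
  obtain ⟨θ, hθ⟩ := exists_theta (V := V) (E := E) K h1 h2
  rw [← sum_stab0 hf hg (H (V × E)), ← Equiv.sum_comp θ.conj.toEquiv]
  apply Finset.sum_congr rfl
  intro T _
  have h3 : ∀ v, θ (T v) = (θ.conj T) (θ v) := by
    intro v
    rw [LinearEquiv.conj_apply_apply, LinearEquiv.symm_apply_apply]
  show term f g (θ.conj T) K * H V' (θ.conj T) = _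
  rw [← hH _ _ θ T (θ.conj T) h3, term_congr hf hg θ T (θ.conj T) h3, hθ]

end stab

section grass

variable {V' : Type} [AddCommGroup V'] [Module F V'] [FiniteDimensional F V']

open scoped Classical in
/-- number of subspaces -/
noncomputable def grc (F : Type) [Field F] [Fintype F] (V' : Type) [AddCommGroup V'] [Module F V']
    [FiniteDimensional F V'] (e : ℕ) : ℕ :=
  (Finset.univ.filter (fun K : Submodule F V' => finrank F K = e)).card

theorem card_linInd (e : ℕ) (he : e ≤ finrank F V') :
    ∏ i : Fin e, ((Fintype.card F) ^ (finrank F V') - (Fintype.card F) ^ i.val)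
    = grc F V' e * ∏ i : Fin e, ((Fintype.card F) ^ e - (Fintype.card F) ^ i.val) := by
  classical
  haveI : Finite V' := finite_of_fd F V'
  rw [← card_linearIndependent (K := F) (V := V') he]
  let f : {s : Fin e → V' // LinearIndependent F s} → {K : Submodule F V' // finrank F K = e} :=
    fun s => ⟨Submodule.span F (Set.range s.1), by
      rw [finrank_span_eq_card s.2, Fintype.card_fin]⟩
  haveI : Fintype {s : Fin e → V' // LinearIndependent F s} := Fintype.ofFinite _
  haveI : ∀ K, Fintype {s // f s = K} := fun K => Fintype.ofFinite _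
  rw [← Nat.card_congr (Equiv.sigmaFiberEquiv f), Nat.card_sigma]
  have h1 : ∀ K : {K : Submodule F V' // finrank F K = e},
      Nat.card {s // f s = K} = ∏ i : Fin e, ((Fintype.card F) ^ e - (Fintype.card F) ^ i.val) := by
    rintro ⟨K, hK⟩
    haveI : Finite K := finite_of_fd F K
    have h2 := card_linearIndependent (K := F) (V := K) (k := e) (by rw [hK])
    rw [hK] at h2
    rw [← h2]
    refine Nat.card_congr
      { toFun := fun s => ⟨fun i => ⟨s.1.1 i, ?_⟩, ?_⟩
        invFun := fun t => ⟨⟨fun i => (t.1 i : V'), ?_⟩, ?_⟩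
        left_inv := ?_
        right_inv := ?_ }
    · have h4 : Submodule.span F (Set.range s.1.1) = K := congrArg Subtype.val s.2
      exact h4.le (Submodule.subset_span ⟨i, rfl⟩)
    · apply LinearIndependent.of_comp K.subtype
      exact s.1.2
    · exact t.2.map' K.subtype (by rw [Submodule.ker_subtype])
    · apply Subtype.ext
      show Submodule.span F (Set.range fun i => (t.1 i : V')) = K
      have h3 : LinearIndependent F (fun i => (t.1 i : V')) :=
        t.2.map' K.subtype (by rw [Submodule.ker_subtype])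
      apply Submodule.eq_of_le_of_finrank_eq
      · rw [Submodule.span_le]
        rintro _ ⟨i, rfl⟩
        exact (t.1 i).2
      · rw [finrank_span_eq_card h3, Fintype.card_fin, hK]
    · intro s
      rfl
    · intro t
      rfl
  simp only [h1]
  rw [Finset.sum_const, Finset.card_univ, smul_eq_mul]
  congr 1
  unfold grc
  rw [Fintype.card_subtype]

theorem card_gl (n : ℕ) : Fintype.card (GL (Fin n) F)
    = ∏ i : Fin n, ((Fintype.card F) ^ n - (Fintype.card F) ^ i.val) := by
  rw [← Nat.card_eq_fintype_card, Matrix.card_GL_field]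

theorem card_split (e m n : ℕ) (hn : m + e = n) (hV : finrank F V' = n) :
    Fintype.card (GL (Fin n) F) = grc F V' e *
      (Fintype.card (GL (Fin e) F) * Fintype.card (GL (Fin m) F) * (Fintype.card F) ^ (m * e)) := by
  subst hn
  have h1 := card_linInd (F := F) (V' := V') e (by omega)
  rw [hV] at h1
  rw [card_gl, card_gl, card_gl]
  have h2 : ∏ i : Fin (m + e), ((Fintype.card F) ^ (m + e) - (Fintype.card F) ^ i.val)
      = (∏ i : Fin e, ((Fintype.card F) ^ (m + e) - (Fintype.card F) ^ i.val)) *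
        ∏ j : Fin m, ((Fintype.card F) ^ (m + e) - (Fintype.card F) ^ (e + j.val)) := by
    rw [Fin.prod_univ_eq_prod_range (fun i => (Fintype.card F) ^ (m + e) - (Fintype.card F) ^ i) (m + e),
      Fin.prod_univ_eq_prod_range (fun i => (Fintype.card F) ^ (m + e) - (Fintype.card F) ^ i) e,
      Fin.prod_univ_eq_prod_range (fun i => (Fintype.card F) ^ (m + e) - (Fintype.card F) ^ (e + i)) m,
      add_comm m e, Finset.prod_range_add]
  rw [h2, h1]
  have h3 : ∏ j : Fin m, ((Fintype.card F) ^ (m + e) - (Fintype.card F) ^ (e + j.val))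
      = (Fintype.card F) ^ (m * e) *
        ∏ j : Fin m, ((Fintype.card F) ^ m - (Fintype.card F) ^ j.val) := by
    have h4 : ∀ j : Fin m, (Fintype.card F) ^ (m + e) - (Fintype.card F) ^ (e + j.val)
        = (Fintype.card F) ^ e * ((Fintype.card F) ^ m - (Fintype.card F) ^ j.val) := by
      intro j
      rw [Nat.mul_sub, ← pow_add, ← pow_add, add_comm m e]
    rw [Finset.prod_congr rfl (fun j _ => h4 j), Finset.prod_mul_distrib, Finset.prod_const,
      Finset.card_univ, Fintype.card_fin, ← pow_mul, mul_comm e m]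
  rw [h3]
  ring

end grass

end Vale.Agent.P275.H85
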