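import Vale.Agent.P275.H85.B6

/-!
# Adjointness and positivity
-/

set_option linter.style.haveILetI false
set_option linter.unusedSectionVars false

namespace Vale.Agent.P275.H85

open scoped BigOperators MatrixGroups
open Module Matrix

variable {F : Type} [Field F] [Fintype F] [DecidableEq F]

theorem card_hom (m e : ℕ) : Fintype.card ((Fin m → F) →ₗ[F] (Fin e → F))
    = Fintype.card F ^ (m * e) := by
  rw [Module.card_eq_pow_finrank (K := F), Module.finrank_linearMap]
  simp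

/-- the pairing of a product with a family, as a sum over the parabolic -/
theorem ip_mul0 {f g h : CF F} (hf : IsoInv f) (hg : IsoInv g) (hh : IsoInv h) {e m n : ℕ}
    (sf : Supp e f) (hn : m + e = n) :
    ip (rs n (mul f g)) (rs n h) =
      ((Fintype.card (GL (Fin e) F) : ℂ) * (Fintype.card (GL (Fin m) F) : ℂ) *
        (Fintype.card F : ℂ) ^ (m * e))⁻¹ *
      ∑ a : (Fin e → F) →ₗ[F] (Fin e → F), ∑ x : (Fin m → F) →ₗ[F] (Fin m → F),
        ∑ X : (Fin m → F) →ₗ[F] (Fin e → F), f _ a * g _ x * dl h _ (blk a X x) := by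
  classical
  set C := ∑ a : (Fin e → F) →ₗ[F] (Fin e → F), ∑ x : (Fin m → F) →ₗ[F] (Fin m → F),
        ∑ X : (Fin m → F) →ₗ[F] (Fin e → F), f _ a * g _ x * dl h _ (blk a X x) with hC
  have e1 : ∑ g' : GL (Fin n) F, rs n (mul f g) g' * rs n h g'⁻¹
      = ∑ K : Submodule F (Fin n → F), ∑ φ : (Fin n → F) →ₗ[F] (Fin n → F),
        term f g φ K * dl h _ φ := by
    have e2 : ∀ g' : GL (Fin n) F, rs n (mul f g) g' * rs n h g'⁻¹ =
        (fun φ => mul f g (Fin n → F) φ * dl h _ φ) (Matrix.toLin' (g' : Matrix (Fin n) (Fin n) F)) := by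
      intro g'
      rw [← rs_dl]
      rfl
    simp only [e2]
    rw [← sum_end (fun φ => mul f g (Fin n → F) φ * dl h _ φ) (fun φ hφ => by
      show mul f g (Fin n → F) φ * dl h _ φ = 0
      rw [dl_not h hφ, mul_zero])]
    simp only [mul, Finset.sum_mul]
    rw [Finset.sum_comm]
  have e3 : ∀ K : Submodule F (Fin n → F), ∑ φ : (Fin n → F) →ₗ[F] (Fin n → F),
        term f g φ K * dl h _ φ = if finrank F K = e then C else 0 := by
    intro K
    split_ifs with hK
    · rw [sum_stab (V := Fin m → F) (E := Fin e → F) hf hg (inv_dl hh) K (by simp [hK]) (by simp [hn])]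
    · apply Finset.sum_eq_zero
      intro φ _
      by_cases hst : K ≤ K.comap φ
      · rw [term_of hst, sf _ _ (Or.inl hK), zero_mul, zero_mul]
      · rw [term_of_not hst, zero_mul]
  have e4 : ∑ K : Submodule F (Fin n → F), (if finrank F K = e then C else 0)
      = (grc F (Fin n → F) e : ℂ) * C := by
    rw [← Finset.sum_filter, Finset.sum_const, nsmul_eq_mul]
    rfl
  have e5 := card_split (F := F) (V' := Fin n → F) e m n hn (by simp)
  have e6 : (Fintype.card (GL (Fin n) F) : ℂ) = (grc F (Fin n → F) e : ℂ) *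
      ((Fintype.card (GL (Fin e) F) : ℂ) * (Fintype.card (GL (Fin m) F) : ℂ) *
        (Fintype.card F : ℂ) ^ (m * e)) := by
    rw [e5]
    push_cast
    ring
  have e7 : (Fintype.card (GL (Fin n) F) : ℂ) ≠ 0 := Irr.card_ne
  unfold ip
  rw [e1, Finset.sum_congr rfl (fun K _ => e3 K), e4, e6]
  rw [e6] at e7
  have e8 := left_ne_zero_of_mul e7
  have e9 := right_ne_zero_of_mul e7
  rw [mul_inv, mul_mul_mul_comm, inv_mul_cancel₀ e8, one_mul]

theorem ip_mul {f g h : CF F} (hf : IsoInv f) (hg : IsoInv g) (hh : IsoInv h) {e m n : ℕ}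
    (sf : Supp e f) (sg : Supp m g) (hn : m + e = n) :
    ip (rs n (mul f g)) (rs n h) =
      (Fintype.card (GL (Fin e) F) : ℂ)⁻¹ * ((Fintype.card (GL (Fin m) F) : ℂ)⁻¹ *
        ∑ x : GL (Fin m) F, rs m g x * rs m (Dop (Fin e → F) f (dl h)) x) := by
  rw [ip_mul0 hf hg hh sf hn]
  have e0 : ∑ x : GL (Fin m) F, rs m g x * rs m (Dop (Fin e → F) f (dl h)) x
      = ∑ x : (Fin m → F) →ₗ[F] (Fin m → F), g _ x * Dop (Fin e → F) f (dl h) _ x := by
    rw [sum_end (fun x => g _ x * Dop (Fin e → F) f (dl h) _ x) (fun φ hφ => by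
      show g _ φ * Dop (Fin e → F) f (dl h) _ φ = 0
      rw [sg _ _ (Or.inr hφ), zero_mul])]
    rfl
  rw [e0]
  have hq : ((Fintype.card F : ℂ) ^ (m * e)) ≠ 0 :=
    pow_ne_zero _ (by exact_mod_cast (Fintype.card_ne_zero : Fintype.card F ≠ 0))
  have e1 : ∑ a : (Fin e → F) →ₗ[F] (Fin e → F), ∑ x : (Fin m → F) →ₗ[F] (Fin m → F),
        ∑ X : (Fin m → F) →ₗ[F] (Fin e → F), f _ a * g _ x * dl h _ (blk a X x)
      = (Fintype.card F : ℂ) ^ (m * e) *
        ∑ x : (Fin m → F) →ₗ[F] (Fin m → F), g _ x * Dop (Fin e → F) f (dl h) _ x := by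
    rw [Finset.sum_comm, Finset.mul_sum]
    apply Finset.sum_congr rfl
    intro x _
    unfold Dop del
    rw [Finset.mul_sum, Finset.mul_sum]
    apply Finset.sum_congr rfl
    intro a _
    rw [card_hom, ← Finset.mul_sum]
    push_cast
    field_simp
  rw [e1]
  have h1 : (Fintype.card (GL (Fin e) F) : ℂ) ≠ 0 := Irr.card_ne
  have h2 : (Fintype.card (GL (Fin m) F) : ℂ) ≠ 0 := Irr.card_ne
  field_simp

section Par

/-- the parabolic group -/
structure Par (F : Type) [Field F] [Fintype F] [DecidableEq F] (m e : ℕ) : Type where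
  a : GL (Fin e) F
  x : GL (Fin m) F
  X : (Fin m → F) →ₗ[F] (Fin e → F)

namespace Par

variable {m e : ℕ}

@[ext] theorem ext' {p p' : Par F m e} (h1 : p.a = p'.a) (h2 : p.x = p'.x) (h3 : p.X = p'.X) :
    p = p' := by
  cases p; cases p'
  simp only at h1 h2 h3
  subst h1 h2 h3
  rfl

/-- the linear map of a matrix -/
noncomputable abbrev tl {k : ℕ} (a : GL (Fin k) F) : (Fin k → F) →ₗ[F] (Fin k → F) :=
  Matrix.toLin' (a : Matrix (Fin k) (Fin k) F)

theorem tl_mul {k : ℕ} (a b : GL (Fin k) F) : tl (a * b) = tl a ∘ₗ tl b := by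
  unfold tl
  rw [Units.val_mul, Matrix.toLin'_mul]

theorem tl_one {k : ℕ} : tl (1 : GL (Fin k) F) = LinearMap.id := by
  unfold tl
  rw [Units.val_one, Matrix.toLin'_one]

noncomputable instance : Mul (Par F m e) :=
  ⟨fun p p' => ⟨p.a * p'.a, p.x * p'.x, p.X ∘ₗ tl p'.x + tl p.a ∘ₗ p'.X⟩⟩

noncomputable instance : One (Par F m e) := ⟨⟨1, 1, 0⟩⟩

noncomputable instance : Inv (Par F m e) :=
  ⟨fun p => ⟨p.a⁻¹, p.x⁻¹, -(tl p.a⁻¹ ∘ₗ p.X ∘ₗ tl p.x⁻¹)⟩⟩

theorem mul_a (p p' : Par F m e) : (p * p').a = p.a * p'.a := rfl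
theorem mul_x (p p' : Par F m e) : (p * p').x = p.x * p'.x := rfl
theorem mul_X (p p' : Par F m e) : (p * p').X = p.X ∘ₗ tl p'.x + tl p.a ∘ₗ p'.X := rfl
theorem one_a : (1 : Par F m e).a = 1 := rfl
theorem one_x : (1 : Par F m e).x = 1 := rfl
theorem one_X : (1 : Par F m e).X = 0 := rfl
theorem inv_a (p : Par F m e) : (p⁻¹).a = p.a⁻¹ := rfl
theorem inv_x (p : Par F m e) : (p⁻¹).x = p.x⁻¹ := rfl
theorem inv_X (p : Par F m e) : (p⁻¹).X = -(tl p.a⁻¹ ∘ₗ p.X ∘ₗ tl p.x⁻¹) := rfl

noncomputable instance : Group (Par F m e) :=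
  Group.ofLeftAxioms
    (by
      intro p q r
      apply ext'
      · simp only [mul_a, mul_assoc]
      · simp only [mul_x, mul_assoc]
      · simp only [mul_X, mul_a, mul_x, tl_mul, LinearMap.add_comp, LinearMap.comp_add,
          LinearMap.comp_assoc, add_assoc])
    (by
      intro p
      apply ext'
      · simp only [mul_a, one_a, one_mul]
      · simp only [mul_x, one_x, one_mul]
      · simp only [mul_X, one_X, one_a, tl_one, LinearMap.zero_comp, LinearMap.id_comp, zero_add])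
    (by
      intro p
      apply ext'
      · simp only [mul_a, inv_a, one_a, inv_mul_cancel]
      · simp only [mul_x, inv_x, one_x, inv_mul_cancel]
      · simp only [mul_X, inv_X, inv_a, one_X]
        rw [LinearMap.neg_comp, LinearMap.comp_assoc, LinearMap.comp_assoc, ← tl_mul,
          inv_mul_cancel, tl_one, LinearMap.comp_id, neg_add_cancel])

/-- underlying product -/
def eqv : Par F m e ≃ GL (Fin e) F × GL (Fin m) F × ((Fin m → F) →ₗ[F] (Fin e → F)) where
  toFun p := (p.a, p.x, p.X)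
  invFun t := ⟨t.1, t.2.1, t.2.2⟩
  left_inv _ := rfl
  right_inv _ := rfl

noncomputable instance : Fintype (Par F m e) := Fintype.ofEquiv _ eqv.symm

theorem card : Fintype.card (Par F m e) = Fintype.card (GL (Fin e) F) * Fintype.card (GL (Fin m) F) *
    Fintype.card F ^ (m * e) := by
  rw [Fintype.card_congr eqv, Fintype.card_prod, Fintype.card_prod, card_hom, mul_assoc]

theorem sum_eq (G : Par F m e → ℂ) :
    ∑ p, G p = ∑ a : GL (Fin e) F, ∑ x : GL (Fin m) F, ∑ X : (Fin m → F) →ₗ[F] (Fin e → F),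
      G ⟨a, x, X⟩ := by
  rw [← Equiv.sum_comp eqv.symm, Fintype.sum_prod_type]
  apply Finset.sum_congr rfl
  intro a _
  rw [Fintype.sum_prod_type]
  rfl

/-- projection -/
noncomputable def pra : Par F m e →* GL (Fin e) F where
  toFun p := p.a
  map_one' := rfl
  map_mul' _ _ := rfl

/-- projection -/
noncomputable def prx : Par F m e →* GL (Fin m) F where
  toFun p := p.x
  map_one' := rfl
  map_mul' _ _ := rfl

/-- the endomorphism -/
noncomputable def bk (p : Par F m e) : (Fin m → F) × (Fin e → F) →ₗ[F] (Fin m → F) × (Fin e → F) :=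
  blk (tl p.a) p.X (tl p.x)

theorem bk_mul (p q : Par F m e) : bk (p * q) = bk p ∘ₗ bk q := by
  apply LinearMap.ext
  intro v
  unfold bk
  simp only [blk_apply, LinearMap.comp_apply, mul_a, mul_x, mul_X, tl_mul, LinearMap.add_apply,
    map_add, add_assoc]

theorem bk_one : bk (1 : Par F m e) = LinearMap.id := by
  apply LinearMap.ext
  intro v
  unfold bk
  simp only [blk_apply, one_a, one_x, one_X, tl_one, LinearMap.id_apply, LinearMap.zero_apply,
    zero_add]

/-- the inclusion in the linear group -/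
noncomputable def jM {n : ℕ} (θ : ((Fin m → F) × (Fin e → F)) ≃ₗ[F] (Fin n → F)) :
    Par F m e →* Matrix (Fin n) (Fin n) F where
  toFun p := LinearMap.toMatrix' ((θ : _ →ₗ[F] (Fin n → F)) ∘ₗ bk p ∘ₗ (θ.symm : (Fin n → F) →ₗ[F] _))
  map_one' := by
    rw [bk_one, LinearMap.id_comp, LinearEquiv.comp_symm, LinearMap.toMatrix'_id]
  map_mul' p q := by
    rw [bk_mul, ← LinearMap.toMatrix'_mul]
    congr 1
    apply LinearMap.ext
    intro v
    simp

/-- the inclusion in the linear group -/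
noncomputable def j {n : ℕ} (θ : ((Fin m → F) × (Fin e → F)) ≃ₗ[F] (Fin n → F)) :
    Par F m e →* GL (Fin n) F := MonoidHom.toHomUnits (jM θ)

theorem toLin_j {n : ℕ} (θ : ((Fin m → F) × (Fin e → F)) ≃ₗ[F] (Fin n → F)) (p : Par F m e) :
    Matrix.toLin' ((j θ p : GL (Fin n) F) : Matrix (Fin n) (Fin n) F)
      = (θ : _ →ₗ[F] (Fin n → F)) ∘ₗ bk p ∘ₗ (θ.symm : (Fin n → F) →ₗ[F] _) := by
  have : ((j θ p : GL (Fin n) F) : Matrix (Fin n) (Fin n) F) = jM θ p := MonoidHom.coe_toHomUnits _ _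
  rw [this]
  exact Matrix.toLin'_toMatrix' _

theorem ev_j {n : ℕ} (θ : ((Fin m → F) × (Fin e → F)) ≃ₗ[F] (Fin n → F)) {h : CF F}
    (hh : IsoInv h) (p : Par F m e) : h _ (bk p) = rs n h (j θ p) := by
  unfold rs
  rw [toLin_j]
  apply hh _ _ θ
  intro v
  simp

end Par

end Par

/-- the pairing of an induced class function as a pairing on the parabolic group -/
theorem ip_par {m e n : ℕ} {ρ : GL (Fin e) F → ℂ} {Y : GL (Fin m) F → ℂ} {χ : GL (Fin n) F → ℂ}
    (hρ : IsClass ρ) (hY : IsClass Y) (hχ : IsClass χ) (hn : m + e = n)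
    (θ : ((Fin m → F) × (Fin e → F)) ≃ₗ[F] (Fin n → F)) :
    ip (rs n (mul (toCF ρ) (toCF Y))) χ
      = ip (fun p : Par F m e => ρ p.a * Y p.x) (fun p => χ (Par.j θ p)) := by
  have h1 : χ = rs n (toCF χ) := (rs_toCF hχ).symm
  conv_lhs => rw [h1]
  rw [ip_mul0 (inv_toCF hρ) (inv_toCF hY) (inv_toCF hχ) (supp_toCF ρ) hn]
  unfold ip
  rw [Par.card]
  push_cast
  congr 1
  rw [Par.sum_eq]
  rw [sum_end (n := e) _ (fun φ hφ => by
    apply Finset.sum_eq_zero
    intro x _
    apply Finset.sum_eq_zero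
    intro X _
    rw [supp_toCF ρ _ _ (Or.inr hφ), zero_mul, zero_mul])]
  apply Finset.sum_congr rfl
  intro a _
  rw [sum_end (n := m) _ (fun φ hφ => by
    apply Finset.sum_eq_zero
    intro X _
    rw [supp_toCF Y _ _ (Or.inr hφ), mul_zero, zero_mul])]
  apply Finset.sum_congr rfl
  intro x _
  apply Finset.sum_congr rfl
  intro X _
  have h2 : toCF ρ (Fin e → F) (Matrix.toLin' (a : Matrix (Fin e) (Fin e) F)) = ρ a := by
    rw [toCF_toLin' hρ, ez_unit]
  have h3 : toCF Y (Fin m → F) (Matrix.toLin' (x : Matrix (Fin m) (Fin m) F)) = Y x := by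
    rw [toCF_toLin' hY, ez_unit]
  rw [h2, h3]
  congr 1
  have h4 := Par.ev_j θ (inv_dl (inv_toCF hχ)) (⟨a, x, X⟩ : Par F m e)
  rw [rs_dl, rs_toCF hχ, ← map_inv] at h4
  exact h4

end Vale.Agent.P275.H85
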