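import Vale.Agent.P275.H85.B7

/-!
# Positivity of induction, cuspidal support
-/

set_option linter.style.haveILetI false
set_option linter.unusedSectionVars false

namespace Vale.Agent.P275.H85

open scoped BigOperators MatrixGroups
open Module Matrix

section gen

variable {G : Type} [Group G] [Fintype G]

theorem complete' (f : G → ℂ) (hf : IsClass f) (h : ∀ χ, IsIrrChar χ → ∑ x, f x * χ x = 0) :
    f = 0 := by
  apply faithful
  intro π
  rw [π.act_class f hf, h _ ⟨π, rfl⟩]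
  simp

theorem Pos.zero : Pos (0 : G → ℂ) := by
  refine ⟨fun _ _ => rfl, fun χ _ => ⟨0, ?_⟩⟩
  simp [ip]

theorem Pos.add {f g : G → ℂ} (hf : Pos f) (hg : Pos g) : Pos (f + g) := by
  refine ⟨fun x y => ?_, fun χ hχ => ?_⟩
  · simp only [Pi.add_apply]
    rw [hf.1, hg.1]
  · obtain ⟨a, ha⟩ := hf.2 χ hχ
    obtain ⟨b, hb⟩ := hg.2 χ hχ
    exact ⟨a + b, by rw [ip_add_left, ha, hb]; push_cast; rfl⟩

theorem Pos.nsmul {f : G → ℂ} (hf : Pos f) (k : ℕ) : Pos ((k : ℂ) • f) := by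
  refine ⟨fun x y => ?_, fun χ hχ => ?_⟩
  · simp only [Pi.smul_apply]
    rw [hf.1]
  · obtain ⟨a, ha⟩ := hf.2 χ hχ
    exact ⟨k * a, by rw [ip_smul_left, ha]; push_cast; rfl⟩

theorem Pos.sum {ι : Type*} (s : Finset ι) (f : ι → G → ℂ) (hf : ∀ i ∈ s, Pos (f i)) :
    Pos (∑ i ∈ s, f i) := by
  classical
  induction s using Finset.induction_on with
  | empty => simpa using Pos.zero
  | insert a s ha ih =>
    rw [Finset.sum_insert ha]
    exact (hf a (Finset.mem_insert_self a s)).add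
      (ih fun i hi => hf i (Finset.mem_insert_of_mem hi))

theorem Pos.expandN {f : G → ℂ} (hf : Pos f) :
    ∃ n : (G → ℂ) → ℕ, f = ∑ χ ∈ irrSet G, (n χ : ℂ) • χ ∧ ∀ χ, IsIrrChar χ → ip f χ = n χ := by
  classical
  choose! n hn using hf.2
  refine ⟨n, ?_, hn⟩
  conv_lhs => rw [expand f hf.1]
  apply Finset.sum_congr rfl
  intro χ hχ
  rw [hn χ (mem_irrSet.mp hχ)]

theorem ip_symm_irr (f g : G → ℂ) : ip f g = ip g f := ip_comm f g

end gen

variable {F : Type} [Field F] [Fintype F] [DecidableEq F]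

section del

variable {V V' E E' : Type} [AddCommGroup V] [Module F V] [FiniteDimensional F V]
  [AddCommGroup E] [Module F E] [FiniteDimensional F E]
  [AddCommGroup V'] [Module F V'] [FiniteDimensional F V']
  [AddCommGroup E'] [Module F E'] [FiniteDimensional F E']

theorem del_iso {f : CF F} (hf : IsoInv f) (e1 : V ≃ₗ[F] V') (e2 : E ≃ₗ[F] E')
    {a : E →ₗ[F] E} {x : V →ₗ[F] V} {a' : E' →ₗ[F] E'} {x' : V' →ₗ[F] V'}
    (h1 : ∀ v, e1 (x v) = x' (e1 v)) (h2 : ∀ v, e2 (a v) = a' (e2 v)) :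
    del f a x = del f a' x' := by
  unfold del
  have hcard : Fintype.card (V →ₗ[F] E) = Fintype.card (V' →ₗ[F] E') :=
    Fintype.card_congr (e1.arrowCongr e2).toEquiv
  rw [hcard]
  congr 1
  rw [← Equiv.sum_comp (e1.arrowCongr e2).toEquiv]
  apply Finset.sum_congr rfl
  intro X _
  apply hf _ _ (e1.prodCongr e2)
  rintro ⟨v, e⟩
  show (e1 (x v), e2 (X v + a e)) = blk a' ((e1.arrowCongr e2) X) x' (e1 v, e2 e)
  rw [blk_apply]
  simp only [LinearEquiv.arrowCongr_apply, LinearEquiv.symm_apply_apply]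
  rw [h1, map_add, h2]

theorem inv_Dop {r f : CF F} (hf : IsoInv f) : IsoInv (Dop E r f) := by
  intro V W _ _ _ _ _ _ e φ ψ h
  unfold Dop
  apply Finset.sum_congr rfl
  intro a _
  congr 1
  exact del_iso hf e (LinearEquiv.refl F E) h (fun _ => rfl)

theorem del_not {f : CF F} {n : ℕ} (hs : Supp n f) {a : E →ₗ[F] E} {x : V →ₗ[F] V}
    (h : ¬ IsUnit a ∨ ¬ IsUnit x) : del f a x = 0 := by
  unfold del
  rw [Finset.sum_eq_zero, mul_zero]
  intro X _
  apply hs
  right
  intro hu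
  have h1 : IsUnit a := by
    rw [isUnit_iff_inj] at hu ⊢
    intro p q hpq
    have := @hu ((0 : V), p) (0, q) (by simp [hpq])
    exact congrArg Prod.snd this
  have h2 : IsUnit x := by
    rw [isUnit_iff_surj] at hu ⊢
    intro v
    obtain ⟨w, hw⟩ := hu (v, 0)
    exact ⟨w.1, congrArg Prod.fst hw⟩
  rcases h with h | h
  · exact h h1
  · exact h h2

end del

theorem dl_dl {f : CF F} {n : ℕ} (hs : Supp n f) (V : Type) [AddCommGroup V] [Module F V]
    [FiniteDimensional F V] (φ : V →ₗ[F] V) : dl (dl f) V φ = f V φ := by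
  by_cases hu : IsUnit φ
  · obtain ⟨ψ, h1, h2⟩ := exists_inv hu
    rw [dl_of _ h1 h2, dl_of _ h2 h1]
  · rw [dl_not _ hu, hs _ _ (Or.inr hu)]

theorem CF_ext {f g : CF F} (h : ∀ (V : Type) [AddCommGroup V] [Module F V] [FiniteDimensional F V]
    (φ : V →ₗ[F] V), f V φ = g V φ) : f = g := by
  funext V _ _ _ φ
  exact h V φ

theorem exists_tl {k : ℕ} {a : (Fin k → F) →ₗ[F] (Fin k → F)} (ha : IsUnit a) :
    ∃ A : GL (Fin k) F, Par.tl A = a := by
  have : IsUnit (LinearMap.toMatrix' a) := by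
    rw [← Matrix.isUnit_toLin'_iff, Matrix.toLin'_toMatrix']; exact ha
  obtain ⟨g, hg⟩ := this
  exact ⟨g, by unfold Par.tl; rw [hg, Matrix.toLin'_toMatrix']⟩

theorem lq_conj {k : ℕ} (h g : GL (Fin k) F) (v : Fin k → F) :
    lq h (Par.tl g v) = Par.tl (h * g * h⁻¹) (lq h v) := by
  simp only [lq_apply, Par.tl, Matrix.toLin'_apply, Matrix.mulVec_mulVec, ← Units.val_mul]
  rw [inv_mul_cancel_right]

theorem sum_mul_del {e m : ℕ} {α : GL (Fin e) F → ℂ} (hα : IsClass α) (f : CF F)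
    (B : GL (Fin m) F) : rs m (Dop (Fin e → F) (toCF α) f) B
      = ∑ A : GL (Fin e) F, α A * del f (Par.tl A) (Par.tl B) := by
  unfold rs Dop
  rw [sum_end _ (fun φ hφ => by rw [supp_toCF α _ _ (Or.inr hφ), zero_mul])]
  apply Finset.sum_congr rfl
  intro A _
  rw [toCF_toLin' hα, ez_unit]

theorem del_zero_of {e m : ℕ} {f : CF F} (hI : IsoInv f)
    (h1 : ∀ α : GL (Fin e) F → ℂ, IsIrrChar α → rs m (Dop (Fin e → F) (toCF α) f) = 0)
    (A : GL (Fin e) F) (B : GL (Fin m) F) : del f (Par.tl A) (Par.tl B) = 0 := by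
  have h6 : (fun A : GL (Fin e) F => del f (Par.tl A) (Par.tl B)) = 0 := by
    apply complete'
    · intro g h
      symm
      exact del_iso hI (LinearEquiv.refl F _) (lq h) (fun _ => rfl) (fun v => lq_conj h g v)
    · intro α hα
      have h7 := congrFun (h1 α hα) B
      rw [sum_mul_del hα.isClass] at h7
      rw [Pi.zero_apply] at h7
      rw [← h7]
      apply Finset.sum_congr rfl
      intro A _
      rw [mul_comm]
  exact congrFun h6 A

/-- a non-cuspidal irreducible character is a constituent of an induced one -/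
theorem exists_parents {n : ℕ} {ρ : GL (Fin n) F → ℂ} (hρ : IsIrrChar ρ)
    (hc : ¬ CuspB (toCF ρ)) : ∃ (e m : ℕ) (_ : m + e = n) (_ : 0 < e) (_ : 0 < m)
      (α : GL (Fin e) F → ℂ) (β : GL (Fin m) F → ℂ), IsIrrChar α ∧ IsIrrChar β ∧
      ip (rs n (mul (toCF α) (toCF β))) ρ ≠ 0 := by
  by_contra hcon
  push Not at hcon
  apply hc
  have key : ∀ (e m : ℕ), m + e = n → 0 < e → 0 < m → ∀ (a : (Fin e → F) →ₗ[F] (Fin e → F))
      (x : (Fin m → F) →ₗ[F] (Fin m → F)), del (dl (toCF ρ)) a x = 0 := by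
    intro e m hn he hm a x
    have hI := inv_dl (inv_toCF hρ.isClass)
    have hS : Supp n (dl (toCF ρ)) := supp_dl (supp_toCF ρ)
    by_cases ha : IsUnit a
    swap
    · exact del_not hS (Or.inl ha)
    by_cases hx : IsUnit x
    swap
    · exact del_not hS (Or.inr hx)
    obtain ⟨A, rfl⟩ := exists_tl ha
    obtain ⟨B, rfl⟩ := exists_tl hx
    apply del_zero_of hI
    intro α hα
    apply complete' _ (isClass_rs (inv_Dop hI))
    intro β hβ
    have h2 := hcon e m hn he hm α β hα hβ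
    have h3 := ip_mul (inv_toCF hα.isClass) (inv_toCF hβ.isClass) (inv_toCF hρ.isClass)
      (supp_toCF α) (supp_toCF β) hn
    rw [rs_toCF hρ.isClass, h2, rs_toCF hβ.isClass] at h3
    have c1 : (Fintype.card (GL (Fin e) F) : ℂ)⁻¹ ≠ 0 := inv_ne_zero Irr.card_ne
    have c2 : (Fintype.card (GL (Fin m) F) : ℂ)⁻¹ ≠ 0 := inv_ne_zero Irr.card_ne
    have h4 := (mul_eq_zero.mp h3.symm).resolve_left c1
    have h5 := (mul_eq_zero.mp h4).resolve_left c2
    rw [← h5]
    apply Finset.sum_congr rfl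
    intro y _
    rw [mul_comm]
  have h8 : CuspB (dl (toCF ρ)) := by
    intro V E _ _ _ _ _ _ hV hE a x
    by_cases hn : finrank F (V × E) = n
    · rw [Module.finrank_prod] at hn
      have h9 := key (finrank F E) (finrank F V) hn finrank_pos finrank_pos
      let e1 : V ≃ₗ[F] (Fin (finrank F V) → F) := LinearEquiv.ofFinrankEq _ _ (by simp)
      let e2 : E ≃ₗ[F] (Fin (finrank F E) → F) := LinearEquiv.ofFinrankEq _ _ (by simp)
      have h10 := del_iso (inv_dl (inv_toCF hρ.isClass)) e1 e2 (a := a) (x := x)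
        (a' := e2.conj a) (x' := e1.conj x)
        (fun v => by rw [LinearEquiv.conj_apply_apply, LinearEquiv.symm_apply_apply])
        (fun v => by rw [LinearEquiv.conj_apply_apply, LinearEquiv.symm_apply_apply])
      rw [h9] at h10
      unfold del at h10
      exact (mul_eq_zero.mp h10).resolve_left (inv_ne_zero (by
        exact_mod_cast (Fintype.card_ne_zero : Fintype.card (V →ₗ[F] E) ≠ 0)))
    · apply Finset.sum_eq_zero
      intro X _
      exact supp_dl (supp_toCF ρ) _ _ (Or.inl hn)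
  have h11 := cusp_dl h8
  have h12 : dl (dl (toCF ρ)) = toCF ρ := CF_ext (dl_dl (supp_toCF ρ))
  rwa [h12] at h11

/-- induction of irreducible characters is positive -/
theorem pos_mul_irr {e m n : ℕ} (hn : m + e = n) {α : GL (Fin e) F → ℂ} {β : GL (Fin m) F → ℂ}
    (hα : IsIrrChar α) (hβ : IsIrrChar β) : Pos (rs n (mul (toCF α) (toCF β))) := by
  refine ⟨isClass_rs (inv_mul (inv_toCF hα.isClass) (inv_toCF hβ.isClass)), ?_⟩
  intro χ hχ
  let θ : ((Fin m → F) × (Fin e → F)) ≃ₗ[F] (Fin n → F) := LinearEquiv.ofFinrankEq _ _ (by simp [hn])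
  rw [ip_par hα.isClass hβ.isClass hχ.isClass hn θ]
  obtain ⟨πα, rfl⟩ := hα
  obtain ⟨πβ, rfl⟩ := hβ
  obtain ⟨πχ, rfl⟩ := hχ
  let σ : Representation ℂ (Par F m e) (TensorProduct ℂ πα.V πβ.V) :=
    Representation.tprod (πα.ρ.comp Par.pra) (πβ.ρ.comp Par.prx)
  let τ : Representation ℂ (Par F m e) πχ.V := πχ.ρ.comp (Par.j θ)
  refine ⟨Module.finrank ℂ (Representation.IntertwiningMap τ σ), ?_⟩
  rw [← ip_character_nat τ σ]
  congr 1
  funext p
  show _ = (Representation.tprod (πα.ρ.comp Par.pra) (πβ.ρ.comp Par.prx)).character p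
  rw [Representation.char_tensor]
  rfl

end Vale.Agent.P275.H85
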