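import Vale.Agent.P275.H85.B8

/-!
# Associativity and bilinearity of the product
-/

set_option linter.style.haveILetI false
set_option linter.unusedSectionVars false

namespace Vale.Agent.P275.H85

open scoped BigOperators MatrixGroups
open Module Matrix

variable {F : Type} [Field F] [Fintype F] [DecidableEq F]

section assoc

variable {V : Type} [AddCommGroup V] [Module F V] [FiniteDimensional F V]

open scoped Classical in
theorem sum_sub_le (W : Submodule F V) (A : Submodule F W → ℂ) :
    ∑ U' : Submodule F W, A U' =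
      ∑ U : Submodule F V, if U ≤ W then A (U.comap W.subtype) else 0 := by
  rw [← Finset.sum_filter]
  symm
  apply Finset.sum_bij (fun (U : Submodule F V) _ => U.comap W.subtype)
  · intro U _
    exact Finset.mem_univ _
  · intro U hU U' hU' h
    have h1 := (Finset.mem_filter.mp hU).2
    have h2 := (Finset.mem_filter.mp hU').2
    have h3 := congrArg (Submodule.map W.subtype) h
    rwa [Submodule.map_comap_subtype, Submodule.map_comap_subtype, inf_eq_right.mpr h1,
      inf_eq_right.mpr h2] at h3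
  · intro U' _
    refine ⟨U'.map W.subtype, ?_, ?_⟩
    · rw [Finset.mem_filter]
      exact ⟨Finset.mem_univ _, Submodule.map_subtype_le _ _⟩
    · exact Submodule.comap_map_eq_of_injective W.injective_subtype U'
  · intro U _
    rfl

open scoped Classical in
theorem sum_sub_ge (U : Submodule F V) (B : Submodule F (V ⧸ U) → ℂ) :
    ∑ W' : Submodule F (V ⧸ U), B W' =
      ∑ W : Submodule F V, if U ≤ W then B (W.map U.mkQ) else 0 := by
  rw [← Finset.sum_filter]
  symm
  apply Finset.sum_bij (fun (W : Submodule F V) _ => W.map U.mkQ)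
  · intro U _
    exact Finset.mem_univ _
  · intro W hW W' hW' h
    have h1 := (Finset.mem_filter.mp hW).2
    have h2 := (Finset.mem_filter.mp hW').2
    have h3 := congrArg (Submodule.comap U.mkQ) h
    rwa [Submodule.comap_map_mkQ, Submodule.comap_map_mkQ, sup_eq_right.mpr h1,
      sup_eq_right.mpr h2] at h3
  · intro W' _
    refine ⟨W'.comap U.mkQ, ?_, ?_⟩
    · rw [Finset.mem_filter]
      refine ⟨Finset.mem_univ _, ?_⟩
      intro u hu
      rw [Submodule.mem_comap]
      have : U.mkQ u = 0 := by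
        rw [← LinearMap.mem_ker, Submodule.ker_mkQ]
        exact hu
      rw [this]
      exact W'.zero_mem
    · exact Submodule.map_comap_eq_of_surjective U.mkQ_surjective W'
  · intro U _
    rfl

open scoped Classical in
theorem assoc_pair {f g h : CF F} (hf : IsoInv f) (hg : IsoInv g) (hh : IsoInv h)
    (φ : V →ₗ[F] V) (U W : Submodule F V) (hUW : U ≤ W) :
    (if hW : W ≤ W.comap φ then term f g (φ.restrict hW) (U.comap W.subtype) *
      h (V ⧸ W) (W.mapQ W φ hW) else 0)
    = (if hU : U ≤ U.comap φ then f U (φ.restrict hU) *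
      term g h (U.mapQ U φ hU) (W.map U.mkQ) else 0) := by
  by_cases hU : U ≤ U.comap φ
  · by_cases hW : W ≤ W.comap φ
    · rw [dif_pos hW, dif_pos hU]
      have hM : W.map U.mkQ ≤ (W.map U.mkQ).comap (U.mapQ U φ hU) := by
        rintro _ ⟨w, hw, rfl⟩
        exact ⟨φ w, hW hw, rfl⟩
      have e1 : term f g (φ.restrict hW) (U.comap W.subtype)
          = f U (φ.restrict hU) * g (W.map U.mkQ) ((U.mapQ U φ hU).restrict hM) := by
        apply term_exact hf hg (Submodule.inclusion hUW) (Submodule.inclusion_injective hUW)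
          ((U.mkQ.domRestrict W).codRestrict (W.map U.mkQ) (fun w => ⟨w, w.2, rfl⟩))
        · rintro ⟨_, w, hw, rfl⟩
          exact ⟨⟨w, hw⟩, rfl⟩
        · ext w
          constructor
          · rintro ⟨u, rfl⟩
            exact u.2
          · intro hw
            exact ⟨⟨w, hw⟩, rfl⟩
        · ext w
          constructor
          · intro hw
            have h1 : U.mkQ (w : V) = 0 := congrArg Subtype.val hw
            rwa [← LinearMap.mem_ker, Submodule.ker_mkQ] at h1
          · intro hw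
            rw [LinearMap.mem_ker]
            apply Subtype.ext
            show U.mkQ (w : V) = 0
            rw [← LinearMap.mem_ker, Submodule.ker_mkQ]
            exact hw
        · intro u
          rfl
        · intro w
          rfl
      have e2 : term g h (U.mapQ U φ hU) (W.map U.mkQ)
          = g (W.map U.mkQ) ((U.mapQ U φ hU).restrict hM) * h (V ⧸ W) (W.mapQ W φ hW) := by
        apply term_exact hg hh (W.map U.mkQ).subtype (Submodule.injective_subtype _)
          (U.liftQ W.mkQ (by rw [Submodule.ker_mkQ]; exact hUW))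
        · intro w
          obtain ⟨v, rfl⟩ := W.mkQ_surjective w
          exact ⟨U.mkQ v, rfl⟩
        · exact Submodule.range_subtype _
        · rw [Submodule.ker_liftQ, Submodule.ker_mkQ]
        · intro u
          rfl
        · intro v
          obtain ⟨v, rfl⟩ := U.mkQ_surjective v
          rfl
      rw [e1, e2, mul_assoc]
    · rw [dif_neg hW, dif_pos hU, term_of_not, mul_zero]
      intro hM
      apply hW
      intro w hw
      have h1 : U.mkQ w ∈ W.map U.mkQ := ⟨w, hw, rfl⟩
      have h2 : U.mkQ (φ w) ∈ W.map U.mkQ := hM h1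
      have h3 : φ w ∈ (W.map U.mkQ).comap U.mkQ := h2
      rwa [Submodule.comap_map_mkQ, sup_eq_right.mpr hUW] at h3
  · rw [dif_neg hU]
    split_ifs with hW
    · rw [term_of_not, zero_mul]
      intro hM
      apply hU
      intro u hu
      have h1 : (⟨u, hUW hu⟩ : W) ∈ U.comap W.subtype := hu
      exact hM h1
    · rfl

theorem mul_assoc' {f g h : CF F} (hf : IsoInv f) (hg : IsoInv g) (hh : IsoInv h)
    (φ : V →ₗ[F] V) : mul (mul f g) h V φ = mul f (mul g h) V φ := by
  classical
  have e1 : ∀ W : Submodule F V, term (mul f g) h φ W = ∑ U : Submodule F V, if U ≤ W then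
      (if hW : W ≤ W.comap φ then term f g (φ.restrict hW) (U.comap W.subtype) *
      h (V ⧸ W) (W.mapQ W φ hW) else 0) else 0 := by
    intro W
    by_cases hW : W ≤ W.comap φ
    · rw [term_of hW]
      simp only [dif_pos hW]
      unfold mul
      rw [Finset.sum_mul]
      exact sum_sub_le W (fun U' => term f g (φ.restrict hW) U' * h (V ⧸ W) (W.mapQ W φ hW))
    · rw [term_of_not hW]
      simp only [dif_neg hW, ite_self, Finset.sum_const_zero]
  have e2 : ∀ U : Submodule F V, term f (mul g h) φ U = ∑ W : Submodule F V, if U ≤ W then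
      (if hU : U ≤ U.comap φ then f U (φ.restrict hU) *
      term g h (U.mapQ U φ hU) (W.map U.mkQ) else 0) else 0 := by
    intro U
    by_cases hU : U ≤ U.comap φ
    · rw [term_of hU]
      simp only [dif_pos hU]
      unfold mul
      rw [Finset.mul_sum]
      exact sum_sub_ge U (fun W' => f U (φ.restrict hU) * term g h (U.mapQ U φ hU) W')
    · rw [term_of_not hU]
      simp only [dif_neg hU, ite_self, Finset.sum_const_zero]
  show ∑ W : Submodule F V, term (mul f g) h φ W = ∑ U : Submodule F V, term f (mul g h) φ U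
  rw [Finset.sum_congr rfl (fun W _ => e1 W), Finset.sum_congr rfl (fun U _ => e2 U),
    Finset.sum_comm]
  apply Finset.sum_congr rfl
  intro U _
  apply Finset.sum_congr rfl
  intro W _
  by_cases hUW : U ≤ W
  · rw [if_pos hUW, if_pos hUW, assoc_pair hf hg hh φ U W hUW]
  · rw [if_neg hUW, if_neg hUW]

end assoc

theorem CF_mul_assoc {f g h : CF F} (hf : IsoInv f) (hg : IsoInv g) (hh : IsoInv h) :
    mul (mul f g) h = mul f (mul g h) :=
  CF_ext (fun _ _ _ _ φ => mul_assoc' hf hg hh φ)

section unit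

variable {V : Type} [AddCommGroup V] [Module F V] [FiniteDimensional F V]

theorem one_mul' {f : CF F} (hf : IsoInv f) (φ : V →ₗ[F] V) : mul one f V φ = f V φ := by
  unfold mul
  rw [Finset.sum_eq_single ⊥]
  · rw [term_exact inv_one hf (0 : (Fin 0 → F) →ₗ[F] V) (fun x y _ => Subsingleton.elim _ _)
      (LinearMap.id : V →ₗ[F] V) Function.surjective_id (by rw [LinearMap.range_zero])
      (by rw [LinearMap.ker_id]) φ 0 φ (fun _ => by simp) (fun _ => rfl)]
    unfold one
    simp
  · intro K _ hK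
    by_cases h : K ≤ K.comap φ
    · rw [term_of h]
      unfold one
      rw [if_neg, zero_mul]
      rw [Submodule.finrank_eq_zero]
      exact hK
    · exact term_of_not h
  · intro h
    exact absurd (Finset.mem_univ _) h

theorem mul_one' {f : CF F} (hf : IsoInv f) (φ : V →ₗ[F] V) : mul f one V φ = f V φ := by
  unfold mul
  rw [Finset.sum_eq_single ⊤]
  · rw [term_exact hf inv_one (LinearMap.id : V →ₗ[F] V) Function.injective_id
      (0 : V →ₗ[F] (Fin 0 → F)) (fun x => ⟨0, Subsingleton.elim _ _⟩) (by rw [LinearMap.range_id])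
      (by rw [LinearMap.ker_zero]) φ φ 0 (fun _ => rfl) (fun _ => by simp)]
    unfold one
    simp
  · intro K _ hK
    by_cases h : K ≤ K.comap φ
    · rw [term_of h]
      unfold one
      rw [if_neg, mul_zero]
      intro h0
      apply hK
      haveI : Subsingleton (V ⧸ K) := finrank_zero_iff.mp h0
      exact Submodule.Quotient.subsingleton_iff.mp this
    · exact term_of_not h
  · intro h
    exact absurd (Finset.mem_univ _) h

end unit

theorem CF_one_mul {f : CF F} (hf : IsoInv f) : mul one f = f :=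
  CF_ext (fun _ _ _ _ φ => one_mul' hf φ)

theorem CF_mul_one {f : CF F} (hf : IsoInv f) : mul f one = f :=
  CF_ext (fun _ _ _ _ φ => mul_one' hf φ)

section linear

variable {V : Type} [AddCommGroup V] [Module F V] [FiniteDimensional F V]

theorem term_sum_left {ι : Type*} (s : Finset ι) (c : ι → ℂ) (f : ι → CF F) (f' g : CF F)
    (h : ∀ (V : Type) [AddCommGroup V] [Module F V] [FiniteDimensional F V] (φ : V →ₗ[F] V),
      f' V φ = ∑ i ∈ s, c i * f i V φ) (φ : V →ₗ[F] V) (K : Submodule F V) :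
    term f' g φ K = ∑ i ∈ s, c i * term (f i) g φ K := by
  by_cases hK : K ≤ K.comap φ
  · simp only [term_of hK]
    rw [h, Finset.sum_mul]
    apply Finset.sum_congr rfl
    intro i _
    ring
  · simp only [term_of_not hK, mul_zero, Finset.sum_const_zero]

theorem term_sum_right {ι : Type*} (s : Finset ι) (c : ι → ℂ) (g : ι → CF F) (f g' : CF F)
    (h : ∀ (V : Type) [AddCommGroup V] [Module F V] [FiniteDimensional F V] (φ : V →ₗ[F] V),
      g' V φ = ∑ i ∈ s, c i * g i V φ) (φ : V →ₗ[F] V) (K : Submodule F V) :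
    term f g' φ K = ∑ i ∈ s, c i * term f (g i) φ K := by
  by_cases hK : K ≤ K.comap φ
  · simp only [term_of hK]
    rw [h, Finset.mul_sum]
    apply Finset.sum_congr rfl
    intro i _
    ring
  · simp only [term_of_not hK, mul_zero, Finset.sum_const_zero]

theorem mul_sum_left {ι : Type*} (s : Finset ι) (c : ι → ℂ) (f : ι → CF F) (f' g : CF F)
    (h : ∀ (V : Type) [AddCommGroup V] [Module F V] [FiniteDimensional F V] (φ : V →ₗ[F] V),
      f' V φ = ∑ i ∈ s, c i * f i V φ) (φ : V →ₗ[F] V) :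
    mul f' g V φ = ∑ i ∈ s, c i * mul (f i) g V φ := by
  unfold mul
  simp only [term_sum_left s c f f' g h, Finset.mul_sum]
  rw [Finset.sum_comm]

theorem mul_sum_right {ι : Type*} (s : Finset ι) (c : ι → ℂ) (g : ι → CF F) (f g' : CF F)
    (h : ∀ (V : Type) [AddCommGroup V] [Module F V] [FiniteDimensional F V] (φ : V →ₗ[F] V),
      g' V φ = ∑ i ∈ s, c i * g i V φ) (φ : V →ₗ[F] V) :
    mul f g' V φ = ∑ i ∈ s, c i * mul f (g i) V φ := by
  unfold mul
  simp only [term_sum_right s c g f g' h, Finset.mul_sum]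
  rw [Finset.sum_comm]

end linear

theorem toCF_sum {n : ℕ} {ι : Type*} (s : Finset ι) (c : ι → ℂ) (χ : ι → GL (Fin n) F → ℂ)
    (V : Type) [AddCommGroup V] [Module F V] [FiniteDimensional F V] (φ : V →ₗ[F] V) :
    toCF (∑ i ∈ s, c i • χ i) V φ = ∑ i ∈ s, c i * toCF (χ i) V φ := by
  unfold toCF
  split_ifs with h
  · unfold ez
    split_ifs with h2
    · simp [Finset.sum_apply]
    · simp
  · simp

theorem pos_mul {e m n : ℕ} (hn : m + e = n) {f : GL (Fin e) F → ℂ} {g : GL (Fin m) F → ℂ}
    (hf : Pos f) (hg : Pos g) : Pos (rs n (mul (toCF f) (toCF g))) := by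
  obtain ⟨a, ha, _⟩ := hf.expandN
  obtain ⟨b, hb, _⟩ := hg.expandN
  have h1 : rs n (mul (toCF f) (toCF g)) = ∑ χ ∈ irrSet (GL (Fin e) F), (a χ : ℂ) •
      ∑ χ' ∈ irrSet (GL (Fin m) F), (b χ' : ℂ) • rs n (mul (toCF χ) (toCF χ')) := by
    funext x
    simp only [Finset.sum_apply, Pi.smul_apply, smul_eq_mul]
    unfold rs
    rw [mul_sum_left (irrSet (GL (Fin e) F)) (fun χ => (a χ : ℂ)) (fun χ => toCF χ) (toCF f) _
      (fun V _ _ _ φ => by
        conv_lhs => rw [ha]
        exact toCF_sum _ (fun χ => (a χ : ℂ)) (fun χ => χ) V φ)]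
    apply Finset.sum_congr rfl
    intro χ _
    congr 1
    rw [mul_sum_right (irrSet (GL (Fin m) F)) (fun χ => (b χ : ℂ)) (fun χ => toCF χ) _ (toCF g)
      (fun V _ _ _ φ => by
        conv_lhs => rw [hb]
        exact toCF_sum _ (fun χ => (b χ : ℂ)) (fun χ => χ) V φ)]
  rw [h1]
  apply Pos.sum
  intro χ hχ
  apply Pos.nsmul
  apply Pos.sum
  intro χ' hχ'
  apply Pos.nsmul
  exact pos_mul_irr hn (mem_irrSet.mp hχ) (mem_irrSet.mp hχ')

/-- constituents of the factors give constituents of the product -/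
theorem con_mul {e m n : ℕ} (hn : m + e = n) {f : GL (Fin e) F → ℂ} {g : GL (Fin m) F → ℂ}
    (hf : Pos f) (hg : Pos g) {α : GL (Fin e) F → ℂ} {β : GL (Fin m) F → ℂ}
    {χ : GL (Fin n) F → ℂ} (hα : IsIrrChar α) (hβ : IsIrrChar β) (hχ : IsIrrChar χ)
    (h1 : ip f α ≠ 0) (h2 : ip g β ≠ 0) (h3 : ip (rs n (mul (toCF α) (toCF β))) χ ≠ 0) :
    ip (rs n (mul (toCF f) (toCF g))) χ ≠ 0 := by
  classical
  obtain ⟨a, ha, ha'⟩ := hf.expandN
  obtain ⟨b, hb, hb'⟩ := hg.expandN
  have e1 : rs n (mul (toCF f) (toCF g)) = ∑ χ ∈ irrSet (GL (Fin e) F), (a χ : ℂ) •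
      ∑ χ' ∈ irrSet (GL (Fin m) F), (b χ' : ℂ) • rs n (mul (toCF χ) (toCF χ')) := by
    funext x
    simp only [Finset.sum_apply, Pi.smul_apply, smul_eq_mul]
    unfold rs
    rw [mul_sum_left (irrSet (GL (Fin e) F)) (fun χ => (a χ : ℂ)) (fun χ => toCF χ) (toCF f) _
      (fun V _ _ _ φ => by
        conv_lhs => rw [ha]
        exact toCF_sum _ (fun χ => (a χ : ℂ)) (fun χ => χ) V φ)]
    apply Finset.sum_congr rfl
    intro χ _
    congr 1
    rw [mul_sum_right (irrSet (GL (Fin m) F)) (fun χ => (b χ : ℂ)) (fun χ => toCF χ) _ (toCF g)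
      (fun V _ _ _ φ => by
        conv_lhs => rw [hb]
        exact toCF_sum _ (fun χ => (b χ : ℂ)) (fun χ => χ) V φ)]
  have hk : ∀ χ₁ ∈ irrSet (GL (Fin e) F), ∀ χ₂ ∈ irrSet (GL (Fin m) F),
      ∃ k : ℕ, ip (rs n (mul (toCF χ₁) (toCF χ₂))) χ = k := fun χ₁ h₁ χ₂ h₂ =>
    (pos_mul_irr hn (mem_irrSet.mp h₁) (mem_irrSet.mp h₂)).2 χ hχ
  choose! k hk' using hk
  rw [e1, ip_sum_left]
  have e2 : ∑ χ₁ ∈ irrSet (GL (Fin e) F), ip ((a χ₁ : ℂ) • ∑ χ' ∈ irrSet (GL (Fin m) F),
      (b χ' : ℂ) • rs n (mul (toCF χ₁) (toCF χ'))) χ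
      = ((∑ χ₁ ∈ irrSet (GL (Fin e) F), a χ₁ * ∑ χ₂ ∈ irrSet (GL (Fin m) F), b χ₂ * k χ₁ χ₂ : ℕ) : ℂ) := by
    push_cast
    apply Finset.sum_congr rfl
    intro χ₁ h₁
    rw [ip_smul_left, ip_sum_left]
    congr 1
    apply Finset.sum_congr rfl
    intro χ₂ h₂
    rw [ip_smul_left, hk' χ₁ h₁ χ₂ h₂]
  rw [e2]
  have hα' := mem_irrSet.mpr hα
  have hβ' := mem_irrSet.mpr hβ
  have n1 : a α ≠ 0 := by
    intro h0
    apply h1
    rw [ha' α hα, h0, Nat.cast_zero]
  have n2 : b β ≠ 0 := by
    intro h0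
    apply h2
    rw [hb' β hβ, h0, Nat.cast_zero]
  have n3 : k α β ≠ 0 := by
    intro h0
    apply h3
    rw [hk' α hα' β hβ', h0, Nat.cast_zero]
  rw [Nat.cast_ne_zero]
  intro h0
  have h4 := Finset.sum_eq_zero_iff.mp h0 α hα'
  have h5 := (Nat.mul_eq_zero.mp h4).resolve_left n1
  have h6 := Finset.sum_eq_zero_iff.mp h5 β hβ'
  exact (Nat.mul_ne_zero n2 n3) h6

end Vale.Agent.P275.H85
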