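import Vale.Agent.P275.H85.Defs

/-!
# Package C1: the dimension of a cuspidal class function
-/

set_option linter.style.haveILetI false
set_option linter.unusedSectionVars false

namespace Vale.Agent.P275.H85.C1

open scoped BigOperators MatrixGroups
open Matrix

variable {F : Type} [Field F] [Fintype F] [DecidableEq F] {n : ℕ}

/-- upper unitriangular matrix with entries from the columns `≥ m` of `c` -/
def Mt (m : ℕ) (c : Matrix (Fin n) (Fin n) F) : Matrix (Fin n) (Fin n) F :=
  Matrix.of fun i j => if i = j then 1 else if i < j ∧ m ≤ (j : ℕ) then c i j else 0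

/-- sum of the superdiagonal entries in the columns `≥ m` -/
def sdm (m : ℕ) (c : Matrix (Fin n) (Fin n) F) : F :=
  ∑ i : Fin n, ∑ j : Fin n, if (i : ℕ) + 1 = (j : ℕ) ∧ m ≤ (j : ℕ) then c i j else 0

/-- the truncated Whittaker averages -/
noncomputable def Dm (ψ : AddChar F ℂ) (χ : GL (Fin n) F → ℂ) (m : ℕ) : ℂ :=
  (Fintype.card (Matrix (Fin n) (Fin n) F) : ℂ)⁻¹ * ∑ c, ψ (-(sdm m c)) * ez χ (Mt m c)

theorem cM_ne : (Fintype.card (Matrix (Fin n) (Fin n) F) : ℂ) ≠ 0 := by
  exact_mod_cast Fintype.card_ne_zero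

theorem Dm_n (ψ : AddChar F ℂ) (χ : GL (Fin n) F → ℂ) : Dm ψ χ n = χ 1 := by
  unfold Dm
  have h1 : ∀ c : Matrix (Fin n) (Fin n) F, Mt n c = 1 := by
    intro c
    ext i j
    unfold Mt
    simp only [Matrix.of_apply]
    by_cases h : i = j
    · subst h; simp
    · rw [if_neg h, if_neg (by rintro ⟨_, h2⟩; have := j.2; omega), Matrix.one_apply_ne h]
  have h2 : ∀ c : Matrix (Fin n) (Fin n) F, sdm n c = 0 := by
    intro c
    unfold sdm
    apply Finset.sum_eq_zero
    intro i _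
    apply Finset.sum_eq_zero
    intro j _
    rw [if_neg (by rintro ⟨_, h2⟩; have := j.2; omega)]
  have h3 : ez χ (1 : Matrix (Fin n) (Fin n) F) = χ 1 := by
    unfold ez
    rw [dif_pos isUnit_one]
    congr 1
    apply Units.ext
    rfl
  simp only [h1, h2, neg_zero, AddChar.map_zero_eq_one, one_mul, h3, Finset.sum_const, Finset.card_univ,
    nsmul_eq_mul]
  rw [← mul_assoc, inv_mul_cancel₀ cM_ne, one_mul]

theorem Dm_one (ψ : AddChar F ℂ) (χ : GL (Fin n) F → ℂ) : Dm ψ χ 1 = whit ψ χ := by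
  unfold Dm whit
  congr 1
  apply Finset.sum_congr rfl
  intro c _
  have h1 : Mt 1 c = utri c := by
    ext i j
    unfold Mt utri
    simp only [Matrix.of_apply]
    by_cases h : i = j
    · simp [h]
    · rw [if_neg h, if_neg h]
      by_cases h2 : i < j
      · rw [if_pos h2, if_pos ⟨h2, by rw [Fin.lt_def] at h2; omega⟩]
      · rw [if_neg h2, if_neg (fun h3 => h2 h3.1)]
  have h2 : sdm 1 c = sd c := by
    unfold sdm sd
    apply Finset.sum_congr rfl
    intro i _
    apply Finset.sum_congr rfl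
    intro j _
    by_cases h : (i : ℕ) + 1 = (j : ℕ)
    · rw [if_pos h, if_pos ⟨h, by omega⟩]
    · rw [if_neg h, if_neg (fun h3 => h h3.1)]
  rw [h1, h2]

section step

variable {m : ℕ} (hm : m < n)

/-- replace the upper part of column `m` -/
def rep (m : ℕ) (v : Fin m → F) (c : Matrix (Fin n) (Fin n) F) : Matrix (Fin n) (Fin n) F :=
  Matrix.of fun i j => if h : (i : ℕ) < m ∧ (j : ℕ) = m then v ⟨i, h.1⟩ else c i j

/-- the matrix with upper part of column `m` equal to `v` -/
def emb (m : ℕ) (v : Fin m → F) : Matrix (Fin n) (Fin n) F := rep m v 0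

/-- upper part of column `m` -/
def colm (hm : m < n) (c : Matrix (Fin n) (Fin n) F) : Fin m → F :=
  fun i => c ⟨i, i.2.trans hm⟩ ⟨m, hm⟩

theorem rep_add (v w : Fin m → F) (c : Matrix (Fin n) (Fin n) F) : rep m v (c + emb m w) = rep m v c := by
  ext i j
  unfold emb rep
  simp only [Matrix.of_apply, Matrix.add_apply]
  by_cases h : (i : ℕ) < m ∧ (j : ℕ) = m
  · rw [dif_pos h, dif_pos h]
  · rw [dif_neg h, dif_neg h, dif_neg h]
    simp

theorem rep_colm (c : Matrix (Fin n) (Fin n) F) : rep m (colm hm c) c = c := by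
  ext i j
  unfold rep colm
  simp only [Matrix.of_apply]
  by_cases h : (i : ℕ) < m ∧ (j : ℕ) = m
  · rw [dif_pos h]
    have hj : j = ⟨m, hm⟩ := Fin.ext h.2
    exact congrArg (c i) hj.symm
  · rw [dif_neg h]

theorem colm_add (v : Fin m → F) (c : Matrix (Fin n) (Fin n) F) : colm hm (c + emb m v) = colm hm c + v := by
  funext i
  unfold colm emb rep
  simp

theorem split (G : Matrix (Fin n) (Fin n) F → (Fin m → F) → ℂ) (hG : ∀ c v w, G (c + emb m w) v = G c v) :
    ∑ v, ∑ c, G c v = (Fintype.card (Fin m → F) : ℂ) * ∑ c, G c (colm hm c) := by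
  calc ∑ v, ∑ c, G c v = ∑ c, ∑ v, G c v := Finset.sum_comm
    _ = ∑ c, ∑ v, G c (colm hm c + v) := by
        apply Finset.sum_congr rfl
        intro c _
        rw [← Equiv.sum_comp (Equiv.addLeft (colm hm c))]
        rfl
    _ = ∑ v, ∑ c, G (c + emb m v) (colm hm (c + emb m v)) := by
        rw [Finset.sum_comm]
        apply Finset.sum_congr rfl
        intro v _
        apply Finset.sum_congr rfl
        intro c _
        rw [hG, colm_add]
    _ = ∑ v : Fin m → F, ∑ c, G c (colm hm c) := by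
        apply Finset.sum_congr rfl
        intro v _
        exact Equiv.sum_comp (Equiv.addRight (emb m v)) (fun c => G c (colm hm c))
    _ = _ := by
        rw [Finset.sum_const, Finset.card_univ, nsmul_eq_mul]

theorem sdm_emb (v : Fin m → F) (c : Matrix (Fin n) (Fin n) F) : sdm (m + 1) (c + emb m v) = sdm (m + 1) c := by
  unfold sdm
  apply Finset.sum_congr rfl
  intro i _
  apply Finset.sum_congr rfl
  intro j _
  by_cases h : (i : ℕ) + 1 = (j : ℕ) ∧ m + 1 ≤ (j : ℕ)
  · rw [if_pos h, if_pos h]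
    unfold emb rep
    simp only [Matrix.add_apply, Matrix.of_apply]
    rw [dif_neg (by omega)]
    simp
  · rw [if_neg h, if_neg h]

theorem sdm_succ (hm0 : 0 < m) (c : Matrix (Fin n) (Fin n) F) :
    sdm m c = colm hm c ⟨m - 1, by omega⟩ + sdm (m + 1) c := by
  have h1 : ∀ i j : Fin n, (if (i : ℕ) + 1 = (j : ℕ) ∧ m ≤ (j : ℕ) then c i j else 0) =
      (if (i : ℕ) + 1 = m ∧ (j : ℕ) = m then c i j else 0) +
        (if (i : ℕ) + 1 = (j : ℕ) ∧ m + 1 ≤ (j : ℕ) then c i j else 0) := by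
    intro i j
    by_cases h1 : (i : ℕ) + 1 = (j : ℕ)
    · by_cases h2 : (j : ℕ) = m
      · rw [if_pos ⟨h1, h2.ge⟩, if_pos ⟨h1.trans h2, h2⟩, if_neg (by omega), add_zero]
      · by_cases h3 : m ≤ (j : ℕ)
        · rw [if_pos ⟨h1, h3⟩, if_neg (by omega), if_pos ⟨h1, by omega⟩, zero_add]
        · rw [if_neg (by omega), if_neg (by omega), if_neg (by omega), add_zero]
    · rw [if_neg (by omega), if_neg (by omega), if_neg (by omega), add_zero]
  unfold sdm
  simp only [h1, Finset.sum_add_distrib]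
  congr 1
  unfold colm
  rw [Finset.sum_eq_single (⟨m - 1, by omega⟩ : Fin n)]
  · rw [Finset.sum_eq_single (⟨m, hm⟩ : Fin n)]
    · rw [if_pos ⟨by simp; omega, rfl⟩]
    · intro j _ hj
      rw [if_neg]
      rintro ⟨_, h⟩
      exact hj (Fin.ext h)
    · intro h; exact absurd (Finset.mem_univ _) h
  · intro i _ hi
    apply Finset.sum_eq_zero
    intro j _
    rw [if_neg]
    rintro ⟨h, _⟩
    exact hi (Fin.ext (by simp; omega))
  · intro h; exact absurd (Finset.mem_univ _) h

/-- the partial average with prescribed column `m` -/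
noncomputable def H (ψ : AddChar F ℂ) (χ : GL (Fin n) F → ℂ) (m : ℕ) (v : Fin m → F) : ℂ :=
  (Fintype.card (Matrix (Fin n) (Fin n) F) : ℂ)⁻¹ * ∑ c, ψ (-(sdm (m + 1) c)) * ez χ (Mt m (rep m v c))

theorem Mt_rep_zero (m : ℕ) (c : Matrix (Fin n) (Fin n) F) : Mt m (rep m 0 c) = Mt (m + 1) c := by
  ext i j
  unfold Mt rep
  simp only [Matrix.of_apply, Pi.zero_apply]
  by_cases h : i = j
  · rw [if_pos h, if_pos h]
  · rw [if_neg h, if_neg h]
    by_cases h1 : i < j
    · by_cases h2 : (j : ℕ) = m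
      · have h3 : (i : ℕ) < m ∧ (j : ℕ) = m := ⟨by rw [Fin.lt_def] at h1; omega, h2⟩
        rw [dif_pos h3, if_neg (c := i < j ∧ m + 1 ≤ (j : ℕ)) (by omega)]
        simp
      · rw [dif_neg (by omega)]
        by_cases h3 : m ≤ (j : ℕ)
        · rw [if_pos ⟨h1, h3⟩, if_pos ⟨h1, by omega⟩]
        · rw [if_neg (by omega), if_neg (by omega)]
    · rw [if_neg (fun h2 => h1 h2.1), if_neg (fun h2 => h1 h2.1)]

theorem H_zero (ψ : AddChar F ℂ) (χ : GL (Fin n) F → ℂ) (m : ℕ) : H ψ χ m 0 = Dm ψ χ (m + 1) := by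
  unfold H Dm
  simp only [Mt_rep_zero]

theorem sum_H (hm : m < n) (ψ : AddChar F ℂ) (χ : GL (Fin n) F → ℂ) (hm0 : 0 < m) (hc : Cusp (ez χ)) :
    ∑ v, H ψ χ m v = 0 := by
  unfold H
  rw [← Finset.mul_sum]
  rw [split hm (fun c v => ψ (-(sdm (m + 1) c)) * ez χ (Mt m (rep m v c)))
    (fun c v w => by rw [sdm_emb, rep_add])]
  have h1 : ∑ c, ψ (-(sdm (m + 1) c)) * ez χ (Mt m (rep m (colm hm c) c)) = 0 := by
    simp only [rep_colm]
    have h2 : (Fintype.card (Matrix (Fin n) (Fin n) F) : ℂ) * ∑ c, ψ (-(sdm (m + 1) c)) * ez χ (Mt m c) = 0 := by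
      calc (Fintype.card (Matrix (Fin n) (Fin n) F) : ℂ) * ∑ c, ψ (-(sdm (m + 1) c)) * ez χ (Mt m c)
          = ∑ c' : Matrix (Fin n) (Fin n) F, ∑ c, ψ (-(sdm (m + 1) c)) * ez χ (Mt m c) := by
            rw [Finset.sum_const, Finset.card_univ, nsmul_eq_mul]
        _ = ∑ c' : Matrix (Fin n) (Fin n) F, ∑ c, ψ (-(sdm (m + 1) (c + ur m c'))) * ez χ (Mt m (c + ur m c')) := by
            apply Finset.sum_congr rfl
            intro c' _
            exact (Equiv.sum_comp (Equiv.addRight (ur m c'))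
              (fun c => ψ (-(sdm (m + 1) c)) * ez χ (Mt m c))).symm
        _ = ∑ c : Matrix (Fin n) (Fin n) F, ψ (-(sdm (m + 1) c)) * ∑ c', ez χ (Mt m c + ur m c') := by
            rw [Finset.sum_comm]
            apply Finset.sum_congr rfl
            intro c _
            rw [Finset.mul_sum]
            apply Finset.sum_congr rfl
            intro c' _
            have h3 : sdm (m + 1) (c + ur m c') = sdm (m + 1) c := by
              unfold sdm
              apply Finset.sum_congr rfl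
              intro i _
              apply Finset.sum_congr rfl
              intro j _
              by_cases h : (i : ℕ) + 1 = (j : ℕ) ∧ m + 1 ≤ (j : ℕ)
              · rw [if_pos h, if_pos h]
                unfold ur
                simp only [Matrix.add_apply, Matrix.of_apply]
                rw [if_neg (by omega), add_zero]
              · rw [if_neg h, if_neg h]
            have h4 : Mt m (c + ur m c') = Mt m c + ur m c' := by
              ext i j
              unfold Mt ur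
              simp only [Matrix.add_apply, Matrix.of_apply]
              by_cases h : i = j
              · rw [if_pos h, if_pos h, if_neg (by rw [h]; omega), add_zero]
              · rw [if_neg h, if_neg h]
                by_cases h5 : i < j ∧ m ≤ (j : ℕ)
                · rw [if_pos h5, if_pos h5]
                · rw [if_neg h5, if_neg h5, if_neg (by rw [Fin.lt_def] at h5; omega), add_zero]
            rw [h3, h4]
        _ = 0 := by
            apply Finset.sum_eq_zero
            intro c _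
            rw [hc m hm0 hm (Mt m c), mul_zero]
            intro i j hi hj
            unfold Mt
            simp only [Matrix.of_apply]
            rw [if_neg, if_neg]
            · rw [Fin.lt_def]; omega
            · rintro rfl; omega
    rcases mul_eq_zero.mp h2 with h3 | h3
    · exact absurd h3 cM_ne
    · exact h3
  rw [h1]
  simp

theorem sum_ψH (hm : m < n) (ψ : AddChar F ℂ) (χ : GL (Fin n) F → ℂ) (hm0 : 0 < m) :
    ∑ v : Fin m → F, ψ (-(v ⟨m - 1, by omega⟩)) * H ψ χ m v = (Fintype.card (Fin m → F) : ℂ) * Dm ψ χ m := by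
  have h1 := split hm (fun c v => ψ (-(v ⟨m - 1, by omega⟩)) * (ψ (-(sdm (m + 1) c)) * ez χ (Mt m (rep m v c))))
    (fun c v w => by rw [sdm_emb, rep_add])
  have h2 : ∑ v : Fin m → F, ψ (-(v ⟨m - 1, by omega⟩)) * H ψ χ m v =
      (Fintype.card (Matrix (Fin n) (Fin n) F) : ℂ)⁻¹ *
        ∑ v : Fin m → F, ∑ c, ψ (-(v ⟨m - 1, by omega⟩)) * (ψ (-(sdm (m + 1) c)) * ez χ (Mt m (rep m v c))) := by
    rw [Finset.mul_sum]
    apply Finset.sum_congr rfl
    intro v _
    unfold H
    rw [← Finset.mul_sum]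
    ring
  rw [h2, h1]
  unfold Dm
  rw [mul_left_comm]
  congr 2
  apply Finset.sum_congr rfl
  intro c _
  rw [rep_colm, ← mul_assoc, ← AddChar.map_add_eq_mul, sdm_succ hm hm0]
  congr 2
  ring

theorem ez_conj' {χ : GL (Fin n) F → ℂ} (h : IsClass χ) (g : GL (Fin n) F) (A : Matrix (Fin n) (Fin n) F) :
    ez χ (g.val * A * (g⁻¹).val) = ez χ A := by
  unfold ez
  by_cases hA : IsUnit A
  · have h1 : IsUnit (g.val * A * (g⁻¹).val) := (g.isUnit.mul hA).mul (g⁻¹).isUnit
    rw [dif_pos hA, dif_pos h1, ← h hA.unit g]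
    congr 1
    apply Units.ext
    rfl
  · rw [dif_neg hA, dif_neg]
    intro h1
    apply hA
    have h2 : A = (g⁻¹).val * (g.val * A * (g⁻¹).val) * g.val := by
      rw [← mul_assoc, ← mul_assoc, Units.inv_mul, one_mul, mul_assoc, Units.inv_mul, mul_one]
    rw [h2]
    exact ((g⁻¹).isUnit.mul h1).mul g.isUnit

/-- extension by zero of a vector -/
def xt (n : ℕ) {m : ℕ} (w : Fin m → F) : Fin n → F := fun i => if h : (i : ℕ) < m then w ⟨i, h⟩ else 0

/-- the matrix unit combination `w ⊗ e_i` -/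
def wE (w : Fin m → F) (i : Fin m) : Matrix (Fin n) (Fin n) F :=
  Matrix.of fun k l => if (l : ℕ) = (i : ℕ) then xt n w k else 0

theorem wE_mul (hm : m < n) (w : Fin m → F) (i : Fin m) (A : Matrix (Fin n) (Fin n) F) (k l : Fin n) :
    ((wE w i : Matrix (Fin n) (Fin n) F) * A) k l = xt n w k * A ⟨i, i.2.trans hm⟩ l := by
  rw [Matrix.mul_apply, Finset.sum_eq_single (⟨i, i.2.trans hm⟩ : Fin n)]
  · unfold wE
    simp
  · intro j _ hj
    unfold wE
    have : (j : ℕ) ≠ (i : ℕ) := fun h => hj (Fin.ext h)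
    simp [this]
  · intro h; exact absurd (Finset.mem_univ _) h

theorem mul_wE (w : Fin m → F) (i : Fin m) (A : Matrix (Fin n) (Fin n) F) (k l : Fin n) :
    (A * (wE w i : Matrix (Fin n) (Fin n) F)) k l = if (l : ℕ) = (i : ℕ) then ∑ j, A k j * xt n w j else 0 := by
  rw [Matrix.mul_apply]
  unfold wE
  by_cases h : (l : ℕ) = (i : ℕ)
  · simp [h]
  · simp [h]

theorem Mt_xt (c : Matrix (Fin n) (Fin n) F) (w : Fin m → F) (k : Fin n) :
    ∑ j, Mt m c k j * xt n w j = xt n w k := by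
  rw [Finset.sum_eq_single k]
  · unfold Mt
    simp
  · intro j _ hj
    unfold xt
    by_cases h : (j : ℕ) < m
    · unfold Mt
      simp only [Matrix.of_apply]
      rw [if_neg (Ne.symm hj), if_neg (by omega), zero_mul]
    · rw [dif_neg h, mul_zero]
  · intro h; exact absurd (Finset.mem_univ _) h

/-- the elementary unit `1 + w ⊗ e_i` -/
theorem exists_unit (hm : m < n) (w : Fin m → F) (i : Fin m) (hw : 1 + w i ≠ 0) :
    ∃ g : GL (Fin n) F, g.val = 1 + wE w i := by
  have hEE : (wE w i : Matrix (Fin n) (Fin n) F) * wE w i = w i • wE w i := by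
    ext k l
    rw [wE_mul hm, Matrix.smul_apply, smul_eq_mul]
    unfold wE
    simp only [Matrix.of_apply]
    by_cases h : (l : ℕ) = (i : ℕ)
    · rw [if_pos h, if_pos h]
      unfold xt
      simp [mul_comm]
    · rw [if_neg h, if_neg h, mul_zero, mul_zero]
  refine ⟨⟨1 + wE w i, 1 - (1 + w i)⁻¹ • wE w i, ?_, ?_⟩, rfl⟩
  · rw [add_mul, one_mul, mul_sub, mul_one, mul_smul_comm, hEE, smul_smul]
    have : (1 + w i)⁻¹ * w i = 1 - (1 + w i)⁻¹ := by field_simp; ring
    rw [this, sub_smul, one_smul]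
    abel
  · rw [sub_mul, one_mul, mul_add, mul_one, smul_mul_assoc, hEE, smul_smul]
    have : (1 + w i)⁻¹ * w i = 1 - (1 + w i)⁻¹ := by field_simp; ring
    rw [this, sub_smul, one_smul]
    abel

theorem conj_Mt (hm : m < n) (w : Fin m → F) (i : Fin m) (v : Fin m → F) (c : Matrix (Fin n) (Fin n) F) :
    (1 + wE w i) * Mt m (rep m v c) = Mt m (rep m (v + v i • w) ((1 + wE w i) * c)) * (1 + wE w i) := by
  ext k l
  rw [add_mul, mul_add, one_mul, mul_one, Matrix.add_apply, Matrix.add_apply, wE_mul hm, mul_wE, Mt_xt]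
  have hrep : rep m (v + v i • w) ((1 + wE w i) * c) = rep m (v + v i • w) (c + wE w i * c) := by
    rw [add_mul, one_mul]
  rw [hrep]
  unfold Mt rep
  simp only [Matrix.of_apply, Matrix.add_apply, Pi.add_apply, Pi.smul_apply, smul_eq_mul]
  rw [wE_mul hm]
  have hi := i.2
  by_cases hk : (k : ℕ) < m
  · -- upper rows
    have hxt : xt n w k = w ⟨k, hk⟩ := by unfold xt; rw [dif_pos hk]
    rw [hxt]
    rcases lt_trichotomy (l : ℕ) m with hl | hl | hl
    · -- first columns
      have h1 : ¬ (k < l ∧ m ≤ (l : ℕ)) := by omega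
      have h2 : ¬ ((⟨i, i.2.trans hm⟩ : Fin n) < l ∧ m ≤ (l : ℕ)) := by omega
      rw [if_neg h1, if_neg h1, if_neg h2]
      by_cases hli : (l : ℕ) = (i : ℕ)
      · have h3 : (⟨i, i.2.trans hm⟩ : Fin n) = l := Fin.ext hli.symm
        rw [if_pos h3, if_pos hli, mul_one]
      · have h3 : ¬ (⟨i, i.2.trans hm⟩ : Fin n) = l := fun h => hli (congrArg Fin.val h).symm
        rw [if_neg h3, if_neg hli, mul_zero]
    · have hkl : ¬ k = l := by rintro rfl; omega
      have hkl2 : k < l ∧ m ≤ (l : ℕ) := ⟨by rw [Fin.lt_def]; omega, hl.ge⟩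
      have h3 : ¬ (⟨i, i.2.trans hm⟩ : Fin n) = l := fun h => by
        have := congrArg Fin.val h
        simp at this
        omega
      have h4 : (⟨i, i.2.trans hm⟩ : Fin n) < l ∧ m ≤ (l : ℕ) := ⟨by rw [Fin.lt_def]; simp; omega, hl.ge⟩
      have h5 : (k : ℕ) < m ∧ (l : ℕ) = m := ⟨hk, hl⟩
      have h6 : (i : ℕ) < m ∧ (l : ℕ) = m := ⟨i.2, hl⟩
      have h7 : ¬ (l : ℕ) = (i : ℕ) := by omega
      rw [if_neg hkl, if_pos hkl2, dif_pos h5, if_neg h3, if_pos h4, dif_pos h6, if_neg hkl, if_pos hkl2,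
        dif_pos h5, if_neg h7]
      ring
    · have hkl : ¬ k = l := by rintro rfl; omega
      have hkl2 : k < l ∧ m ≤ (l : ℕ) := ⟨by rw [Fin.lt_def]; omega, hl.le⟩
      have h3 : ¬ (⟨i, i.2.trans hm⟩ : Fin n) = l := fun h => by
        have := congrArg Fin.val h
        simp at this
        omega
      have h4 : (⟨i, i.2.trans hm⟩ : Fin n) < l ∧ m ≤ (l : ℕ) := ⟨by rw [Fin.lt_def]; simp; omega, hl.le⟩
      have h5 : ¬ ((k : ℕ) < m ∧ (l : ℕ) = m) := by omega
      have h6 : ¬ ((i : ℕ) < m ∧ (l : ℕ) = m) := by omega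
      have h7 : ¬ (l : ℕ) = (i : ℕ) := by omega
      rw [if_neg hkl, if_pos hkl2, dif_neg h5, if_neg h3, if_pos h4, dif_neg h6, if_neg hkl, if_pos hkl2,
        dif_neg h5, if_neg h7]
      ring
  · have hxt : xt n w k = 0 := by unfold xt; rw [dif_neg hk]
    have h5 : ¬ ((k : ℕ) < m ∧ (l : ℕ) = m) := by omega
    rw [hxt, zero_mul, zero_mul, dif_neg h5, dif_neg h5, ite_self, add_zero, add_zero, add_zero]

theorem ez_step (hm : m < n) {χ : GL (Fin n) F → ℂ} (hχ : IsClass χ) (w : Fin m → F) (i : Fin m)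
    (g : GL (Fin n) F) (hg : g.val = 1 + wE w i) (v : Fin m → F) (c : Matrix (Fin n) (Fin n) F) :
    ez χ (Mt m (rep m v c)) = ez χ (Mt m (rep m (v + v i • w) (g.val * c))) := by
  have h0 := conj_Mt hm w i v c
  rw [← hg] at h0
  have h1 : g.val * Mt m (rep m v c) * (g⁻¹).val = Mt m (rep m (v + v i • w) (g.val * c)) := by
    rw [h0, mul_assoc, Units.mul_inv, mul_one]
  rw [← ez_conj' hχ g (Mt m (rep m v c)), h1]

theorem sdm_step (hm : m < n) (w : Fin m → F) (i : Fin m)
    (g : GL (Fin n) F) (hg : g.val = 1 + wE w i) (c : Matrix (Fin n) (Fin n) F) :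
    sdm (m + 1) (g.val * c) = sdm (m + 1) c := by
  rw [hg, add_mul, one_mul]
  unfold sdm
  apply Finset.sum_congr rfl
  intro k _
  apply Finset.sum_congr rfl
  intro l _
  by_cases h : (k : ℕ) + 1 = (l : ℕ) ∧ m + 1 ≤ (l : ℕ)
  · rw [if_pos h, if_pos h, Matrix.add_apply, wE_mul hm]
    unfold xt
    rw [dif_neg (by omega), zero_mul, add_zero]
  · rw [if_neg h, if_neg h]

theorem H_step (hm : m < n) (ψ : AddChar F ℂ) {χ : GL (Fin n) F → ℂ} (hχ : IsClass χ) (w : Fin m → F) (i : Fin m)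
    (hw : 1 + w i ≠ 0) (v : Fin m → F) : H ψ χ m v = H ψ χ m (v + v i • w) := by
  obtain ⟨g, hg⟩ := exists_unit hm w i hw
  have h3 := Equiv.sum_comp (Units.mulLeft g)
    (fun c => ψ (-(sdm (m + 1) c)) * ez χ (Mt m (rep m (v + v i • w) c)))
  unfold H
  rw [← h3]
  congr 1
  apply Finset.sum_congr rfl
  intro c _
  rw [Units.mulLeft_apply, sdm_step hm w i g hg c, ez_step hm hχ w i g hg v c]

theorem H_const (hm : m < n) (ψ : AddChar F ℂ) {χ : GL (Fin n) F → ℂ} (hχ : IsClass χ) (v : Fin m → F) (hv : v ≠ 0) :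
    H ψ χ m v = H ψ χ m 1 := by
  obtain ⟨i, hi⟩ := Function.ne_iff.mp hv
  simp only [Pi.zero_apply] at hi
  have h1 := H_step hm ψ hχ ((v i)⁻¹ • (1 - v)) i (by
    simp only [Pi.smul_apply, Pi.sub_apply, Pi.one_apply, smul_eq_mul]
    have : 1 + (v i)⁻¹ * (1 - v i) = (v i)⁻¹ := by field_simp; ring
    rw [this]
    exact inv_ne_zero hi) v
  rw [h1]
  congr 1
  rw [smul_smul, mul_inv_cancel₀ hi, one_smul]
  abel

theorem D_step (hm : m < n) (hm0 : 0 < m) (ψ : AddChar F ℂ) (hψ : ψ ≠ 1) {χ : GL (Fin n) F → ℂ} (hχ : IsClass χ)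
    (hc : Cusp (ez χ)) : Dm ψ χ (m + 1) = ((Fintype.card F : ℂ) ^ m - 1) * Dm ψ χ m := by
  have h1 := sum_H hm ψ χ hm0 hc
  have h2 := sum_ψH hm ψ χ hm0
  have hψs : ∑ v : Fin m → F, ψ (-(v ⟨m - 1, by omega⟩)) = 0 := by
    obtain ⟨t, ht⟩ : ∃ t, ψ t ≠ 1 := by
      by_contra hcon
      push Not at hcon
      apply hψ
      ext t
      rw [hcon t]
      simp
    have h3 : ∑ v : Fin m → F, ψ (-(v ⟨m - 1, by omega⟩)) = ψ t * ∑ v : Fin m → F, ψ (-(v ⟨m - 1, by omega⟩)) := by
      rw [Finset.mul_sum]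
      rw [← Equiv.sum_comp (Equiv.subRight (fun _ : Fin m => t))]
      apply Finset.sum_congr rfl
      intro v _
      rw [← AddChar.map_add_eq_mul]
      congr 1
      simp [sub_eq_add_neg]
    have h4 : (1 - ψ t) * ∑ v : Fin m → F, ψ (-(v ⟨m - 1, by omega⟩)) = 0 := by
      rw [sub_mul, one_mul, ← h3, sub_self]
    rcases mul_eq_zero.mp h4 with h5 | h5
    · exact absurd (sub_eq_zero.mp h5).symm ht
    · exact h5
  have h3 : ∑ v : Fin m → F, (H ψ χ m v - H ψ χ m 1) = H ψ χ m 0 - H ψ χ m 1 := by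
    rw [Finset.sum_eq_single 0]
    · intro v _ hv
      rw [H_const hm ψ hχ v hv, sub_self]
    · intro h; exact absurd (Finset.mem_univ _) h
  have h4 : ∑ v : Fin m → F, ψ (-(v ⟨m - 1, by omega⟩)) * (H ψ χ m v - H ψ χ m 1) = H ψ χ m 0 - H ψ χ m 1 := by
    rw [Finset.sum_eq_single 0]
    · simp
    · intro v _ hv
      rw [H_const hm ψ hχ v hv, sub_self, mul_zero]
    · intro h; exact absurd (Finset.mem_univ _) h
  rw [Finset.sum_sub_distrib, h1, Finset.sum_const, Finset.card_univ, nsmul_eq_mul] at h3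
  simp only [mul_sub] at h4
  rw [Finset.sum_sub_distrib, h2, ← Finset.sum_mul, hψs, zero_mul, sub_zero] at h4
  have hcard : (Fintype.card (Fin m → F) : ℂ) = (Fintype.card F : ℂ) ^ m := by
    rw [Fintype.card_fun, Fintype.card_fin]
    push_cast
    rfl
  have hne : (Fintype.card (Fin m → F) : ℂ) ≠ 0 := by exact_mod_cast Fintype.card_ne_zero
  rw [← H_zero]
  rw [← h4] at h3
  have h5 : -H ψ χ m 1 = Dm ψ χ m := by
    apply mul_left_cancel₀ hne
    linear_combination h3
  rw [hcard] at h4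
  rw [← h5] at h4 ⊢
  linear_combination -h4

end step

end Vale.Agent.P275.H85.C1

namespace Vale.Agent.P275.H85

/-- package C1 -/
theorem pkgC1 : PkgC1 := by
  intro F _ _ _ n hn ψ hψ χ hχ hc
  have key : ∀ m, 1 ≤ m → m ≤ n → C1.Dm ψ χ m = (∏ k ∈ Finset.Ico 1 m, ((Fintype.card F : ℂ) ^ k - 1)) * whit ψ χ := by
    intro m hm
    induction m, hm using Nat.le_induction with
    | base =>
      intro _
      rw [C1.Dm_one]
      simp
    | succ m hm ih =>
      intro hmn
      rw [C1.D_step (by omega) (by omega) ψ hψ hχ hc, ih (by omega), Finset.prod_Ico_succ_top hm]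
      ring
  rw [← C1.Dm_n ψ χ]
  exact key n hn le_rfl

end Vale.Agent.P275.H85
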