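import Vale.Agent.P275.H85.Defs

/-!
# Package C2: uniqueness of Whittaker models for `GL_n` over a finite field
-/

set_option linter.style.haveILetI false
set_option linter.unusedSectionVars false

namespace Vale.Agent.P275.H85.C2

open scoped BigOperators MatrixGroups
open Matrix

variable {F : Type} [Field F] [Fintype F] [DecidableEq F] {n : ℕ}

/-- upper unitriangular matrices -/
def IsU (A : Matrix (Fin n) (Fin n) F) : Prop := ∀ i j, j ≤ i → A i j = if i = j then 1 else 0

theorem isU_utri (c : Matrix (Fin n) (Fin n) F) : IsU (utri c) := by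
  intro i j hij
  unfold utri
  simp only [Matrix.of_apply]
  by_cases h : i = j
  · simp [h]
  · rw [if_neg h, if_neg h, if_neg (not_lt.mpr hij)]

theorem utri_of_isU {A : Matrix (Fin n) (Fin n) F} (hA : IsU A) : utri A = A := by
  ext i j
  unfold utri
  simp only [Matrix.of_apply]
  by_cases h : i = j
  · rw [if_pos h, hA i j h.ge, if_pos h]
  · by_cases h2 : i < j
    · rw [if_neg h, if_pos h2]
    · rw [if_neg h, if_neg h2, hA i j (not_lt.mp h2), if_neg h]

theorem utri_upper {c c' : Matrix (Fin n) (Fin n) F} (h : ∀ i j, i < j → c i j = c' i j) :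
    utri c = utri c' := by
  ext i j
  unfold utri
  simp only [Matrix.of_apply]
  by_cases h1 : i = j
  · simp [h1]
  · by_cases h2 : i < j
    · rw [if_neg h1, if_pos h2, if_neg h1, if_pos h2, h i j h2]
    · rw [if_neg h1, if_neg h2, if_neg h1, if_neg h2]

theorem sd_utri (c : Matrix (Fin n) (Fin n) F) : sd (utri c) = sd c := by
  unfold sd
  apply Finset.sum_congr rfl
  intro i _
  apply Finset.sum_congr rfl
  intro j _
  by_cases h : (i : ℕ) + 1 = (j : ℕ)
  · rw [if_pos h, if_pos h]
    unfold utri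
    simp only [Matrix.of_apply]
    have h1 : i < j := by rw [Fin.lt_def]; omega
    rw [if_neg h1.ne, if_pos h1]
  · rw [if_neg h, if_neg h]

theorem isU_mul {A B : Matrix (Fin n) (Fin n) F} (hA : IsU A) (hB : IsU B) : IsU (A * B) := by
  intro i j hij
  rw [Matrix.mul_apply]
  by_cases h : i = j
  · subst h
    rw [if_pos rfl, Finset.sum_eq_single i]
    · rw [hA i i le_rfl, hB i i le_rfl]; simp
    · intro k _ hk
      rcases lt_or_gt_of_ne hk with h1 | h1
      · rw [hA i k h1.le, if_neg h1.ne', zero_mul]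
      · rw [hB k i h1.le, if_neg h1.ne', mul_zero]
    · intro h; exact absurd (Finset.mem_univ _) h
  · rw [if_neg h]
    apply Finset.sum_eq_zero
    intro k _
    by_cases h1 : k < i
    · rw [hA i k h1.le, if_neg h1.ne', zero_mul]
    · have h2 : j < k := lt_of_lt_of_le (lt_of_le_of_ne hij (Ne.symm h)) (not_lt.mp h1)
      rw [hB k j h2.le, if_neg h2.ne', mul_zero]

theorem mul_succ {A B : Matrix (Fin n) (Fin n) F} (hA : IsU A) (hB : IsU B) (i j : Fin n)
    (hij : (i : ℕ) + 1 = (j : ℕ)) : (A * B) i j = A i j + B i j := by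
  rw [Matrix.mul_apply]
  have hlt : i < j := by rw [Fin.lt_def]; omega
  rw [← Finset.sum_subset (Finset.subset_univ {i, j})]
  · rw [Finset.sum_pair hlt.ne]
    rw [hA i i le_rfl, hB j j le_rfl]
    simp
    ring
  · intro k _ hk
    simp only [Finset.mem_insert, Finset.mem_singleton, not_or] at hk
    by_cases h1 : k < i
    · rw [hA i k h1.le, if_neg h1.ne', zero_mul]
    · have h2 : j < k := by
        rw [Fin.lt_def] at *
        have h3 : (k : ℕ) ≠ i := fun h => hk.1 (Fin.ext h)
        have h4 : (k : ℕ) ≠ j := fun h => hk.2 (Fin.ext h)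
        omega
      rw [hB k j h2.le, if_neg h2.ne', mul_zero]

theorem sd_mul {A B : Matrix (Fin n) (Fin n) F} (hA : IsU A) (hB : IsU B) :
    sd (A * B) = sd A + sd B := by
  unfold sd
  rw [← Finset.sum_add_distrib]
  apply Finset.sum_congr rfl
  intro i _
  rw [← Finset.sum_add_distrib]
  apply Finset.sum_congr rfl
  intro j _
  by_cases h : (i : ℕ) + 1 = (j : ℕ)
  · rw [if_pos h, if_pos h, if_pos h, mul_succ hA hB i j h]
  · rw [if_neg h, if_neg h, if_neg h, add_zero]

theorem det_isU {A : Matrix (Fin n) (Fin n) F} (hA : IsU A) : A.det = 1 := by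
  rw [Matrix.det_of_isUpperTriangular]
  · apply Finset.prod_eq_one
    intro i _
    rw [hA i i le_rfl, if_pos rfl]
  · intro i j hij
    have hij' : j < i := hij
    rw [hA i j hij'.le, if_neg hij'.ne']

theorem isUnit_isU {A : Matrix (Fin n) (Fin n) F} (hA : IsU A) : IsUnit A := by
  rw [Matrix.isUnit_iff_isUnit_det, det_isU hA]
  exact isUnit_one

/-- unitriangular matrices as elements of `GL_n` -/
noncomputable def mkU (A : Matrix (Fin n) (Fin n) F) (hA : IsU A) : GL (Fin n) F := (isUnit_isU hA).unit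

@[simp] theorem mkU_val (A : Matrix (Fin n) (Fin n) F) (hA : IsU A) : (mkU A hA).val = A :=
  rfl

/-- the element of `GL_n` given by `utri c` -/
noncomputable def UT (c : Matrix (Fin n) (Fin n) F) : GL (Fin n) F := mkU (utri c) (isU_utri c)

@[simp] theorem UT_val (c : Matrix (Fin n) (Fin n) F) : (UT c).val = utri c := rfl

theorem ψ_ne (ψ : AddChar F ℂ) (x : F) : ψ x ≠ 0 := by
  intro h
  have h1 := AddChar.map_add_eq_mul ψ x (-x)
  rw [add_neg_cancel, AddChar.map_zero_eq_one, h, zero_mul] at h1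
  exact one_ne_zero h1

section sums

variable {W : Type*} [AddCommGroup W] [Module ℂ W]

theorem sum_left (ψ : AddChar F ℂ) (Ψ : GL (Fin n) F → W) (u : GL (Fin n) F)
    (hu : IsU u.val) :
    ∑ c, ψ (-(sd c)) • Ψ (u * UT c) = ψ (sd u.val) • ∑ c, ψ (-(sd c)) • Ψ (UT c) := by
  let T : Matrix (Fin n) (Fin n) F → Matrix (Fin n) (Fin n) F := fun c => u.val * utri c + (c - utri c)
  have hT : ∀ c, utri (T c) = u.val * utri c := by
    intro c
    have h1 := isU_mul hu (isU_utri c)
    rw [← utri_of_isU h1]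
    apply utri_upper
    intro i j hij
    simp only [T, Matrix.add_apply, Matrix.sub_apply]
    have : utri c i j = c i j := by
      unfold utri
      simp only [Matrix.of_apply]
      rw [if_neg hij.ne, if_pos hij]
    rw [this, sub_self, add_zero]
  have hinj : Function.Injective T := by
    intro c c' h
    have h1 : u.val * utri c = u.val * utri c' := by
      rw [← hT, ← hT, h]
    have h2 : utri c = utri c' := by
      have := congrArg (fun M => (u⁻¹).val * M) h1
      simpa [← Matrix.mul_assoc] using this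
    have h3 : T c = T c' := h
    simp only [T] at h3
    rw [h1, h2] at h3
    simpa using h3
  have hbij : Function.Bijective T := Finite.injective_iff_bijective.mp hinj
  rw [← (Equiv.ofBijective T hbij).sum_comp (fun c => ψ (-(sd c)) • Ψ (UT c)), Finset.smul_sum]
  apply Finset.sum_congr rfl
  intro c _
  simp only [Equiv.ofBijective_apply]
  have h1 : UT (T c) = u * UT c := by
    apply Units.ext
    simp [hT]
  have h2 : sd (T c) = sd u.val + sd c := by
    rw [← sd_utri, hT, sd_mul hu (isU_utri c), sd_utri]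
  rw [h1, h2, smul_smul, ← AddChar.map_add_eq_mul]
  congr 2
  ring

theorem sum_right (ψ : AddChar F ℂ) (Ψ : GL (Fin n) F → W) (u : GL (Fin n) F)
    (hu : IsU u.val) :
    ∑ c, ψ (-(sd c)) • Ψ (UT c * u) = ψ (sd u.val) • ∑ c, ψ (-(sd c)) • Ψ (UT c) := by
  let T : Matrix (Fin n) (Fin n) F → Matrix (Fin n) (Fin n) F := fun c => utri c * u.val + (c - utri c)
  have hT : ∀ c, utri (T c) = utri c * u.val := by
    intro c
    have h1 := isU_mul (isU_utri c) hu
    rw [← utri_of_isU h1]
    apply utri_upper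
    intro i j hij
    simp only [T, Matrix.add_apply, Matrix.sub_apply]
    have : utri c i j = c i j := by
      unfold utri
      simp only [Matrix.of_apply]
      rw [if_neg hij.ne, if_pos hij]
    rw [this, sub_self, add_zero]
  have hinj : Function.Injective T := by
    intro c c' h
    have h1 : utri c * u.val = utri c' * u.val := by
      rw [← hT, ← hT, h]
    have h2 : utri c = utri c' := by
      have := congrArg (fun M => M * (u⁻¹).val) h1
      simpa [Matrix.mul_assoc] using this
    have h3 : T c = T c' := h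
    simp only [T] at h3
    rw [h1, h2] at h3
    simpa using h3
  have hbij : Function.Bijective T := Finite.injective_iff_bijective.mp hinj
  rw [← (Equiv.ofBijective T hbij).sum_comp (fun c => ψ (-(sd c)) • Ψ (UT c)), Finset.smul_sum]
  apply Finset.sum_congr rfl
  intro c _
  simp only [Equiv.ofBijective_apply]
  have h1 : UT (T c) = UT c * u := by
    apply Units.ext
    simp [hT]
  have h2 : sd (T c) = sd u.val + sd c := by
    rw [← sd_utri, hT, sd_mul (isU_utri c) hu, sd_utri, add_comm]
  rw [h1, h2, smul_smul, ← AddChar.map_add_eq_mul]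
  congr 2
  ring

end sums

/-! ### The anti-involution -/

/-- reflection in the antidiagonal -/
def rf (A : Matrix (Fin n) (Fin n) F) : Matrix (Fin n) (Fin n) F :=
  (A.submatrix Fin.revPerm Fin.revPerm)ᵀ

theorem rf_apply (A : Matrix (Fin n) (Fin n) F) (i j : Fin n) : rf A i j = A (Fin.rev j) (Fin.rev i) := rfl

theorem rf_rf (A : Matrix (Fin n) (Fin n) F) : rf (rf A) = A := by
  ext i j
  simp [rf_apply]

theorem rf_mul (A B : Matrix (Fin n) (Fin n) F) : rf (A * B) = rf B * rf A := by
  unfold rf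
  rw [← Matrix.transpose_mul, Matrix.submatrix_mul_equiv]

theorem rf_one : rf (1 : Matrix (Fin n) (Fin n) F) = 1 := by
  unfold rf
  rw [Matrix.submatrix_one_equiv, Matrix.transpose_one]

/-- the anti-involution of `GL_n` -/
def τ (g : GL (Fin n) F) : GL (Fin n) F :=
  ⟨rf g.val, rf (g⁻¹).val,
    by rw [← rf_mul, ← Units.val_mul, inv_mul_cancel, Units.val_one, rf_one],
    by rw [← rf_mul, ← Units.val_mul, mul_inv_cancel, Units.val_one, rf_one]⟩

@[simp] theorem τ_val (g : GL (Fin n) F) : (τ g).val = rf g.val := rfl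

theorem τ_τ (g : GL (Fin n) F) : τ (τ g) = g := by
  apply Units.ext
  simp [rf_rf]

theorem τ_mul (g h : GL (Fin n) F) : τ (g * h) = τ h * τ g := by
  apply Units.ext
  simp [rf_mul]

theorem isU_rf {A : Matrix (Fin n) (Fin n) F} (hA : IsU A) : IsU (rf A) := by
  intro i j hij
  rw [rf_apply, hA _ _ (Fin.rev_le_rev.mpr hij)]
  by_cases h : i = j
  · simp [h]
  · rw [if_neg h, if_neg]
    intro h2
    exact h (Fin.rev_injective h2).symm

theorem sd_rf (A : Matrix (Fin n) (Fin n) F) : sd (rf A) = sd A := by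
  unfold sd
  rw [Finset.sum_comm]
  rw [← Equiv.sum_comp Fin.revPerm]
  apply Finset.sum_congr rfl
  intro i _
  rw [← Equiv.sum_comp Fin.revPerm]
  apply Finset.sum_congr rfl
  intro j _
  simp only [Fin.revPerm_apply, rf_apply, Fin.rev_rev]
  have : ((Fin.rev j : Fin n) : ℕ) + 1 = ((Fin.rev i : Fin n) : ℕ) ↔ (i : ℕ) + 1 = (j : ℕ) := by
    rw [Fin.val_rev, Fin.val_rev]
    omega
  by_cases h : (i : ℕ) + 1 = (j : ℕ)
  · rw [if_pos h, if_pos (this.mpr h)]
  · rw [if_neg h, if_neg (fun h2 => h (this.mp h2))]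

theorem utri_rf (c : Matrix (Fin n) (Fin n) F) : utri (rf c) = rf (utri c) := by
  rw [← utri_of_isU (isU_rf (isU_utri c))]
  apply utri_upper
  intro i j hij
  have h1 : Fin.rev j < Fin.rev i := Fin.rev_lt_rev.mpr hij
  rw [rf_apply, rf_apply]
  unfold utri
  simp only [Matrix.of_apply]
  rw [if_neg h1.ne, if_pos h1]

theorem τ_UT (c : Matrix (Fin n) (Fin n) F) : τ (UT c) = UT (rf c) := by
  apply Units.ext
  simp [utri_rf]

/-! ### Elimination -/

/-- rows `≥ k` are monomial -/
def Mon (k : ℕ) (A : Matrix (Fin n) (Fin n) F) : Prop :=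
  ∀ i : Fin n, k ≤ (i : ℕ) → ∃ j, A i j ≠ 0 ∧ (∀ j', j' ≠ j → A i j' = 0) ∧ (∀ i', i' ≠ i → A i' j = 0)

/-- `1 + e_k ⊗ v` where `v` is supported to the right of `k` -/
def rowE (k : Fin n) (v : Fin n → F) : Matrix (Fin n) (Fin n) F :=
  Matrix.of fun i j => (if i = j then 1 else 0) + if i = k ∧ k < j then v j else 0

/-- `1 + w ⊗ e_k` where `w` is supported above `k` -/
def colE (k : Fin n) (w : Fin n → F) : Matrix (Fin n) (Fin n) F :=
  Matrix.of fun i j => (if i = j then 1 else 0) + if j = k ∧ i < k then w i else 0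

theorem isU_rowE (k : Fin n) (v : Fin n → F) : IsU (rowE k v) := by
  intro i j hij
  unfold rowE
  simp only [Matrix.of_apply]
  rw [if_neg (c := i = k ∧ k < j), add_zero]
  rintro ⟨rfl, h⟩
  exact absurd h (not_lt.mpr hij)

theorem isU_colE (k : Fin n) (w : Fin n → F) : IsU (colE k w) := by
  intro i j hij
  unfold colE
  simp only [Matrix.of_apply]
  rw [if_neg (c := j = k ∧ i < k), add_zero]
  rintro ⟨rfl, h⟩
  exact absurd h (not_lt.mpr hij)

theorem mul_rowE (A : Matrix (Fin n) (Fin n) F) (k : Fin n) (v : Fin n → F) (i j : Fin n) :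
    (A * rowE k v) i j = A i j + if k < j then A i k * v j else 0 := by
  rw [Matrix.mul_apply]
  unfold rowE
  simp only [Matrix.of_apply, mul_add, Finset.sum_add_distrib]
  congr 1
  · simp
  · by_cases h : k < j
    · simp [h]
    · simp [h]

theorem colE_mul (A : Matrix (Fin n) (Fin n) F) (k : Fin n) (w : Fin n → F) (i j : Fin n) :
    (colE k w * A) i j = A i j + if i < k then w i * A k j else 0 := by
  rw [Matrix.mul_apply]
  unfold colE
  simp only [Matrix.of_apply, add_mul, Finset.sum_add_distrib]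
  congr 1
  · simp
  · by_cases h : i < k
    · simp [h]
    · simp [h]

theorem step (k : Fin n) (A : Matrix (Fin n) (Fin n) F) (hA : IsUnit A) (hM : Mon ((k : ℕ) + 1) A) :
    ∃ B C : Matrix (Fin n) (Fin n) F, IsU B ∧ IsU C ∧ Mon (k : ℕ) (B * A * C) := by
  classical
  -- the leftmost nonzero entry in row `k`
  have hrow : ∃ j, A k j ≠ 0 := by
    by_contra hcon
    push Not at hcon
    have h0 : A.det = 0 := Matrix.det_eq_zero_of_row_eq_zero k hcon
    rw [Matrix.isUnit_iff_isUnit_det, h0] at hA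
    exact not_isUnit_zero hA
  obtain ⟨j, hj, hmin⟩ : ∃ j, A k j ≠ 0 ∧ ∀ j', j' < j → A k j' = 0 := by
    have hne : (Finset.univ.filter (fun j => A k j ≠ 0)).Nonempty := by
      obtain ⟨j, hj⟩ := hrow
      exact ⟨j, by simp [hj]⟩
    refine ⟨(Finset.univ.filter (fun j => A k j ≠ 0)).min' hne, ?_, ?_⟩
    · have := Finset.min'_mem _ hne
      simpa using this
    · intro j' hj'
      by_contra h
      have := Finset.min'_le (Finset.univ.filter (fun j => A k j ≠ 0)) j' (by simp [h])
      exact absurd hj' (not_lt.mpr this)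
  set v : Fin n → F := fun j' => -(A k j') / A k j with hv
  set w : Fin n → F := fun i => -(A i j) / A k j with hw
  refine ⟨colE k w, rowE j v, isU_colE k w, isU_rowE j v, ?_⟩
  have hC : ∀ i j', (colE k w * A * rowE j v) i j' =
      A i j' + (if i < k then w i * A k j' else 0) +
        if j < j' then (A i j + if i < k then w i * A k j else 0) * v j' else 0 := by
    intro i j'
    rw [mul_rowE, colE_mul, colE_mul]
  -- column `j`
  have hcol : ∀ i, i ≠ k → (colE k w * A * rowE j v) i j = 0 := by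
    intro i hi
    rw [hC, if_neg (lt_irrefl j), add_zero]
    by_cases h : i < k
    · rw [if_pos h, hw]
      field_simp
      ring
    · rw [if_neg h, add_zero]
      have h2 : k < i := lt_of_le_of_ne (not_lt.mp h) (Ne.symm hi)
      obtain ⟨p, hp1, hp2, hp3⟩ := hM i (by rw [Fin.lt_def] at h2; omega)
      apply hp2
      rintro rfl
      exact hj (hp3 k h2.ne)
  have hcol' : ∀ i, i ≠ k → A i j + (if i < k then w i * A k j else 0) = 0 := by
    intro i hi
    have := hcol i hi
    rwa [hC, if_neg (lt_irrefl j), add_zero] at this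
  intro i hi
  by_cases hik : i = k
  · subst hik
    refine ⟨j, ?_, ?_, hcol⟩
    · rw [hC, if_neg (lt_irrefl _), if_neg (lt_irrefl _)]
      simpa using hj
    · intro j' hj'
      rw [hC, if_neg (lt_irrefl _), if_neg (lt_irrefl _), add_zero, add_zero]
      rcases lt_or_gt_of_ne hj' with h | h
      · rw [if_neg (not_lt.mpr h.le), hmin j' h, add_zero]
      · rw [if_pos h, hv]
        field_simp
        ring
  · have hki : k < i := by
      rw [Fin.lt_def]
      have : (i : ℕ) ≠ k := fun h => hik (Fin.ext h)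
      omega
    obtain ⟨p, hp1, hp2, hp3⟩ := hM i (by rw [Fin.lt_def] at hki; omega)
    have hpj : p ≠ j := by
      rintro rfl
      exact hj (hp3 k hki.ne)
    have hAij : A i j = 0 := hp2 j (Ne.symm hpj)
    have hnk : ¬ i < k := not_lt.mpr hki.le
    refine ⟨p, ?_, ?_, ?_⟩
    · rw [hC, if_neg hnk, if_neg hnk, hAij]
      simpa using hp1
    · intro j' hj'
      rw [hC, if_neg hnk, if_neg hnk, hAij, hp2 j' hj']
      simp
    · intro i' hi'
      rw [hC, hp3 i' hi', hp3 k hki.ne]
      have : v p = 0 := by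
        rw [hv]
        simp [hp3 k hki.ne]
      rw [this]
      simp

/-! ### Permutations -/

theorem perm_invol (ρ : Equiv.Perm (Fin n))
    (h1 : ∀ i j : Fin n, (i : ℕ) + 1 = (j : ℕ) → ρ j < ρ i → (ρ j : ℕ) + 1 = (ρ i : ℕ))
    (h2 : ∀ i j : Fin n, i < j → (ρ j : ℕ) + 1 = (ρ i : ℕ) → (i : ℕ) + 1 = (j : ℕ)) :
    (∀ i, ρ (ρ i) = i) ∧ Monotone (fun i : Fin n => (i : ℕ) + (ρ i : ℕ)) := by
  have mono_of_succ : ∀ g : Fin n → ℕ, (∀ i j : Fin n, (i : ℕ) + 1 = (j : ℕ) → g i ≤ g j) → Monotone g := by
    intro g hg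
    have key : ∀ m : ℕ, ∀ i j : Fin n, (i : ℕ) + m = (j : ℕ) → g i ≤ g j := by
      intro m
      induction m with
      | zero =>
        intro i j hij
        have : i = j := Fin.ext (by omega)
        rw [this]
      | succ m ih =>
        intro i j hij
        have hlt : (i : ℕ) + m < n := by have := j.2; omega
        exact (ih i ⟨(i : ℕ) + m, hlt⟩ rfl).trans (hg _ j (by simp; omega))
    intro i j hij
    exact key ((j : ℕ) - i) i j (by rw [Fin.le_def] at hij; omega)
  have m1 : Monotone (fun i : Fin n => (i : ℕ) + (ρ i : ℕ)) := by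
    apply mono_of_succ
    intro i j hij
    have hne : (ρ i : ℕ) ≠ ρ j := by
      intro h
      have := ρ.injective (Fin.ext h)
      rw [this] at hij
      omega
    by_cases h : ρ j < ρ i
    · have := h1 i j hij h
      omega
    · rw [Fin.lt_def] at h
      omega
  have m2 : Monotone (fun i : Fin n => (i : ℕ) + (ρ.symm i : ℕ)) := by
    apply mono_of_succ
    intro v w hvw
    have hne : (ρ.symm v : ℕ) ≠ ρ.symm w := by
      intro h
      have := ρ.symm.injective (Fin.ext h)
      rw [this] at hvw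
      omega
    by_cases h : ρ.symm w < ρ.symm v
    · have := h2 _ _ h (by simp [hvw])
      omega
    · rw [Fin.lt_def] at h
      omega
  refine ⟨?_, m1⟩
  have h3 : (fun i : Fin n => (i : ℕ) + (ρ.symm i : ℕ)) ∘ ρ = (fun i : Fin n => (i : ℕ) + (ρ.symm i : ℕ)) ∘ (1 : Equiv.Perm (Fin n)) := by
    apply Tuple.unique_monotone
    · have : (fun i : Fin n => (i : ℕ) + (ρ.symm i : ℕ)) ∘ ρ = (fun i : Fin n => (i : ℕ) + (ρ i : ℕ)) := by
        funext i
        simp [add_comm]
      rw [this]
      exact m1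
    · simpa using m2
  intro i
  have h4 := congrFun h3 i
  simp only [Function.comp_apply, Equiv.symm_apply_apply, Equiv.Perm.coe_one, id_eq] at h4
  have h5 : ρ i = ρ.symm i := Fin.ext (by omega)
  rw [h5, Equiv.apply_symm_apply]

section key

variable {W : Type*} [AddCommGroup W] [Module ℂ W]

/-- elementary unitriangular matrices -/
def eU (i j : Fin n) (t : F) : Matrix (Fin n) (Fin n) F := colE j (fun k => if k = i then t else 0)

theorem eU_mul (A : Matrix (Fin n) (Fin n) F) (i j : Fin n) (hij : i < j) (t : F) (k l : Fin n) :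
    (eU i j t * A) k l = A k l + if k = i then t * A j l else 0 := by
  unfold eU
  rw [colE_mul]
  by_cases h : k = i
  · subst h; simp [hij]
  · simp [h]

theorem eU_eq (i j : Fin n) (hij : i < j) (t : F) : eU i j t = rowE i (fun k => if k = j then t else 0) := by
  ext k l
  unfold eU colE rowE
  simp only [Matrix.of_apply]
  congr 1
  by_cases h1 : l = j
  · by_cases h2 : k = i
    · subst h1; subst h2; simp [hij]
    · simp [h2]
  · simp [h1]

theorem mul_eU (A : Matrix (Fin n) (Fin n) F) (i j : Fin n) (hij : i < j) (t : F) (k l : Fin n) :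
    (A * eU i j t) k l = A k l + if l = j then A k i * t else 0 := by
  rw [eU_eq i j hij, mul_rowE]
  by_cases h : l = j
  · subst h; simp [hij]
  · simp [h]

theorem isU_eU (i j : Fin n) (t : F) : IsU (eU i j t) := isU_colE _ _

theorem sd_eU (i j : Fin n) (hij : i < j) (t : F) :
    sd (eU i j t) = if (i : ℕ) + 1 = (j : ℕ) then t else 0 := by
  unfold sd
  rw [Finset.sum_eq_single i]
  · rw [Finset.sum_eq_single j]
    · by_cases h : (i : ℕ) + 1 = (j : ℕ)
      · rw [if_pos h, if_pos h]
        unfold eU colE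
        simp [hij, hij.ne]
      · rw [if_neg h, if_neg h]
    · intro l _ hl
      by_cases h : (i : ℕ) + 1 = (l : ℕ)
      · rw [if_pos h]
        unfold eU colE
        have : i ≠ l := by rintro rfl; omega
        simp [hl, this]
      · rw [if_neg h]
    · intro h; exact absurd (Finset.mem_univ _) h
  · intro k _ hk
    apply Finset.sum_eq_zero
    intro l _
    by_cases h : (k : ℕ) + 1 = (l : ℕ)
    · rw [if_pos h]
      unfold eU colE
      have : k ≠ l := by rintro rfl; omega
      simp [hk, this]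
    · rw [if_neg h]
  · intro h; exact absurd (Finset.mem_univ _) h

theorem mono_case (ψ : AddChar F ℂ) (hψ : ψ ≠ 1) (Φ : GL (Fin n) F → W)
    (hL : ∀ u g : GL (Fin n) F, IsU u.val → Φ (u * g) = ψ (sd u.val) • Φ g)
    (hR : ∀ u g : GL (Fin n) F, IsU u.val → Φ (g * u) = ψ (sd u.val) • Φ g)
    (g : GL (Fin n) F) (hg : Mon 0 g.val) (hne : Φ g ≠ 0) : τ g = g := by
  classical
  choose s hs1 hs2 hs3 using fun i => hg i (Nat.zero_le _)
  have hsinj : Function.Injective s := by
    intro i i' h
    by_contra hii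
    apply hs1 i
    rw [h]
    exact hs3 i' i hii
  let σ : Equiv.Perm (Fin n) := Equiv.ofBijective s (Finite.injective_iff_bijective.mp hsinj)
  set a : Fin n → F := fun i => g.val i (s i) with ha
  have hga : ∀ i j, g.val i j = if j = s i then a i else 0 := by
    intro i j
    by_cases h : j = s i
    · rw [if_pos h, h]
    · rw [if_neg h, hs2 i j h]
  have key : ∀ i j : Fin n, i < j → s i < s j → ∀ t : F,
      ψ (if (i : ℕ) + 1 = (j : ℕ) then t else 0) = ψ (if (s i : ℕ) + 1 = (s j : ℕ) then t * a j / a i else 0) := by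
    intro i j hij hsij t
    have h1 : mkU (eU i j t) (isU_eU i j t) * g = g * mkU (eU (s i) (s j) (t * a j / a i)) (isU_eU _ _ _) := by
      apply Units.ext
      rw [Units.val_mul, Units.val_mul, mkU_val, mkU_val]
      ext k l
      rw [eU_mul _ _ _ hij, mul_eU _ _ _ hsij]
      congr 1
      rw [hga j l, hga k (s i)]
      by_cases hk : k = i
      · subst hk
        by_cases hl : l = s j
        · subst hl
          have := hs1 k
          simp only [if_true, ha]
          field_simp
        · simp [hl]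
      · have : s i ≠ s k := fun h => hk (hsinj h).symm
        simp [hk, this]
    have h2 := hL (mkU (eU i j t) (isU_eU i j t)) g (isU_eU i j t)
    have h3 := hR (mkU (eU (s i) (s j) (t * a j / a i)) (isU_eU _ _ _)) g (isU_eU _ _ _)
    rw [h1, h3, mkU_val, mkU_val, sd_eU _ _ hij, sd_eU _ _ hsij] at h2
    have h4 := sub_eq_zero.mpr h2
    rw [← sub_smul, smul_eq_zero] at h4
    rcases h4 with h4 | h4
    · exact (sub_eq_zero.mp h4).symm
    · exact absurd h4 hne
  have hψ' : ∀ b : F, (∀ t, ψ (t * b) = 1) → b = 0 := by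
    intro b hb
    by_contra hb0
    apply hψ
    ext t
    have := hb (t / b)
    rw [div_mul_cancel₀ _ hb0] at this
    simpa using this
  have hI : ∀ i j : Fin n, (i : ℕ) + 1 = (j : ℕ) → s i < s j → (s i : ℕ) + 1 = (s j : ℕ) ∧ a i = a j := by
    intro i j hij hsij
    have hlt : i < j := by rw [Fin.lt_def]; omega
    have h1 := key i j hlt hsij
    by_cases h : (s i : ℕ) + 1 = (s j : ℕ)
    · refine ⟨h, ?_⟩
      have h2 : a j / a i - 1 = 0 := by
        apply hψ'
        intro t
        rw [mul_sub, mul_one, AddChar.map_sub_eq_div]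
        have h3 := h1 t
        rw [if_pos hij, if_pos h] at h3
        rw [← mul_div_assoc, ← h3]
        exact div_self (ψ_ne ψ _)
      have h3 : a i ≠ 0 := hs1 i
      field_simp at h2
      linear_combination -h2
    · exfalso
      apply hψ
      ext t
      have h3 := h1 t
      rw [if_pos hij, if_neg h] at h3
      simpa using h3
  have hII : ∀ i j : Fin n, i < j → (s i : ℕ) + 1 = (s j : ℕ) → (i : ℕ) + 1 = (j : ℕ) := by
    intro i j hij h
    by_contra hcon
    have hsij : s i < s j := by rw [Fin.lt_def]; omega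
    have h1 := key i j hij hsij
    apply hψ
    ext t
    have h3 := h1 (t * a i / a j)
    rw [if_neg hcon, if_pos h] at h3
    have hi : a i ≠ 0 := hs1 i
    have hj : a j ≠ 0 := hs1 j
    have h4 : t * a i / a j * a j / a i = t := by field_simp
    rw [h4] at h3
    simpa using h3.symm
  -- the permutation
  let ρ : Equiv.Perm (Fin n) := σ.trans Fin.revPerm
  have hρ : ∀ i, ρ i = Fin.rev (s i) := fun i => rfl
  have hρv : ∀ i, ((ρ i : Fin n) : ℕ) = n - 1 - (s i : ℕ) := by
    intro i
    rw [hρ, Fin.val_rev]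
    omega
  have hρs : ∀ i j, ((ρ j : Fin n) : ℕ) + 1 = (ρ i : ℕ) ↔ (s i : ℕ) + 1 = (s j : ℕ) := by
    intro i j
    rw [hρv, hρv]
    have := (s i).2
    have := (s j).2
    omega
  have hρl : ∀ i j, ρ j < ρ i ↔ s i < s j := by
    intro i j
    rw [hρ, hρ, Fin.rev_lt_rev]
  obtain ⟨hinv, hmono⟩ := perm_invol ρ
    (fun i j hij h => (hρs i j).mpr (hI i j hij ((hρl i j).mp h)).1)
    (fun i j hij h => hII i j hij ((hρs i j).mp h))
  -- coefficients
  have hcoef : ∀ m : ℕ, ∀ i j : Fin n, (i : ℕ) + m = (j : ℕ) → (i : ℕ) + (ρ i : ℕ) = (j : ℕ) + (ρ j : ℕ) →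
      a i = a j := by
    intro m
    induction m with
    | zero =>
      intro i j hij _
      have : i = j := Fin.ext (by omega)
      rw [this]
    | succ m ih =>
      intro i j hij hg
      have hlt : (i : ℕ) + m < n := by have := j.2; omega
      let k : Fin n := ⟨(i : ℕ) + m, hlt⟩
      have hk1 : (i : ℕ) + (ρ i : ℕ) ≤ (k : ℕ) + (ρ k : ℕ) := hmono (by rw [Fin.le_def]; simp [k])
      have hk2 : (k : ℕ) + (ρ k : ℕ) ≤ (j : ℕ) + (ρ j : ℕ) := hmono (by rw [Fin.le_def]; simp [k]; omega)
      have hk3 : (k : ℕ) = i + m := rfl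
      rw [ih i k rfl (by omega)]
      have h5 : (ρ j : ℕ) + 1 = (ρ k : ℕ) := by omega
      have h6 := (hρs k j).mp h5
      exact (hI k j (by omega) (by rw [Fin.lt_def]; omega)).2
  have haρ : ∀ i, a (ρ i) = a i := by
    intro i
    rcases le_total (ρ i : ℕ) (i : ℕ) with h | h
    · exact hcoef ((i : ℕ) - (ρ i : ℕ)) (ρ i) i (by omega) (by rw [hinv]; omega)
    · exact (hcoef ((ρ i : ℕ) - (i : ℕ)) i (ρ i) (by omega) (by rw [hinv]; omega)).symm
  apply Units.ext
  ext i j
  rw [τ_val, rf_apply, hga, hga]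
  by_cases h : j = s i
  · have h1 : Fin.rev j = ρ i := by rw [hρ, h]
    have h2 : Fin.rev i = s (Fin.rev j) := by
      rw [h1]
      have := hinv i
      rw [hρ (ρ i)] at this
      exact (Fin.rev_eq_iff.mp this).symm
    rw [if_pos h, if_pos h2, h1, haρ]
  · rw [if_neg h, if_neg]
    intro h2
    apply h
    have h3 : ρ (Fin.rev j) = i := by rw [hρ, ← h2, Fin.rev_rev]
    have h4 := hinv (Fin.rev j)
    rw [h3, hρ] at h4
    exact (Fin.rev_injective h4).symm

theorem key (ψ : AddChar F ℂ) (hψ : ψ ≠ 1) (Φ : GL (Fin n) F → W)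
    (hL : ∀ u g : GL (Fin n) F, IsU u.val → Φ (u * g) = ψ (sd u.val) • Φ g)
    (hR : ∀ u g : GL (Fin n) F, IsU u.val → Φ (g * u) = ψ (sd u.val) • Φ g)
    (g : GL (Fin n) F) : Φ (τ g) = Φ g := by
  have main : ∀ k : ℕ, k ≤ n → ∀ g : GL (Fin n) F, Mon k g.val → Φ (τ g) = Φ g := by
    intro k
    induction k with
    | zero =>
      intro _ g hg
      by_cases h : Φ g = 0
      · by_cases h2 : Φ (τ g) = 0
        · rw [h, h2]
        · have hτ : Mon 0 (τ g).val := by
            intro i _
            -- pivot structure is preserved by reflection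
            choose s hs1 hs2 hs3 using fun i => hg i (Nat.zero_le _)
            have hsinj : Function.Injective s := by
              intro i i' h
              by_contra hii
              apply hs1 i
              rw [h]
              exact hs3 i' i hii
            obtain ⟨j, hj⟩ := (Finite.injective_iff_surjective.mp hsinj) (Fin.rev i)
            refine ⟨Fin.rev j, ?_, ?_, ?_⟩
            · rw [τ_val, rf_apply, Fin.rev_rev, ← hj]
              exact hs1 j
            · intro j' hj'
              rw [τ_val, rf_apply, ← hj]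
              apply hs3
              intro h
              apply hj'
              rw [← h, Fin.rev_rev]
            · intro i' hi'
              rw [τ_val, rf_apply, Fin.rev_rev]
              apply hs2
              intro h
              apply hi'
              rw [hj] at h
              exact Fin.rev_injective h
          have h3 := mono_case ψ hψ Φ hL hR (τ g) hτ h2
          rw [τ_τ] at h3
          rw [← h3]
      · rw [mono_case ψ hψ Φ hL hR g hg h]
    | succ k ih =>
      intro hk g hg
      obtain ⟨B, C, hB, hC, hM⟩ := step (⟨k, hk⟩ : Fin n) g.val g.isUnit hg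
      have h1 := ih (by omega) (mkU B hB * g * mkU C hC) hM
      rw [τ_mul, τ_mul] at h1
      have hτB : IsU (τ (mkU B hB)).val := isU_rf hB
      have hτC : IsU (τ (mkU C hC)).val := isU_rf hC
      rw [hL _ _ hτC, hR _ _ hτB, hR _ _ hC, hL _ _ hB] at h1
      simp only [τ_val, mkU_val, sd_rf] at h1
      have h2 : ∀ x : F, ψ x ≠ 0 := fun x => ψ_ne ψ x
      have h3 := smul_right_injective W (h2 (sd C)) h1
      exact smul_right_injective W (h2 (sd B)) h3
  apply main n le_rfl g
  intro i hi
  exact absurd i.2 (not_lt.mpr hi)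

end key

/-! ### The idempotent -/

section final

variable {ψ : AddChar F ℂ} (π : Irr (GL (Fin n) F))

/-- the projection onto the Whittaker vectors -/
noncomputable def E (ψ : AddChar F ℂ) (π : Irr (GL (Fin n) F)) : Module.End ℂ π.V :=
  (Fintype.card (Matrix (Fin n) (Fin n) F) : ℂ)⁻¹ • ∑ c, ψ (-(sd c)) • π.ρ (UT c)

theorem cM_ne : (Fintype.card (Matrix (Fin n) (Fin n) F) : ℂ) ≠ 0 := by
  exact_mod_cast Fintype.card_ne_zero

theorem E_left (u : GL (Fin n) F) (hu : IsU u.val) : π.ρ u * E ψ π = ψ (sd u.val) • E ψ π := by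
  unfold E
  rw [mul_smul_comm, Finset.mul_sum, smul_comm, ← sum_left ψ (fun g => π.ρ g) u hu]
  congr 1
  apply Finset.sum_congr rfl
  intro c _
  rw [mul_smul_comm, map_mul]

theorem E_right (u : GL (Fin n) F) (hu : IsU u.val) : E ψ π * π.ρ u = ψ (sd u.val) • E ψ π := by
  unfold E
  rw [smul_mul_assoc, Finset.sum_mul, smul_comm, ← sum_right ψ (fun g => π.ρ g) u hu]
  congr 1
  apply Finset.sum_congr rfl
  intro c _
  rw [smul_mul_assoc, map_mul]

theorem E_idem : E ψ π * E ψ π = E ψ π := by
  have h0 : E ψ π * E ψ π = ((Fintype.card (Matrix (Fin n) (Fin n) F) : ℂ)⁻¹ •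
      ∑ c, ψ (-(sd c)) • π.ρ (UT c)) * E ψ π := rfl
  rw [h0, smul_mul_assoc, Finset.sum_mul]
  have : ∀ c : Matrix (Fin n) (Fin n) F, (ψ (-(sd c)) • π.ρ (UT c)) * E ψ π = E ψ π := by
    intro c
    rw [smul_mul_assoc, E_left π (UT c) (isU_utri c), UT_val, sd_utri, smul_smul, ← AddChar.map_add_eq_mul,
      neg_add_cancel, AddChar.map_zero_eq_one, one_smul]
  rw [Finset.sum_congr rfl (fun c _ => this c), Finset.sum_const, Finset.card_univ, ← Nat.cast_smul_eq_nsmul ℂ,
    smul_smul, inv_mul_cancel₀ cM_ne, one_smul]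

theorem E_trace : LinearMap.trace ℂ _ (E ψ π) = whit ψ π.χ := by
  unfold E whit
  rw [map_smul, map_sum, smul_eq_mul]
  congr 1
  apply Finset.sum_congr rfl
  intro c _
  rw [map_smul, smul_eq_mul]
  congr 1
  unfold ez
  rw [dif_pos (isUnit_isU (isU_utri c))]
  rfl

/-- the operators `E ρ(g) E` -/
noncomputable def Tg (ψ : AddChar F ℂ) (π : Irr (GL (Fin n) F)) (g : GL (Fin n) F) : Module.End ℂ π.V :=
  E ψ π * π.ρ g * E ψ π

theorem Tg_τ (hψ : ψ ≠ 1) (g : GL (Fin n) F) : Tg ψ π (τ g) = Tg ψ π g := by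
  apply key ψ hψ (Tg ψ π)
  · intro u g hu
    unfold Tg
    rw [map_mul, ← mul_assoc, E_right π u hu, smul_mul_assoc, smul_mul_assoc]
  · intro u g hu
    unfold Tg
    rw [map_mul, ← mul_assoc, mul_assoc (E ψ π * π.ρ g), E_left π u hu, mul_smul_comm]

theorem Tg_mul (g h : GL (Fin n) F) : Tg ψ π g * Tg ψ π h =
    (Fintype.card (Matrix (Fin n) (Fin n) F) : ℂ)⁻¹ • ∑ c, ψ (-(sd c)) • Tg ψ π (g * UT c * h) := by
  have h1 : Tg ψ π g * Tg ψ π h = E ψ π * π.ρ g * (E ψ π * E ψ π) * π.ρ h * E ψ π := by
    unfold Tg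
    noncomm_ring
  rw [h1, E_idem]
  conv_lhs =>
    enter [1, 1, 2]
    rw [E]
  rw [mul_smul_comm, smul_mul_assoc, smul_mul_assoc]
  congr 1
  rw [Finset.mul_sum, Finset.sum_mul, Finset.sum_mul]
  apply Finset.sum_congr rfl
  intro c _
  rw [mul_smul_comm, smul_mul_assoc, smul_mul_assoc]
  congr 1
  unfold Tg
  rw [map_mul, map_mul]
  noncomm_ring

theorem Tg_comm (hψ : ψ ≠ 1) (g h : GL (Fin n) F) : Tg ψ π g * Tg ψ π h = Tg ψ π h * Tg ψ π g := by
  rw [Tg_mul]
  have hbij : Function.Bijective (rf : Matrix (Fin n) (Fin n) F → Matrix (Fin n) (Fin n) F) :=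
    Function.Involutive.bijective rf_rf
  have h1 : ∑ c, ψ (-(sd c)) • Tg ψ π (g * UT c * h) = ∑ c, ψ (-(sd c)) • Tg ψ π (τ h * UT c * τ g) := by
    rw [← (Equiv.ofBijective _ hbij).sum_comp (fun c => ψ (-(sd c)) • Tg ψ π (τ h * UT c * τ g))]
    apply Finset.sum_congr rfl
    intro c _
    simp only [Equiv.ofBijective_apply]
    rw [sd_rf, ← τ_UT, mul_assoc, ← τ_mul, ← τ_mul, Tg_τ π hψ]
  rw [h1, ← Tg_mul, Tg_τ π hψ, Tg_τ π hψ]

theorem span_orbit (v : π.V) (hv : v ≠ 0) : Submodule.span ℂ (Set.range fun g => π.ρ g v) = ⊤ := by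
  let S : Subrepresentation π.ρ :=
    { toSubmodule := Submodule.span ℂ (Set.range fun g => π.ρ g v)
      apply_mem_toSubmodule := by
        intro g w hw
        induction hw using Submodule.span_induction with
        | mem x hx =>
          obtain ⟨h, rfl⟩ := hx
          apply Submodule.subset_span
          exact ⟨g * h, by simp [map_mul]⟩
        | zero => rw [map_zero]; exact Submodule.zero_mem _
        | add x y _ _ hx hy => rw [map_add]; exact Submodule.add_mem _ hx hy
        | smul a x _ hx => rw [map_smul]; exact Submodule.smul_mem _ _ hx }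
  rcases eq_bot_or_eq_top S with h | h
  · exfalso
    apply hv
    have h1 : v ∈ S.toSubmodule := Submodule.subset_span ⟨1, by simp⟩
    rw [h] at h1
    have h2 : v ∈ (⊥ : Submodule ℂ π.V) := h1
    simpa using h2
  · have h1 : S.toSubmodule = ⊤ := by rw [h]; rfl
    exact h1

theorem E_eq_span (v : π.V) (hv : v ≠ 0) (hEv : E ψ π v = v) (x : π.V) :
    E ψ π x ∈ Submodule.span ℂ (Set.range fun g => Tg ψ π g v) := by
  have hx : x ∈ Submodule.span ℂ (Set.range fun g => π.ρ g v) := by
    rw [span_orbit π v hv]; trivial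
  induction hx using Submodule.span_induction with
  | mem x hx =>
    obtain ⟨g, rfl⟩ := hx
    apply Submodule.subset_span
    refine ⟨g, ?_⟩
    simp only [Tg, Module.End.mul_apply, hEv]
  | zero => rw [map_zero]; exact Submodule.zero_mem _
  | add x y _ _ hx hy => rw [map_add]; exact Submodule.add_mem _ hx hy
  | smul a x _ hx => rw [map_smul]; exact Submodule.smul_mem _ _ hx

theorem Tg_scalar (hψ : ψ ≠ 1) (hE : E ψ π ≠ 0) (g : GL (Fin n) F) :
    ∃ μ : ℂ, ∀ x, E ψ π x = x → Tg ψ π g x = μ • x := by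
  let P := LinearMap.range (E ψ π)
  have hP : ∀ x, x ∈ P → E ψ π x = x := by
    rintro x ⟨y, rfl⟩
    rw [← Module.End.mul_apply, E_idem]
  have hPT : ∀ x ∈ P, Tg ψ π g x ∈ P := by
    intro x _
    exact ⟨π.ρ g (E ψ π x), rfl⟩
  have hPne : Nontrivial P := by
    by_contra hcon
    rw [not_nontrivial_iff_subsingleton] at hcon
    apply hE
    ext x
    have : (⟨E ψ π x, ⟨x, rfl⟩⟩ : P) = 0 := Subsingleton.elim _ _
    exact congrArg Subtype.val this
  obtain ⟨μ, hμ⟩ := Module.End.exists_eigenvalue ((Tg ψ π g).restrict hPT)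
  obtain ⟨v, hv⟩ := hμ.exists_hasEigenvector
  have hv0 : (v : π.V) ≠ 0 := fun h => hv.2 (Subtype.ext h)
  have hv1 : Tg ψ π g (v : π.V) = μ • (v : π.V) := by
    have := congrArg Subtype.val hv.apply_eq_smul
    simpa using this
  have hspan : ∀ x ∈ Submodule.span ℂ (Set.range fun g => Tg ψ π g (v : π.V)), Tg ψ π g x = μ • x := by
    intro x hx
    induction hx using Submodule.span_induction with
    | mem x hx =>
      obtain ⟨h, rfl⟩ := hx
      simp only
      rw [← Module.End.mul_apply, Tg_comm π hψ, Module.End.mul_apply, hv1, map_smul]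
    | zero => simp
    | add x y _ _ hx hy => rw [map_add, hx, hy, smul_add]
    | smul a x _ hx => rw [map_smul, hx, smul_comm]
  refine ⟨μ, fun x hx => ?_⟩
  have h1 := E_eq_span π (v : π.V) hv0 (hP _ v.2) x
  rw [hx] at h1
  exact hspan x h1

theorem finrank_range (hψ : ψ ≠ 1) (hE : E ψ π ≠ 0) : Module.finrank ℂ (LinearMap.range (E ψ π)) = 1 := by
  obtain ⟨x, hx⟩ : ∃ x, E ψ π x ≠ 0 := by
    by_contra hcon
    push Not at hcon
    exact hE (LinearMap.ext hcon)
  have hv : E ψ π (E ψ π x) = E ψ π x := by rw [← Module.End.mul_apply, E_idem]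
  choose μ hμ using Tg_scalar π hψ hE
  rw [finrank_eq_one_iff']
  refine ⟨⟨E ψ π x, ⟨x, rfl⟩⟩, fun h => hx (congrArg Subtype.val h), ?_⟩
  rintro ⟨w, ⟨y, rfl⟩⟩
  have h1 := E_eq_span π (E ψ π x) hx hv y
  have h2 : ∀ z ∈ Submodule.span ℂ (Set.range fun g => Tg ψ π g (E ψ π x)), ∃ c : ℂ, c • E ψ π x = z := by
    intro z hz
    induction hz using Submodule.span_induction with
    | mem z hz =>
      obtain ⟨h, rfl⟩ := hz
      exact ⟨μ h, (hμ h _ hv).symm⟩
    | zero => exact ⟨0, by simp⟩
    | add a b _ _ ha hb =>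
      obtain ⟨c, hc⟩ := ha
      obtain ⟨d, hd⟩ := hb
      exact ⟨c + d, by rw [add_smul, hc, hd]⟩
    | smul a b _ hb =>
      obtain ⟨c, hc⟩ := hb
      exact ⟨a * c, by rw [mul_smul, hc]⟩
  obtain ⟨c, hc⟩ := h2 _ h1
  exact ⟨c, Subtype.ext hc⟩

end final

end Vale.Agent.P275.H85.C2

namespace Vale.Agent.P275.H85

/-- package C2: uniqueness of Whittaker models -/
theorem pkgC2 : PkgC2 := by
  intro F _ _ _ n ψ hψ χ hχ
  obtain ⟨π, rfl⟩ := hχ
  rw [← C2.E_trace π]
  by_cases hE : C2.E ψ π = 0
  · left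
    rw [hE, map_zero]
  · right
    have h1 : LinearMap.IsProj (LinearMap.range (C2.E ψ π)) (C2.E ψ π) :=
      LinearMap.IsIdempotentElem.isProj_range _ (C2.E_idem π)
    rw [h1.trace, C2.finrank_range π hψ hE]
    simp

end Vale.Agent.P275.H85
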