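import Vale.Agent.P275.H85.Defs

/-!
# Package D1: exactly one stable irreducible character for each central character
-/

set_option linter.style.haveILetI false
set_option linter.unusedSectionVars false

namespace Vale.Agent.P275.H85.D1

open scoped BigOperators MatrixGroups
open Matrix

section abstractPart

variable {G : Type} [Group G] [Fintype G]

theorem trace_basis {V : Type*} [AddCommGroup V] [Module ℂ V] [FiniteDimensional ℂ V] (A : Module.End ℂ V) :
    LinearMap.trace ℂ V A = ∑ i, (Module.finBasis ℂ V).coord i (A (Module.finBasis ℂ V i)) := by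
  classical
  rw [LinearMap.trace_eq_matrix_trace ℂ (Module.finBasis ℂ V)]
  unfold Matrix.trace
  simp [LinearMap.toMatrix_apply]

/-- the matrix-coefficient formula, same representation -/
theorem fourier_same (π : Irr G) (A : Module.End ℂ π.V) :
    ∑ g, LinearMap.trace ℂ _ (A * π.ρ g⁻¹) • π.ρ g = ((Fintype.card G : ℂ) / π.dim) • A := by
  classical
  set b := Module.finBasis ℂ π.V with hb
  ext v
  have h1 : ∀ i, ∑ g, π.ρ g (((b.coord i ∘ₗ A).smulRight v) (π.ρ g⁻¹ (b i)))
      = (((Fintype.card G : ℂ) / π.dim) * b.coord i (A v)) • b i := by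
    intro i
    have := π.sum_conj ((b.coord i ∘ₗ A).smulRight v)
    have h2 := congrArg (fun T : Module.End ℂ π.V => T (b i)) this
    simp only [LinearMap.sum_apply, Module.End.mul_apply, LinearMap.smul_apply, Module.End.one_apply] at h2
    rw [h2, LinearMap.trace_smulRight]
    simp
  simp only [LinearMap.sum_apply, LinearMap.smul_apply]
  have h3 : ∀ g : G, LinearMap.trace ℂ _ (A * π.ρ g⁻¹) • π.ρ g v =
      ∑ i, π.ρ g (((b.coord i ∘ₗ A).smulRight v) (π.ρ g⁻¹ (b i))) := by
    intro g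
    rw [trace_basis, Finset.sum_smul]
    apply Finset.sum_congr rfl
    intro i _
    simp [hb]
  rw [Finset.sum_congr rfl (fun g _ => h3 g), Finset.sum_comm, Finset.sum_congr rfl (fun i _ => h1 i)]
  simp only [mul_smul, ← Finset.smul_sum]
  congr 1
  exact b.sum_repr (A v)

theorem fourier_diff (π π' : Irr G) (hne : ¬ Nonempty (π.ρ.Equiv π'.ρ)) (A : Module.End ℂ π.V) :
    ∑ g, LinearMap.trace ℂ _ (A * π.ρ g⁻¹) • π'.ρ g = 0 := by
  classical
  set b := Module.finBasis ℂ π.V with hb
  ext v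
  have h1 : ∀ i, ∑ g, π'.ρ g (((b.coord i ∘ₗ A).smulRight v) (π.ρ g⁻¹ (b i))) = 0 := by
    intro i
    have := Irr.sum_conj' π π' hne ((b.coord i ∘ₗ A).smulRight v)
    have h2 := congrArg (fun T : π.V →ₗ[ℂ] π'.V => T (b i)) this
    simpa only [LinearMap.sum_apply, LinearMap.comp_apply, LinearMap.zero_apply] using h2
  simp only [LinearMap.sum_apply, LinearMap.smul_apply]
  have h3 : ∀ g : G, LinearMap.trace ℂ _ (A * π.ρ g⁻¹) • π'.ρ g v =
      ∑ i, π'.ρ g (((b.coord i ∘ₗ A).smulRight v) (π.ρ g⁻¹ (b i))) := by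
    intro g
    rw [trace_basis, Finset.sum_smul]
    apply Finset.sum_congr rfl
    intro i _
    simp [hb]
  rw [Finset.sum_congr rfl (fun g _ => h3 g), Finset.sum_comm, Finset.sum_congr rfl (fun i _ => h1 i)]
  simp

/-- the twisted representation -/
noncomputable def twist (π : Irr G) (lam : G →* ℂˣ) : Irr G where
  V := π.V
  ρ :=
    { toFun := fun g => (lam g : ℂ) • π.ρ g
      map_one' := by simp
      map_mul' := by
        intro g h
        rw [map_mul, map_mul, Units.val_mul, smul_mul_smul_comm] }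
  irr := by
    refine { exists_pair_ne := ⟨⊥, ⊤, ?_⟩, eq_bot_or_eq_top := ?_ }
    · intro h
      have h1 := congrArg Subrepresentation.toSubmodule h
      have h2 : (⊥ : Submodule ℂ π.V) = ⊤ := h1
      exact bot_ne_top h2
    intro S
    let S' : Subrepresentation π.ρ :=
      { toSubmodule := S.toSubmodule
        apply_mem_toSubmodule := by
          intro g v hv
          have h1 := S.apply_mem_toSubmodule g hv
          have h2 := S.toSubmodule.smul_mem ((lam g : ℂ)⁻¹) h1
          have h3 : ((lam g : ℂ)⁻¹) • (((lam g : ℂ) • π.ρ g) v) = π.ρ g v := by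
            rw [LinearMap.smul_apply, smul_smul, inv_mul_cancel₀ (Units.ne_zero _), one_smul]
          rw [← h3]
          exact h2 }
    rcases eq_bot_or_eq_top S' with h | h
    · left
      apply Subrepresentation.toSubmodule_injective
      have : S'.toSubmodule = (⊥ : Subrepresentation π.ρ).toSubmodule := by rw [h]
      exact this
    · right
      apply Subrepresentation.toSubmodule_injective
      have : S'.toSubmodule = (⊤ : Subrepresentation π.ρ).toSubmodule := by rw [h]
      exact this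

theorem twist_χ (π : Irr G) (lam : G →* ℂˣ) (g : G) : (twist π lam).χ g = (lam g : ℂ) * π.χ g := by
  unfold Irr.χ Representation.character
  have : (twist π lam).ρ g = (lam g : ℂ) • π.ρ g := rfl
  rw [this]
  exact map_smul (LinearMap.trace ℂ π.V) _ _

/-- the intertwiner attached to a stable representation -/
theorem exists_T (π : Irr G) (lam : G →* ℂˣ) (h : ∀ g, (lam g : ℂ) * π.χ g = π.χ g) :
    ∃ T : Module.End ℂ π.V, T ≠ 0 ∧ ∀ g, T * π.ρ g = (lam g : ℂ) • (π.ρ g * T) := by
  classical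
  have h1 : π.χ = (twist π lam).χ := by
    funext g
    rw [twist_χ, h]
  have h2 := ip_χ (twist π lam) π
  rw [← h1, ip_χ, if_pos ⟨Representation.Equiv.refl _⟩] at h2
  by_cases hne : Nonempty (π.ρ.Equiv (twist π lam).ρ)
  · obtain ⟨e⟩ := hne
    let T : Module.End ℂ π.V := e.toLinearEquiv.toLinearMap
    refine ⟨T, ?_, ?_⟩
    · intro h0
      obtain ⟨v, hv⟩ := exists_ne (0 : π.V)
      apply hv
      have h3 : T v = 0 := by rw [h0]; rfl
      exact e.toLinearEquiv.map_eq_zero_iff.mp h3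
    · intro g
      ext v
      have := congrArg (fun T : π.V →ₗ[ℂ] π.V => T v) (e.toIntertwiningMap.isIntertwining' g)
      exact this
  · rw [if_neg hne] at h2
    exact absurd h2 one_ne_zero

/-- twisted functions act by twisted intertwiners -/
theorem act_twisted (π : Irr G) (lam : G →* ℂˣ) (f : G → ℂ)
    (hf : ∀ g h, f (h * g * h⁻¹) = (lam h : ℂ) * f g) (h : G) :
    π.act f * π.ρ h = (lam h : ℂ) • (π.ρ h * π.act f) := by
  unfold Irr.act
  rw [Finset.sum_mul, Finset.mul_sum, Finset.smul_sum]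
  rw [← Equiv.sum_comp (MulAut.conj h).toEquiv (fun g => f g • π.ρ g * π.ρ h)]
  apply Finset.sum_congr rfl
  intro g _
  simp only [MulEquiv.toEquiv_eq_coe, MulEquiv.coe_toEquiv, MulAut.conj_apply, hf]
  rw [smul_mul_assoc, mul_smul_comm, ← map_mul, ← map_mul, smul_smul]
  congr 2
  group

theorem stable_of_ne (π : Irr G) (lam : G →* ℂˣ) (A : Module.End ℂ π.V) (hA : A ≠ 0)
    (h : ∀ g, A * π.ρ g = (lam g : ℂ) • (π.ρ g * A)) (g : G) : (lam g : ℂ) * π.χ g = π.χ g := by
  let S : Subrepresentation π.ρ :=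
    { toSubmodule := LinearMap.ker A
      apply_mem_toSubmodule := by
        intro g v hv
        rw [LinearMap.mem_ker] at hv ⊢
        have h1 := congrArg (fun T : Module.End ℂ π.V => T v) (h g)
        simp only [Module.End.mul_apply, LinearMap.smul_apply] at h1
        rw [h1, hv, map_zero, smul_zero] }
  have hker : LinearMap.ker A = ⊥ := by
    rcases eq_bot_or_eq_top S with hS | hS
    · have : S.toSubmodule = (⊥ : Subrepresentation π.ρ).toSubmodule := by rw [hS]
      exact this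
    · exfalso
      apply hA
      have h2 : S.toSubmodule = (⊤ : Subrepresentation π.ρ).toSubmodule := by rw [hS]
      have h3 : LinearMap.ker A = ⊤ := h2
      exact LinearMap.ker_eq_top.mp h3
  have hinj : Function.Injective A := LinearMap.ker_eq_bot.mp hker
  have hunit : IsUnit A := by
    rw [Module.End.isUnit_iff]
    exact ⟨hinj, LinearMap.injective_iff_surjective.mp hinj⟩
  obtain ⟨u, hu⟩ := hunit
  have h1 : π.ρ g = ↑u⁻¹ * ((lam g : ℂ) • (π.ρ g * ↑u)) := by
    rw [hu, ← h g, ← hu, Units.inv_mul_cancel_left]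
  have h2 : π.χ g = LinearMap.trace ℂ _ (π.ρ g) := rfl
  conv_rhs => rw [h2, h1]
  rw [mul_smul_comm, map_smul, smul_eq_mul, LinearMap.trace_mul_comm, mul_assoc, Units.mul_inv, mul_one]
  rfl

/-- central elements act by scalars -/
theorem central_scalar (π : Irr G) (z : G) (hz : ∀ g, z * g = g * z) : ∃ c : ℂ, π.ρ z = c • 1 := by
  apply π.schur
  intro g
  rw [← map_mul, ← map_mul, hz]

theorem central_χ (π : Irr G) (z : G) (c : ℂ) (hc : π.ρ z = c • 1) (g : G) : π.χ (z * g) = c * π.χ g := by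
  unfold Irr.χ Representation.character
  rw [map_mul, hc, smul_mul_assoc, one_mul, map_smul, smul_eq_mul]

theorem main {A : Type} [Group A] (lam : G →* ℂˣ) (Z : A →* G) (hZ : ∀ a g, Z a * g = g * Z a) (ω : A →* ℂˣ)
    (f0 : G → ℂ) (h0 : f0 ≠ 0) (h1 : ∀ g h, f0 (h * g * h⁻¹) = (lam h : ℂ) * f0 g)
    (h2 : ∀ a g, f0 (Z a * g) = (ω a : ℂ) * f0 g)
    (h3 : ∀ f : G → ℂ, (∀ g h, f (h * g * h⁻¹) = (lam h : ℂ) * f g) →
      (∀ a g, f (Z a * g) = (ω a : ℂ) * f g) → ∃ c : ℂ, f = c • f0) :
    ∃! χ : G → ℂ, IsIrrChar χ ∧ (∀ g, (lam g : ℂ) * χ g = χ g) ∧ ∀ a g, χ (Z a * g) = (ω a : ℂ) * χ g := by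
  classical
  let f1 : G → ℂ := fun g => f0 g⁻¹
  have hf1 : ∀ g h, f1 (h * g * h⁻¹) = (lam h : ℂ) * f1 g := by
    intro g h
    show f0 (h * g * h⁻¹)⁻¹ = _
    rw [← h1 g⁻¹ h]
    congr 1
    group
  have hf1Z : ∀ a g, f1 (Z a * g) = (ω a : ℂ)⁻¹ * f1 g := by
    intro a g
    have h4 := h2 a (Z a * g)⁻¹
    have h5 : Z a * (Z a * g)⁻¹ = g⁻¹ := by
      rw [hZ a g, _root_.mul_inv_rev, mul_inv_cancel_left]
    rw [h5] at h4
    show f0 (Z a * g)⁻¹ = (ω a : ℂ)⁻¹ * f0 g⁻¹
    rw [h4, inv_mul_cancel_left₀ (Units.ne_zero _)]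
  have hf1ne : f1 ≠ 0 := by
    intro h
    apply h0
    funext g
    have := congrFun h g⁻¹
    simpa [f1] using this
  obtain ⟨π, hπ⟩ : ∃ π : Irr G, π.act f1 ≠ 0 := by
    by_contra hcon
    push Not at hcon
    exact hf1ne (faithful f1 hcon)
  -- if `act f1 ≠ 0` then the central character is `ω`
  have hcen : ∀ π : Irr G, π.act f1 ≠ 0 → ∀ a g, π.χ (Z a * g) = (ω a : ℂ) * π.χ g := by
    intro π hπ a g
    obtain ⟨c, hc⟩ := central_scalar π (Z a) (hZ a)
    rw [central_χ π (Z a) c hc]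
    have h5 : π.act f1 = ((ω a : ℂ)⁻¹ * c) • π.act f1 := by
      conv_lhs => unfold Irr.act
      rw [← Equiv.sum_comp (Equiv.mulLeft (Z a))]
      unfold Irr.act
      rw [Finset.smul_sum]
      apply Finset.sum_congr rfl
      intro x _
      simp only [Equiv.coe_mulLeft]
      rw [hf1Z, map_mul, hc, smul_mul_assoc, one_mul, smul_smul, smul_smul]
      congr 1
      ring
    have h6 : (1 - (ω a : ℂ)⁻¹ * c) • π.act f1 = 0 := by
      rw [sub_smul, one_smul, ← h5, sub_self]
    rcases smul_eq_zero.mp h6 with h7 | h7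
    · congr 1
      have h8 : (ω a : ℂ) ≠ 0 := Units.ne_zero _
      field_simp at h7
      linear_combination -h7
    · exact absurd h7 hπ
  refine ⟨π.χ, ⟨⟨π, rfl⟩, ?_, hcen π hπ⟩, ?_⟩
  · exact stable_of_ne π lam (π.act f1) hπ (act_twisted π lam f1 hf1)
  · -- uniqueness
    have hT : ∀ π : Irr G, (∀ g, (lam g : ℂ) * π.χ g = π.χ g) → (∀ a g, π.χ (Z a * g) = (ω a : ℂ) * π.χ g) →
        π.act f1 ≠ 0 ∧ ∃ c : ℂ, c ≠ 0 ∧ ∃ T : Module.End ℂ π.V,
          (fun g => LinearMap.trace ℂ _ (T * π.ρ g)) = c • f0 := by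
      intro π hs hc
      obtain ⟨T, hT0, hT⟩ := exists_T π lam hs
      let Θ : G → ℂ := fun g => LinearMap.trace ℂ _ (T * π.ρ g)
      have hΘ1 : ∀ g h, Θ (h * g * h⁻¹) = (lam h : ℂ) * Θ g := by
        intro g h
        show LinearMap.trace ℂ _ (T * π.ρ (h * g * h⁻¹)) = _ * LinearMap.trace ℂ _ (T * π.ρ g)
        rw [map_mul π.ρ, map_mul π.ρ, ← mul_assoc, ← mul_assoc, hT h, smul_mul_assoc, smul_mul_assoc, map_smul,
          LinearMap.trace_mul_comm, ← mul_assoc, ← mul_assoc, ← map_mul π.ρ, inv_mul_cancel, map_one, one_mul,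
          smul_eq_mul]
      have hΘ2 : ∀ a g, Θ (Z a * g) = (ω a : ℂ) * Θ g := by
        intro a g
        obtain ⟨c, hc'⟩ := central_scalar π (Z a) (hZ a)
        have h5 := central_χ π (Z a) c hc' 1
        rw [hc] at h5
        have h6 : π.χ 1 ≠ 0 := by
          rw [π.χ_one]
          exact_mod_cast π.dim_pos.ne'
        have h7 := mul_right_cancel₀ h6 h5
        show LinearMap.trace ℂ _ (T * π.ρ (Z a * g)) = _ * LinearMap.trace ℂ _ (T * π.ρ g)
        rw [map_mul π.ρ, hc', h7, smul_mul_assoc, one_mul, mul_smul_comm, map_smul, smul_eq_mul]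
      obtain ⟨c, hc1⟩ := h3 Θ hΘ1 hΘ2
      have h8 := fourier_same π T
      have h9 : ∑ g, LinearMap.trace ℂ _ (T * π.ρ g⁻¹) • π.ρ g = c • π.act f1 := by
        unfold Irr.act
        rw [Finset.smul_sum]
        apply Finset.sum_congr rfl
        intro g _
        have := congrFun hc1 g⁻¹
        simp only [Θ, Pi.smul_apply] at this
        rw [this, smul_smul]
        rfl
      rw [h9] at h8
      have h10 : ((Fintype.card G : ℂ) / π.dim) • T ≠ 0 := by
        apply smul_ne_zero _ hT0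
        apply div_ne_zero Irr.card_ne
        exact_mod_cast π.dim_pos.ne'
      rw [← h8] at h10
      exact ⟨(smul_ne_zero_iff.mp h10).2, c, (smul_ne_zero_iff.mp h10).1, T, hc1⟩
    rintro χ' ⟨⟨π', rfl⟩, hs', hc'⟩
    obtain ⟨_, c, hc0, T, hc1⟩ := hT π' hs' hc'
    by_contra hne
    have hneq : ¬ Nonempty (π'.ρ.Equiv π.ρ) := fun h => hne (χ_eq_of_equiv h).symm
    have h5 := fourier_diff π' π hneq T
    have h6 : ∑ g, LinearMap.trace ℂ _ (T * π'.ρ g⁻¹) • π.ρ g = c • π.act f1 := by
      unfold Irr.act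
      rw [Finset.smul_sum]
      apply Finset.sum_congr rfl
      intro g _
      have := congrFun hc1 g⁻¹
      simp only [Pi.smul_apply] at this
      rw [this, smul_smul]
      rfl
    rw [h6] at h5
    rcases smul_eq_zero.mp h5 with h7 | h7
    · exact hc0 h7
    · exact hπ h7

end abstractPart

end Vale.Agent.P275.H85.D1
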