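import Mathlib

/-!
# Package D1, linear algebra: operators whose centralizer has determinants in the kernel of a
character of order `n`
-/

set_option linter.style.haveILetI false
set_option linter.unusedSectionVars false

namespace Vale.Agent.P275.H85.D1

open scoped BigOperators
open Polynomial

variable {F : Type} [Field F] {V : Type} [AddCommGroup V] [Module F V] [FiniteDimensional F V]

/-- all invertible operators commuting with `g` have determinant in the kernel of `κ` -/
def Kc (κ : Fˣ →* ℂˣ) (g : Module.End F V) : Prop :=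
  ∀ h : Module.End F V, Commute h g → ∀ hd : LinearMap.det h ≠ 0, κ (Units.mk0 _ hd) = 1

theorem det_idem (P : Module.End F V) (hP : P * P = P) (c : F) :
    LinearMap.det (1 + (c - 1) • P) = c ^ Module.finrank F (LinearMap.range P) := by
  have h : LinearMap.IsProj (LinearMap.range P) P := LinearMap.IsIdempotentElem.isProj_range _ hP
  have h1 := h.eq_conj_prod_map'
  set e := (LinearMap.range P).prodEquivOfIsCompl (LinearMap.ker P) h.isCompl with he
  have h2 : 1 + (c - 1) • P = e.toLinearMap ∘ₗ
      (LinearMap.prodMap (c • LinearMap.id) LinearMap.id) ∘ₗ e.symm.toLinearMap := by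
    have h3 : (LinearMap.prodMap (c • (LinearMap.id : LinearMap.range P →ₗ[F] LinearMap.range P))
        (LinearMap.id : LinearMap.ker P →ₗ[F] LinearMap.ker P)) =
        LinearMap.id + (c - 1) • LinearMap.prodMap LinearMap.id 0 := by
      ext x
      · simp [sub_smul]
      · simp
      · simp
      · simp
    rw [h3, LinearMap.add_comp, LinearMap.comp_add, LinearMap.id_comp, LinearMap.smul_comp,
      LinearMap.comp_smul, ← h1]
    congr 1
    ext x
    simp
  rw [h2, LinearMap.det_conj, LinearMap.det_prodMap, LinearMap.det_id, mul_one, LinearMap.det_smul,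
    LinearMap.det_id, mul_one]

theorem aeval_comm (g : Module.End F V) (p : F[X]) : Commute (aeval g p) g := by
  have h1 : aeval g p * aeval g (X : F[X]) = aeval g (X : F[X]) * aeval g p := by
    rw [← map_mul, ← map_mul, mul_comm]
  rw [aeval_X] at h1
  exact h1

theorem idem {κ : Fˣ →* ℂˣ} {n : ℕ} (hκ : orderOf κ = n) (hV : Module.finrank F V = n)
    {g : Module.End F V} (hg : Kc κ g) (P : Module.End F V) (hP : P * P = P) (hc : Commute P g) :
    P = 0 ∨ P = 1 := by
  set r := Module.finrank F (LinearMap.range P) with hr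
  have h1 : κ ^ r = 1 := by
    ext c
    have hd : LinearMap.det (1 + ((c : F) - 1) • P) ≠ 0 := by
      rw [det_idem P hP]
      exact pow_ne_zero _ c.ne_zero
    have h2 := hg (1 + ((c : F) - 1) • P) ((Commute.one_left g).add_left (hc.smul_left _)) hd
    have h3 : Units.mk0 _ hd = c ^ r := by
      ext
      simp only [Units.val_mk0, Units.val_pow_eq_pow_val]
      rw [det_idem P hP]
    rw [h3, map_pow] at h2
    rw [MonoidHom.pow_apply, h2]
    rfl
  have h2 : n ∣ r := by
    rw [← hκ]
    exact orderOf_dvd_of_pow_eq_one h1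
  have h3 : r ≤ n := by
    rw [← hV]
    exact Submodule.finrank_le _
  rcases Nat.eq_zero_or_pos r with h4 | h4
  · left
    have h5 : LinearMap.range P = ⊥ := Submodule.finrank_eq_zero.mp h4
    exact LinearMap.range_eq_bot.mp h5
  · right
    have h5 : r = Module.finrank F V := by
      rw [hV]
      exact le_antisymm h3 (Nat.le_of_dvd h4 h2)
    have h6 : LinearMap.range P = ⊤ := Submodule.eq_top_of_finrank_eq h5
    ext x
    obtain ⟨y, rfl⟩ : x ∈ LinearMap.range P := by rw [h6]; trivial
    rw [← Module.End.mul_apply, hP]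
    rfl

/-- some irreducible polynomial in `g` is nilpotent -/
theorem exists_irr_nilp {κ : Fˣ →* ℂˣ} {n : ℕ} (hn : 1 ≤ n) (hκ : orderOf κ = n)
    (hV : Module.finrank F V = n) {g : Module.End F V} (hg : Kc κ g) :
    ∃ p : F[X], Irreducible p ∧ IsNilpotent (aeval g p) := by
  classical
  have hnt : Nontrivial V := Module.nontrivial_of_finrank_pos (R := F) (by omega)
  have hint : IsIntegral F g := Algebra.IsIntegral.isIntegral g
  have hμ0 : minpoly F g ≠ 0 := minpoly.ne_zero hint
  have hμu : ¬ IsUnit (minpoly F g) := minpoly.not_isUnit F g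
  obtain ⟨p, hp, hpd⟩ := WfDvdMonoid.exists_irreducible_factor hμu hμ0
  refine ⟨p, hp, ?_⟩
  obtain ⟨k, b, hb, hk⟩ := WfDvdMonoid.max_power_factor hμ0 hp
  have hk1 : k ≠ 0 := by
    rintro rfl
    rw [pow_zero, one_mul] at hk
    rw [hk] at hpd
    exact hb hpd
  have hcop : IsCoprime (p ^ k) b := (hp.coprime_iff_not_dvd.mpr hb).pow_left
  obtain ⟨u, w, huw⟩ := hcop
  set P : Module.End F V := aeval g (w * b) with hPdef
  have hP1 : 1 - P = aeval g (u * p ^ k) := by
    rw [hPdef, sub_eq_iff_eq_add, ← map_add, huw, map_one]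
  have hP : P * P = P := by
    have h1 : P * (1 - P) = 0 := by
      rw [hP1, hPdef, ← map_mul]
      have : w * b * (u * p ^ k) = (w * u) * (minpoly F g) := by rw [hk]; ring
      rw [this, map_mul, minpoly.aeval, mul_zero]
    rw [mul_sub, mul_one, sub_eq_zero] at h1
    exact h1.symm
  have hcomm : Commute P g := aeval_comm g _
  rcases idem hκ hV hg P hP hcomm with h | h
  · exfalso
    have h1 : minpoly F g ∣ w * b := minpoly.dvd F g h
    have h2 : p ∣ w * b := (dvd_trans (dvd_pow_self p hk1) (by rw [hk]; exact dvd_mul_right _ _)).trans h1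
    have h3 : p ∣ 1 := by
      rw [← huw]
      exact dvd_add (Dvd.dvd.mul_left (dvd_pow_self p hk1) _) h2
    exact hp.not_isUnit (isUnit_of_dvd_one h3)
  · refine ⟨k, ?_⟩
    have h1 : aeval g (p ^ k) * aeval g (w * b) = 0 := by
      rw [← map_mul]
      have : p ^ k * (w * b) = w * minpoly F g := by rw [hk]; ring
      rw [this, map_mul, minpoly.aeval, mul_zero]
    have h2 : aeval g (w * b) = 1 := h
    rw [h2, mul_one, map_pow] at h1
    exact h1

section field

variable [Fintype F]

theorem expand_pow_card (p : F[X]) (M : ℕ) : expand F (Fintype.card F ^ M) p = p ^ (Fintype.card F ^ M) := by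
  induction M with
  | zero => simp
  | succ M ih =>
    rw [pow_succ', Polynomial.expand_mul, ih, map_pow, FiniteField.expand_card, ← pow_mul]

/-- the irreducible polynomial is linear -/
theorem natDegree_eq_one {κ : Fˣ →* ℂˣ} {n : ℕ} (hn : 1 ≤ n) (hκ : orderOf κ = n)
    (hV : Module.finrank F V = n) {g : Module.End F V} (hg : Kc κ g) (p : F[X]) (hp : Irreducible p)
    (hnil : IsNilpotent (aeval g p)) : p.natDegree = 1 := by
  classical
  obtain ⟨k, hk⟩ := hnil
  have hq : 1 < Fintype.card F := Fintype.one_lt_card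
  set y : Module.End F V := g ^ (Fintype.card F ^ k) with hy
  have hpy : aeval y p = 0 := by
    rw [hy, ← Polynomial.expand_aeval, expand_pow_card, map_pow]
    exact pow_eq_zero_of_le (Nat.lt_pow_self hq).le hk
  haveI : Fact (Irreducible p) := ⟨hp⟩
  let φ : AdjoinRoot p →+* Module.End F V :=
    Ideal.Quotient.lift (Ideal.span {p}) (aeval y : F[X] →ₐ[F] Module.End F V).toRingHom (by
      intro a ha
      rw [Ideal.mem_span_singleton] at ha
      obtain ⟨b, rfl⟩ := ha
      show aeval y (p * b) = 0
      rw [map_mul, hpy, zero_mul])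
  have hφ : ∀ a : F[X], φ (AdjoinRoot.mk p a) = aeval y a := fun a => rfl
  letI : Module (AdjoinRoot p) V := Module.compHom V φ
  have hsmul : ∀ (a : AdjoinRoot p) (v : V), a • v = φ a v := fun a v => rfl
  haveI : IsScalarTower F (AdjoinRoot p) V := by
    constructor
    intro c a v
    rw [hsmul, hsmul]
    have h1 : c • a = AdjoinRoot.mk p (C c) * a := by
      rw [Algebra.smul_def]
      rfl
    rw [h1, map_mul, hφ, aeval_C]
    simp
  have hfinE : Module.Finite F (AdjoinRoot p) := (AdjoinRoot.powerBasis hp.ne_zero).finite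
  haveI : Module.Finite (AdjoinRoot p) V := Module.Finite.of_restrictScalars_finite F _ _
  have hmul : Module.finrank F (AdjoinRoot p) * Module.finrank (AdjoinRoot p) V = n := by
    rw [Module.finrank_mul_finrank, hV]
  haveI : Finite (AdjoinRoot p) := Module.finite_of_finite F
  have hκk : κ ^ Module.finrank (AdjoinRoot p) V = 1 := by
    ext c
    obtain ⟨z, hz⟩ := FiniteField.norm_surjective F (AdjoinRoot p) (c : F)
    obtain ⟨a, rfl⟩ := AdjoinRoot.mk_surjective z
    have hdet : LinearMap.det (φ (AdjoinRoot.mk p a)) = (c : F) ^ Module.finrank (AdjoinRoot p) V := by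
      have h1 : φ (AdjoinRoot.mk p a) =
          ((AdjoinRoot.mk p a) • (LinearMap.id : V →ₗ[AdjoinRoot p] V)).restrictScalars F := by
        ext v
        rfl
      rw [h1, LinearMap.det_restrictScalars, LinearMap.det_smul, LinearMap.det_id, mul_one, map_pow, hz]
    have hd : LinearMap.det (φ (AdjoinRoot.mk p a)) ≠ 0 := by
      rw [hdet]
      exact pow_ne_zero _ c.ne_zero
    have hcomm : Commute (φ (AdjoinRoot.mk p a)) g := by
      rw [hφ, hy, ← Polynomial.expand_aeval]
      exact aeval_comm g _
    have h2 := hg _ hcomm hd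
    have h3 : Units.mk0 _ hd = c ^ Module.finrank (AdjoinRoot p) V := by
      ext
      simp only [Units.val_mk0, Units.val_pow_eq_pow_val]
      rw [hdet]
    rw [h3, map_pow] at h2
    rw [MonoidHom.pow_apply, h2]
    rfl
  have h4 : n ∣ Module.finrank (AdjoinRoot p) V := by
    rw [← hκ]
    exact orderOf_dvd_of_pow_eq_one hκk
  have h5 : Module.finrank F (AdjoinRoot p) = p.natDegree := (AdjoinRoot.powerBasis hp.ne_zero).finrank
  rw [h5] at hmul
  obtain ⟨t, ht⟩ := h4
  rw [ht] at hmul
  have h6 : p.natDegree * t = 1 := by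
    have h7 : n * (p.natDegree * t) = n * 1 := by
      rw [mul_one]
      calc n * (p.natDegree * t) = p.natDegree * (n * t) := by ring
        _ = n := hmul
    exact Nat.eq_of_mul_eq_mul_left (by omega) h7
  exact Nat.eq_one_of_mul_eq_one_right h6

end field

/-! ### The nilpotent part -/

theorem jordan_li (N : Module.End F V) (k : ℕ) (hk : N ^ k = 0) (v : V) (hv : (N ^ (k - 1)) v ≠ 0) :
    LinearIndependent F (fun i : Fin k => (N ^ (i : ℕ)) v) := by
  rw [Fintype.linearIndependent_iff]
  intro a ha
  have key : ∀ m : ℕ, ∀ i : Fin k, (i : ℕ) = m → a i = 0 := by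
    intro m
    induction m using Nat.strong_induction_on with
    | _ m ih =>
      intro i him
      have h1 := congrArg (fun w => (N ^ (k - 1 - m)) w) ha
      simp only [map_sum, map_smul, map_zero] at h1
      rw [Finset.sum_eq_single i] at h1
      · rw [← Module.End.mul_apply, ← pow_add] at h1
        have h2 : k - 1 - m + (i : ℕ) = k - 1 := by have := i.2; omega
        rw [h2] at h1
        rcases smul_eq_zero.mp h1 with h3 | h3
        · exact h3
        · exact absurd h3 hv
      · intro j _ hj
        rcases lt_trichotomy (j : ℕ) m with h | h | h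
        · rw [ih j h j rfl, zero_smul]
        · exact absurd (Fin.ext (h.trans him.symm)) hj
        · rw [← Module.End.mul_apply, ← pow_add]
          have h2 : N ^ (k - 1 - m + (j : ℕ)) = 0 := pow_eq_zero_of_le (by have := j.2; omega) hk
          rw [h2]
          simp
      · intro h; exact absurd (Finset.mem_univ _) h
  intro i
  exact key i i rfl

theorem exists_jordan {κ : Fˣ →* ℂˣ} {n : ℕ} (hn : 1 ≤ n) (hκ : orderOf κ = n)
    (hV : Module.finrank F V = n) {N : Module.End F V} (hg : Kc κ N) (hN : IsNilpotent N) :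
    N ^ n = 0 ∧ ∃ v : V, LinearIndependent F (fun i : Fin n => (N ^ (i : ℕ)) v) := by
  classical
  have hnt : Nontrivial V := Module.nontrivial_of_finrank_pos (R := F) (by omega)
  set k := nilpotencyClass N with hkdef
  have hk0 : N ^ k = 0 := pow_nilpotencyClass hN
  have hkpos : 0 < k := by
    rcases Nat.eq_zero_or_pos k with h | h
    · rw [h, pow_zero] at hk0
      exact absurd hk0 one_ne_zero
    · exact h
  have hk1 : N ^ (k - 1) ≠ 0 := by
    rw [hkdef]
    exact pow_pred_nilpotencyClass hN
  obtain ⟨v, hv⟩ : ∃ v, (N ^ (k - 1)) v ≠ 0 := by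
    by_contra hcon
    push Not at hcon
    exact hk1 (LinearMap.ext hcon)
  have hli := jordan_li N k hk0 v hv
  -- the linear functional
  obtain ⟨φ, hφ⟩ : ∃ φ : V →ₗ[F] F, ∀ i : Fin k, φ ((N ^ (i : ℕ)) v) = if (i : ℕ) = k - 1 then 1 else 0 := by
    let b := Module.Basis.span hli
    obtain ⟨φ, hφ⟩ := LinearMap.exists_extend (b.coord ⟨k - 1, by omega⟩)
    refine ⟨φ, fun i => ?_⟩
    have h1 := congrArg (fun f : _ →ₗ[F] F => f (b i)) hφ
    simp only [LinearMap.comp_apply, Submodule.subtype_apply, Module.Basis.coord_apply, Module.Basis.repr_self] at h1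
    rw [Module.Basis.span_apply] at h1
    rw [h1, Finsupp.single_apply]
    by_cases h : (i : ℕ) = k - 1
    · rw [if_pos h, if_pos (Fin.ext h)]
    · rw [if_neg h, if_neg (fun h2 => h (congrArg Fin.val h2))]
  have hφ' : ∀ m : ℕ, φ ((N ^ m) v) = if m = k - 1 then 1 else 0 := by
    intro m
    by_cases h : m < k
    · exact hφ ⟨m, h⟩
    · rw [pow_eq_zero_of_le (not_lt.mp h) hk0, if_neg (by omega)]
      simp
  let P : Module.End F V := ∑ i ∈ Finset.range k, (φ ∘ₗ (N ^ (k - 1 - i))).smulRight ((N ^ i) v)
  have hPx : ∀ x, P x = ∑ i ∈ Finset.range k, φ ((N ^ (k - 1 - i)) x) • (N ^ i) v := by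
    intro x
    simp [P, LinearMap.sum_apply]
  have hPN : ∀ x, P (N x) = N (P x) := by
    intro x
    rw [hPx, hPx, map_sum]
    obtain ⟨l, hl⟩ : ∃ l, k = l + 1 := ⟨k - 1, by omega⟩
    rw [hl, Finset.sum_range_succ', Finset.sum_range_succ]
    have h1 : (N ^ (l + 1 - 1 - 0)) (N x) = 0 := by
      rw [← Module.End.mul_apply, ← pow_succ]
      have : l + 1 - 1 - 0 + 1 = k := by omega
      rw [this, hk0]; rfl
    have h2 : N (φ ((N ^ (l + 1 - 1 - l)) x) • (N ^ l) v) = 0 := by
      rw [map_smul, ← Module.End.mul_apply, ← pow_succ']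
      have : l + 1 = k := hl.symm
      rw [this, hk0]; simp
    rw [h1, h2, map_zero, zero_smul, add_zero, add_zero]
    apply Finset.sum_congr rfl
    intro i hi
    rw [Finset.mem_range] at hi
    rw [map_smul, ← Module.End.mul_apply, ← pow_succ, ← Module.End.mul_apply, ← pow_succ']
    have : l + 1 - 1 - (i + 1) + 1 = l + 1 - 1 - i := by omega
    rw [this]
  have hPv : ∀ j, j < k → P ((N ^ j) v) = (N ^ j) v := by
    intro j hj
    rw [hPx, Finset.sum_eq_single j]
    · rw [← Module.End.mul_apply, ← pow_add, hφ', if_pos (by omega), one_smul]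
    · intro i hi hij
      rw [Finset.mem_range] at hi
      rw [← Module.End.mul_apply, ← pow_add, hφ', if_neg (by omega), zero_smul]
    · intro h; exact absurd (Finset.mem_range.mpr hj) h
  have hPP : P * P = P := by
    ext x
    rw [Module.End.mul_apply]
    conv_lhs => rw [hPx x]
    rw [map_sum]
    conv_rhs => rw [hPx x]
    apply Finset.sum_congr rfl
    intro i hi
    rw [map_smul, hPv i (Finset.mem_range.mp hi)]
  have hcomm : Commute P N := by
    ext x
    exact hPN x
  have hP1 : P = 1 := by
    rcases idem hκ hV hg P hPP hcomm with h | h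
    · exfalso
      have h1 := hPv 0 hkpos
      rw [h, LinearMap.zero_apply] at h1
      apply hv
      rw [pow_zero] at h1
      have h2 : v = 0 := h1.symm
      rw [h2, map_zero]
    · exact h
  have hle : k ≤ n := by
    rw [← hV]
    simpa using hli.fintype_card_le_finrank
  have hge : n ≤ k := by
    have htop : Submodule.span F (Set.range fun i : Fin k => (N ^ (i : ℕ)) v) = ⊤ := by
      rw [eq_top_iff]
      intro x _
      have h1 : x = P x := by rw [hP1]; rfl
      rw [h1, hPx]
      apply Submodule.sum_mem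
      intro i hi
      apply Submodule.smul_mem
      exact Submodule.subset_span ⟨⟨i, Finset.mem_range.mp hi⟩, rfl⟩
    have h2 := finrank_range_le_card (R := F) (fun i : Fin k => (N ^ (i : ℕ)) v)
    rw [Set.finrank, htop, finrank_top, hV, Fintype.card_fin] at h2
    exact h2
  have hkn : k = n := le_antisymm hle hge
  rw [← hkn]
  exact ⟨hk0, v, hli⟩

end Vale.Agent.P275.H85.D1
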