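import Vale.Agent.P275.H85.D1
import Vale.Agent.P275.H85.D1Lin

/-!
# Package D1: exactly one stable irreducible character for each central character, conclusion
-/

set_option linter.style.haveILetI false
set_option linter.unusedSectionVars false

namespace Vale.Agent.P275.H85.D1

open scoped BigOperators MatrixGroups
open Matrix

variable {F : Type} [Field F] [Fintype F] [DecidableEq F] {n : ℕ}

/-- the subdiagonal shift -/
def N0 (F : Type) [Field F] (n : ℕ) : Matrix (Fin n) (Fin n) F :=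
  Matrix.of fun i j => if (i : ℕ) = (j : ℕ) + 1 then 1 else 0

theorem mul_N0 (h : Matrix (Fin n) (Fin n) F) (i j k : Fin n) (hk : (k : ℕ) = (j : ℕ) + 1) :
    (h * N0 F n) i j = h i k := by
  rw [Matrix.mul_apply, Finset.sum_eq_single k]
  · simp [N0, hk]
  · intro l _ hl
    have : (l : ℕ) ≠ (j : ℕ) + 1 := fun h2 => hl (Fin.ext (by omega))
    simp [N0, this]
  · intro h; exact absurd (Finset.mem_univ _) h

theorem mul_N0_last (h : Matrix (Fin n) (Fin n) F) (i j : Fin n) (hj : (j : ℕ) + 1 = n) :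
    (h * N0 F n) i j = 0 := by
  rw [Matrix.mul_apply]
  apply Finset.sum_eq_zero
  intro l _
  have : (l : ℕ) ≠ (j : ℕ) + 1 := by have := l.2; omega
  simp [N0, this]

theorem N0_mul (h : Matrix (Fin n) (Fin n) F) (i j k : Fin n) (hk : (i : ℕ) = (k : ℕ) + 1) :
    (N0 F n * h) i j = h k j := by
  rw [Matrix.mul_apply, Finset.sum_eq_single k]
  · simp [N0, hk]
  · intro l _ hl
    have : (i : ℕ) ≠ (l : ℕ) + 1 := fun h2 => hl (Fin.ext (by omega))
    simp [N0, this]
  · intro h; exact absurd (Finset.mem_univ _) h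

theorem N0_mul_zero (h : Matrix (Fin n) (Fin n) F) (i j : Fin n) (hi : (i : ℕ) = 0) :
    (N0 F n * h) i j = 0 := by
  rw [Matrix.mul_apply]
  apply Finset.sum_eq_zero
  intro l _
  simp [N0, hi]

theorem det_lower (h : Matrix (Fin n) (Fin n) F) (hh : ∀ i j : Fin n, i < j → h i j = 0) :
    h.det = ∏ i, h i i := by
  apply Matrix.det_of_isLowerTriangular
  intro i j hij
  exact hh i j hij

theorem det_oneN0 : (1 + N0 F n).det = 1 := by
  rw [det_lower]
  · apply Finset.prod_eq_one
    intro i _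
    simp [N0]
  · intro i j hij
    have h1 : (i : ℕ) ≠ (j : ℕ) + 1 := by rw [Fin.lt_def] at hij; omega
    simp [N0, hij.ne, h1]

/-- the regular unipotent element -/
noncomputable def u0 (F : Type) [Field F] [Fintype F] [DecidableEq F] (n : ℕ) : GL (Fin n) F :=
  Matrix.GeneralLinearGroup.mkOfDetNeZero (1 + N0 F n) (by rw [det_oneN0]; exact one_ne_zero)

theorem u0_val : (u0 F n).val = 1 + N0 F n := rfl

theorem scal_val (c : Fˣ) : (scal n c).val = (c : F) • (1 : Matrix (Fin n) (Fin n) F) := by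
  unfold scal
  simp [Matrix.smul_one_eq_diagonal]

theorem scal_comm (c : Fˣ) (g : GL (Fin n) F) : scal n c * g = g * scal n c := by
  apply Units.ext
  rw [Units.val_mul, Units.val_mul, scal_val]
  simp

/-- the centralizer of the regular unipotent element -/
theorem cent_u0 (hn : 1 ≤ n) (κ : Fˣ →* ℂˣ) (hκ : orderOf κ = n) (h : GL (Fin n) F) (c : Fˣ)
    (hc : h * (scal n c * u0 F n) * h⁻¹ = u0 F n) : c = 1 ∧ κ (Matrix.GeneralLinearGroup.det h) = 1 := by
  have h1 : h * (scal n c * u0 F n) = u0 F n * h := mul_inv_eq_iff_eq_mul.mp hc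
  have h2 := congrArg Units.val h1
  rw [Units.val_mul, Units.val_mul, Units.val_mul, scal_val, u0_val, smul_mul_assoc, one_mul,
    mul_smul_comm] at h2
  have hc1 : c = 1 := by
    -- determinant of `u0 - c`
    have h3 : (1 + N0 F n - (c : F) • 1) * h.val = h.val * ((c : F) • N0 F n) := by
      rw [sub_mul, ← h2]
      rw [mul_add, smul_add, mul_one, smul_mul_assoc, one_mul, mul_smul_comm]
      abel
    have h4 := congrArg Matrix.det h3
    rw [Matrix.det_mul, Matrix.det_mul, Matrix.det_smul] at h4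
    have h5 : (N0 F n).det = 0 := by
      apply Matrix.det_eq_zero_of_row_eq_zero (⟨0, hn⟩ : Fin n)
      intro j
      simp [N0]
    have h6 : h.val.det ≠ 0 := by
      have := h.isUnit
      rw [Matrix.isUnit_iff_isUnit_det] at this
      exact this.ne_zero
    rw [h5, mul_zero, mul_zero] at h4
    have h7 : (1 + N0 F n - (c : F) • 1).det = 0 := by
      rcases mul_eq_zero.mp h4 with h8 | h8
      · exact h8
      · exact absurd h8 h6
    rw [det_lower] at h7
    · rw [Finset.prod_eq_zero_iff] at h7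
      obtain ⟨i, _, hi⟩ := h7
      simp [N0] at hi
      exact Units.ext (by rw [Units.val_one]; exact (sub_eq_zero.mp hi).symm)
    · intro i j hij
      have h8 : (i : ℕ) ≠ (j : ℕ) + 1 := by rw [Fin.lt_def] at hij; omega
      simp [N0, hij.ne, h8]
  refine ⟨hc1, ?_⟩
  subst hc1
  have h3 : h.val * N0 F n = N0 F n * h.val := by
    rw [Units.val_one, one_smul, mul_add, add_mul, mul_one, one_mul] at h2
    exact add_left_cancel h2
  have hA : ∀ m : ℕ, ∀ i j : Fin n, (i : ℕ) = m → i < j → h.val i j = 0 := by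
    intro m
    induction m with
    | zero =>
      intro i j him hij
      rw [Fin.lt_def] at hij
      let j' : Fin n := ⟨(j : ℕ) - 1, by have := j.2; omega⟩
      have h4 : (h.val * N0 F n) i j' = h.val i j := mul_N0 _ _ _ _ (by simp [j']; omega)
      rw [← h4, h3, N0_mul_zero _ _ _ him]
    | succ m ih =>
      intro i j him hij
      rw [Fin.lt_def] at hij
      let j' : Fin n := ⟨(j : ℕ) - 1, by have := j.2; omega⟩
      let i' : Fin n := ⟨m, by have := i.2; omega⟩
      have h4 : (h.val * N0 F n) i j' = h.val i j := mul_N0 _ _ _ _ (by simp [j']; omega)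
      have h5 : (N0 F n * h.val) i j' = h.val i' j' := N0_mul _ _ _ _ (by simp [i']; omega)
      rw [← h4, h3, h5]
      exact ih i' j' rfl (by rw [Fin.lt_def]; simp [i', j']; omega)
  have hB : ∀ m : ℕ, ∀ i : Fin n, (i : ℕ) = m → h.val i i = h.val ⟨0, hn⟩ ⟨0, hn⟩ := by
    intro m
    induction m with
    | zero =>
      intro i him
      have : i = ⟨0, hn⟩ := Fin.ext him
      rw [this]
    | succ m ih =>
      intro i him
      let i' : Fin n := ⟨m, by have := i.2; omega⟩
      have h4 : (h.val * N0 F n) i i' = h.val i i := mul_N0 _ _ _ _ (by simp [i']; omega)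
      have h5 : (N0 F n * h.val) i i' = h.val i' i' := N0_mul _ _ _ _ (by simp [i']; omega)
      rw [← h4, h3, h5]
      exact ih i' rfl
  have hdet : h.val.det = (h.val ⟨0, hn⟩ ⟨0, hn⟩) ^ n := by
    rw [det_lower _ (fun i j hij => hA (i : ℕ) i j rfl hij)]
    rw [Finset.prod_congr rfl (fun (i : Fin n) _ => hB i.val i rfl), Finset.prod_const, Finset.card_univ, Fintype.card_fin]
  have ha : h.val ⟨0, hn⟩ ⟨0, hn⟩ ≠ 0 := by
    intro h0
    rw [h0, zero_pow (by omega)] at hdet
    have := h.isUnit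
    rw [Matrix.isUnit_iff_isUnit_det, hdet] at this
    exact not_isUnit_zero this
  have h4 : Matrix.GeneralLinearGroup.det h = (Units.mk0 _ ha) ^ n := by
    apply Units.ext
    rw [Units.val_pow_eq_pow_val, Units.val_mk0, ← hdet]
    rfl
  have h5 : κ ^ n = 1 := by
    rw [← hκ]
    exact pow_orderOf_eq_one κ
  rw [h4, map_pow, ← MonoidHom.pow_apply, h5]
  rfl

/-! ### The space of twisted functions is one-dimensional -/

/-- twisted class functions -/
def TCF (κ ω : Fˣ →* ℂˣ) (f : GL (Fin n) F → ℂ) : Prop :=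
  (∀ g h, f (h * g * h⁻¹) = (κ (Matrix.GeneralLinearGroup.det h) : ℂ) * f g) ∧
    ∀ c g, f (scal n c * g) = (ω c : ℂ) * f g

theorem Kc_of_ne {κ ω : Fˣ →* ℂˣ} {f : GL (Fin n) F → ℂ} (hf : TCF κ ω f) (g : GL (Fin n) F)
    (hg : f g ≠ 0) : Kc κ (Matrix.toLinAlgEquiv' g.val) := by
  intro h hcomm hd
  set h0 : Matrix (Fin n) (Fin n) F := Matrix.toLinAlgEquiv'.symm h with hh0
  have h1 : Matrix.toLinAlgEquiv' h0 = h := by rw [hh0]; exact AlgEquiv.apply_symm_apply _ _
  have hdet : h0.det = LinearMap.det h := by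
    rw [← h1]
    exact (LinearMap.det_toLin' h0).symm
  let H : GL (Fin n) F := Matrix.GeneralLinearGroup.mkOfDetNeZero h0 (by rw [hdet]; exact hd)
  have h2 : H * g = g * H := by
    apply Units.ext
    show h0 * g.val = g.val * h0
    apply Matrix.toLinAlgEquiv'.injective
    rw [map_mul, map_mul, h1]
    exact hcomm
  have h3 := hf.1 g H
  rw [h2, mul_inv_cancel_right] at h3
  have h4 : (κ (Matrix.GeneralLinearGroup.det H) : ℂ) = 1 := by
    have : ((κ (Matrix.GeneralLinearGroup.det H) : ℂ) - 1) * f g = 0 := by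
      rw [sub_mul, one_mul, ← h3, sub_self]
    rcases mul_eq_zero.mp this with h5 | h5
    · exact sub_eq_zero.mp h5
    · exact absurd h5 hg
  have h5 : Matrix.GeneralLinearGroup.det H = Units.mk0 _ hd := by
    apply Units.ext
    rw [Units.val_mk0, ← hdet]
    rfl
  rw [← h5]
  exact Units.ext h4

/-- the structure of `g` -/
theorem structure_g (hn : 1 ≤ n) {κ : Fˣ →* ℂˣ} (hκ : orderOf κ = n) (g : GL (Fin n) F)
    (hg : Kc κ (Matrix.toLinAlgEquiv' g.val)) :
    ∃ (h : GL (Fin n) F) (c : Fˣ), g = h * (scal n c * u0 F n) * h⁻¹ := by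
  classical
  have hV : Module.finrank F (Fin n → F) = n := by simp
  set G : Module.End F (Fin n → F) := Matrix.toLinAlgEquiv' g.val with hG
  obtain ⟨p, hp, hnil⟩ := exists_irr_nilp hn hκ hV hg
  have hdeg := natDegree_eq_one hn hκ hV hg p hp hnil
  obtain ⟨a, ha, b, hab⟩ := Polynomial.natDegree_eq_one.mp hdeg
  have hnt : Nontrivial (Fin n → F) := Module.nontrivial_of_finrank_pos (R := F) (by omega)
  have hGu : IsUnit G := by
    rw [hG]
    exact g.isUnit.map Matrix.toLinAlgEquiv'
  -- the eigenvalue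
  have hae : Polynomial.aeval G p = a • G + algebraMap F _ b := by
    rw [← hab]
    simp [Algebra.smul_def]
  have hc0 : -b / a ≠ 0 := by
    intro h0
    have hb : b = 0 := by
      rw [div_eq_zero_iff] at h0
      rcases h0 with h0 | h0
      · exact neg_eq_zero.mp h0
      · exact absurd h0 ha
    rw [hae, hb, map_zero, add_zero] at hnil
    have h1 : IsNilpotent G := by
      have h3 := hnil.smul a⁻¹
      rwa [smul_smul, inv_mul_cancel₀ ha, one_smul] at h3
    obtain ⟨k, hk⟩ := h1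
    have h2 := hGu.pow k
    rw [hk] at h2
    exact not_isUnit_zero h2
  set c : Fˣ := Units.mk0 _ hc0 with hc
  have hcv : (c : F) = -b / a := rfl
  set N : Module.End F (Fin n → F) := (c : F)⁻¹ • G - 1 with hN
  have hNnil : IsNilpotent N := by
    have h1 : N = (a⁻¹ * (c : F)⁻¹) • Polynomial.aeval G p := by
      rw [hae, hN, smul_add, smul_smul]
      have h2 : a⁻¹ * (c : F)⁻¹ * a = (c : F)⁻¹ := by field_simp
      rw [h2, sub_eq_add_neg]
      congr 1
      rw [Algebra.algebraMap_eq_smul_one, smul_smul]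
      have h3 : a⁻¹ * (c : F)⁻¹ * b = -1 := by
        rw [hcv]
        have hb : b ≠ 0 := by
          rintro rfl
          simp at hc0
        field_simp
      rw [h3, neg_smul, one_smul]
    rw [h1]
    exact hnil.smul _
  have hGN : G = (c : F) • (1 + N) := by
    rw [hN, add_sub_cancel, smul_smul, mul_inv_cancel₀ c.ne_zero, one_smul]
  have hKN : Kc κ N := by
    intro h hcomm hd
    apply hg h _ hd
    rw [hGN]
    exact ((Commute.one_right h).add_right hcomm).smul_right _
  obtain ⟨hNn, v, hli⟩ := exists_jordan hn hκ hV hKN hNnil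
  let h0 : Matrix (Fin n) (Fin n) F := Matrix.of fun i j => (N ^ (j : ℕ)) v i
  have hh0 : IsUnit h0 := by
    rw [← Matrix.linearIndependent_cols_iff_isUnit]
    exact hli
  have hcol : ∀ i j, (g.val * h0) i j = G ((N ^ (j : ℕ)) v) i := by
    intro i j
    rw [hG]
    rfl
  have key : g.val * h0 = h0 * ((c : F) • (1 + N0 F n)) := by
    ext i j
    rw [hcol, hGN, mul_smul_comm, Matrix.smul_apply, mul_add, mul_one, Matrix.add_apply]
    rw [LinearMap.smul_apply, Pi.smul_apply, LinearMap.add_apply, Pi.add_apply]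
    congr 2
    rw [← Module.End.mul_apply, ← pow_succ']
    by_cases hj : (j : ℕ) + 1 = n
    · rw [mul_N0_last _ _ _ hj, hj, hNn]
      rfl
    · let k : Fin n := ⟨(j : ℕ) + 1, by have := j.2; omega⟩
      rw [mul_N0 h0 i j k rfl]
      rfl
  refine ⟨hh0.unit, c, ?_⟩
  rw [eq_mul_inv_iff_mul_eq]
  apply Units.ext
  rw [Units.val_mul, Units.val_mul, Units.val_mul, scal_val, u0_val, smul_mul_assoc, one_mul]
  exact key

open scoped Classical in
/-- the basic twisted function -/
noncomputable def f0 (κ ω : Fˣ →* ℂˣ) (g : GL (Fin n) F) : ℂ :=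
  ∑ h : GL (Fin n) F, ∑ c : Fˣ, if h * (scal n c * u0 F n) * h⁻¹ = g then
    (κ (Matrix.GeneralLinearGroup.det h) : ℂ) * (ω c : ℂ) else 0

theorem scal_mul (c d : Fˣ) : scal n (c * d) = scal n c * scal n d := by
  unfold scal
  rw [map_mul]

theorem f0_TCF (κ ω : Fˣ →* ℂˣ) : TCF κ ω (f0 (n := n) κ ω) := by
  classical
  constructor
  · intro g k
    unfold f0
    rw [← Equiv.sum_comp (Equiv.mulLeft k), Finset.mul_sum]
    apply Finset.sum_congr rfl
    intro h _
    rw [Finset.mul_sum]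
    apply Finset.sum_congr rfl
    intro c _
    change (if k * h * (scal n c * u0 F n) * (k * h)⁻¹ = k * g * k⁻¹ then
      (κ (Matrix.GeneralLinearGroup.det (k * h)) : ℂ) * (ω c : ℂ) else 0) = _
    have h1 : (k * h * (scal n c * u0 F n) * (k * h)⁻¹ = k * g * k⁻¹) ↔ (h * (scal n c * u0 F n) * h⁻¹ = g) := by
      constructor
      · intro h2
        have h3 : k * (h * (scal n c * u0 F n) * h⁻¹) * k⁻¹ = k * g * k⁻¹ := by rw [← h2]; group
        exact mul_left_cancel (mul_right_cancel h3)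
      · rintro rfl
        group
    by_cases h2 : h * (scal n c * u0 F n) * h⁻¹ = g
    · rw [if_pos h2, if_pos (h1.mpr h2), map_mul, map_mul, Units.val_mul]
      ring
    · rw [if_neg h2, if_neg (fun h3 => h2 (h1.mp h3)), mul_zero]
  · intro d g
    unfold f0
    rw [Finset.mul_sum]
    apply Finset.sum_congr rfl
    intro h _
    rw [← Equiv.sum_comp (Equiv.mulLeft d), Finset.mul_sum]
    apply Finset.sum_congr rfl
    intro c _
    change (if h * (scal n (d * c) * u0 F n) * h⁻¹ = scal n d * g then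
      (κ (Matrix.GeneralLinearGroup.det h) : ℂ) * (ω (d * c) : ℂ) else 0) = _
    have h1 : (h * (scal n (d * c) * u0 F n) * h⁻¹ = scal n d * g) ↔ (h * (scal n c * u0 F n) * h⁻¹ = g) := by
      have h2 : h * (scal n (d * c) * u0 F n) * h⁻¹ = scal n d * (h * (scal n c * u0 F n) * h⁻¹) := by
        rw [scal_mul, ← mul_assoc, ← mul_assoc, ← scal_comm d h]
        group
      rw [h2]
      exact mul_right_inj _
    by_cases h2 : h * (scal n c * u0 F n) * h⁻¹ = g
    · rw [if_pos h2, if_pos (h1.mpr h2), map_mul, Units.val_mul]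
      ring
    · rw [if_neg h2, if_neg (fun h3 => h2 (h1.mp h3)), mul_zero]

theorem f0_u0 (hn : 1 ≤ n) (κ ω : Fˣ →* ℂˣ) (hκ : orderOf κ = n) : f0 κ ω (u0 F n) ≠ 0 := by
  classical
  have h1 : f0 κ ω (u0 F n) = ∑ h : GL (Fin n) F, ∑ c : Fˣ,
      if h * (scal n c * u0 F n) * h⁻¹ = u0 F n then (1 : ℂ) else 0 := by
    unfold f0
    apply Finset.sum_congr rfl
    intro h _
    apply Finset.sum_congr rfl
    intro c _
    by_cases h2 : h * (scal n c * u0 F n) * h⁻¹ = u0 F n
    · obtain ⟨h3, h4⟩ := cent_u0 hn κ hκ h c h2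
      rw [if_pos h2, if_pos h2, h4, h3, map_one]
      simp
    · rw [if_neg h2, if_neg h2]
  rw [h1]
  simp only [Finset.sum_boole]
  rw [← Nat.cast_sum]
  rw [Nat.cast_ne_zero]
  intro h2
  rw [Finset.sum_eq_zero_iff] at h2
  have h3 := h2 1 (Finset.mem_univ _)
  rw [Finset.card_eq_zero, Finset.filter_eq_empty_iff] at h3
  apply h3 (Finset.mem_univ (1 : Fˣ))
  have : scal n (1 : Fˣ) = (1 : GL (Fin n) F) := by unfold scal; rw [map_one]
  rw [this]
  group

theorem TCF_unique (hn : 1 ≤ n) (κ ω : Fˣ →* ℂˣ) (hκ : orderOf κ = n) (f : GL (Fin n) F → ℂ) (hf : TCF κ ω f) :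
    ∃ c : ℂ, f = c • f0 κ ω := by
  have h0 := f0_u0 hn κ ω hκ
  refine ⟨f (u0 F n) / f0 κ ω (u0 F n), ?_⟩
  have val : ∀ f : GL (Fin n) F → ℂ, TCF κ ω f → ∀ h c, f (h * (scal n c * u0 F n) * h⁻¹) =
      (κ (Matrix.GeneralLinearGroup.det h) : ℂ) * ((ω c : ℂ) * f (u0 F n)) := by
    intro f hf h c
    rw [hf.1, hf.2]
  funext g
  rw [Pi.smul_apply, smul_eq_mul]
  by_cases h1 : f g = 0
  · by_cases h2 : f0 κ ω g = 0
    · rw [h1, h2, mul_zero]
    · obtain ⟨h, c, rfl⟩ := structure_g hn hκ g (Kc_of_ne (f0_TCF κ ω) g h2)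
      rw [val _ hf, val _ (f0_TCF κ ω)]
      field_simp
  · obtain ⟨h, c, rfl⟩ := structure_g hn hκ g (Kc_of_ne hf g h1)
    rw [val _ hf, val _ (f0_TCF κ ω)]
    field_simp

end Vale.Agent.P275.H85.D1

namespace Vale.Agent.P275.H85

/-- package D1 -/
theorem pkgD1 : PkgD1 := by
  intro F _ _ _ n hn κ ω hκ
  have h := D1.main (G := Matrix.GeneralLinearGroup (Fin n) F) (A := Fˣ)
    (κ.comp Matrix.GeneralLinearGroup.det)
    (Units.map (Matrix.scalar (Fin n)).toMonoidHom) (fun a g => D1.scal_comm a g) ω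
    (D1.f0 κ ω) (fun h0 => D1.f0_u0 hn κ ω hκ (congrFun h0 _)) (D1.f0_TCF κ ω).1 (D1.f0_TCF κ ω).2
    (fun f h1 h2 => D1.TCF_unique hn κ ω hκ f ⟨h1, h2⟩)
  exact h

end Vale.Agent.P275.H85
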