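import Vale.Agent.P275.H85.A1

/-!
# Common definitions for the linear groups over a finite field
-/

set_option linter.style.haveILetI false
set_option linter.unusedSectionVars false

namespace Vale.Agent.P275.H85

open scoped BigOperators MatrixGroups
open Matrix

variable {F : Type} [Field F] [Fintype F] [DecidableEq F] {n : ℕ}

open scoped Classical in
/-- extension by zero of a function on `GL_n` to all matrices -/
noncomputable def ez (χ : GL (Fin n) F → ℂ) (A : Matrix (Fin n) (Fin n) F) : ℂ :=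
  if h : IsUnit A then χ h.unit else 0

/-- the part of `c` in the rows `< k` and the columns `≥ k` -/
def ur (k : ℕ) (c : Matrix (Fin n) (Fin n) F) : Matrix (Fin n) (Fin n) F :=
  Matrix.of fun i j => if (i : ℕ) < k ∧ k ≤ (j : ℕ) then c i j else 0

/-- cuspidality: all constant terms vanish -/
def Cusp (f : Matrix (Fin n) (Fin n) F → ℂ) : Prop :=
  ∀ k, 0 < k → k < n → ∀ A : Matrix (Fin n) (Fin n) F,
    (∀ i j : Fin n, k ≤ (i : ℕ) → (j : ℕ) < k → A i j = 0) → ∑ c, f (A + ur k c) = 0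

/-- the upper unitriangular matrix with entries taken from `c` -/
def utri (c : Matrix (Fin n) (Fin n) F) : Matrix (Fin n) (Fin n) F :=
  Matrix.of fun i j => if i = j then 1 else if i < j then c i j else 0

/-- the sum of the entries just above the diagonal -/
def sd (c : Matrix (Fin n) (Fin n) F) : F :=
  ∑ i : Fin n, ∑ j : Fin n, if (i : ℕ) + 1 = (j : ℕ) then c i j else 0

/-- the multiplicity of a generic character of the unitriangular group -/
noncomputable def whit (ψ : AddChar F ℂ) (χ : GL (Fin n) F → ℂ) : ℂ :=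
  (Fintype.card (Matrix (Fin n) (Fin n) F) : ℂ)⁻¹ * ∑ c, ψ (-(sd c)) * ez χ (utri c)

/-- the determinant twist -/
noncomputable def tw (κ : Fˣ →* ℂˣ) (g : GL (Fin n) F) : ℂ := (κ (Matrix.GeneralLinearGroup.det g) : ℂˣ)

/-- scalar matrices -/
def scal (n : ℕ) (c : Fˣ) : GL (Fin n) F := Units.map (Matrix.scalar (Fin n)).toMonoidHom c

/-- `χ` is an irreducible character of `GL_n` stable under the twist by `κ` with central
character `ω` -/
def Stab (κ ω : Fˣ →* ℂˣ) (χ : GL (Fin n) F → ℂ) : Prop :=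
  IsIrrChar χ ∧ (∀ g, tw κ g * χ g = χ g) ∧ ∀ c g, χ (scal n c * g) = (ω c : ℂ) * χ g

/-- package A2 -/
def PkgA2 : Prop :=
  ∀ (G : Type) [Group G] [Fintype G] [DecidableEq G] (g : ℕ) (κ κ' : Fin g → (G →* ℂˣ)) (κ₀ : G →* ℂˣ),
    (∀ i, ∃ a : ℕ, κ i = κ₀ ^ a) → (∀ i, ∃ a : ℕ, κ' i = κ₀ ^ a) →
    (κ₀ ∈ Subgroup.closure (Set.range κ ∪ Set.range κ')) → ∀ z : G,
    (∑ A : Fin g → G, ∑ B : Fin g → G,
      if (List.ofFn fun i => A i * B i * (A i)⁻¹ * (B i)⁻¹).prod = z then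
        ∏ i, ((κ i (A i) : ℂˣ) : ℂ) * ((κ' i (B i) : ℂˣ) : ℂ) else 0)
    = (Fintype.card G : ℂ)⁻¹ * ∑ χ ∈ (irrSet G).filter (fun χ => ∀ g, (κ₀ g : ℂ) * χ g = χ g),
        ((Fintype.card G : ℂ) / χ 1) ^ (2 * g) * χ 1 * χ z⁻¹

/-- package C1: dimension of a cuspidal class function -/
def PkgC1 : Prop :=
  ∀ (F : Type) [Field F] [Fintype F] [DecidableEq F] (n : ℕ), 1 ≤ n →
    ∀ (ψ : AddChar F ℂ), ψ ≠ 1 → ∀ χ : GL (Fin n) F → ℂ, IsClass χ → Cusp (ez χ) →
    χ 1 = (∏ k ∈ Finset.Ico 1 n, ((Fintype.card F : ℂ) ^ k - 1)) * whit ψ χ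

/-- package C2: uniqueness of Whittaker models -/
def PkgC2 : Prop :=
  ∀ (F : Type) [Field F] [Fintype F] [DecidableEq F] (n : ℕ)
    (ψ : AddChar F ℂ), ψ ≠ 1 → ∀ χ : GL (Fin n) F → ℂ, IsIrrChar χ →
    whit ψ χ = 0 ∨ whit ψ χ = 1

/-- package D1: exactly one stable irreducible character for each central character -/
def PkgD1 : Prop :=
  ∀ (F : Type) [Field F] [Fintype F] [DecidableEq F] (n : ℕ), 1 ≤ n →
    ∀ κ ω : Fˣ →* ℂˣ, orderOf κ = n → ∃! χ : GL (Fin n) F → ℂ, Stab κ ω χ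

end Vale.Agent.P275.H85
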