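import Vale.Agent.P275.H85.B12

/-!
# Central characters and degrees of products of cuspidal characters
-/

set_option linter.style.haveILetI false
set_option linter.unusedSectionVars false

namespace Vale.Agent.P275.H85

open scoped BigOperators MatrixGroups
open Module Matrix

variable {F : Type} [Field F] [Fintype F] [DecidableEq F]

/-- central character of a family -/
def CentF (ω : Fˣ →* ℂˣ) (f : CF F) : Prop :=
  ∀ (V : Type) [AddCommGroup V] [Module F V] [FiniteDimensional F V] (φ : V →ₗ[F] V) (c : Fˣ),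
    f V ((c : F) • φ) = (ω c : ℂ) * f V φ

theorem scal_coe {n : ℕ} (c : Fˣ) (g : GL (Fin n) F) :
    ((scal n c * g : GL (Fin n) F) : Matrix (Fin n) (Fin n) F) = (c : F) • (g : Matrix (Fin n) (Fin n) F) := by
  rw [Units.val_mul]
  unfold scal
  show Matrix.scalar (Fin n) (c : F) * (g : Matrix (Fin n) (Fin n) F) = _
  rw [Matrix.scalar_apply, ← Matrix.smul_one_eq_diagonal, Matrix.smul_mul, Matrix.one_mul]

theorem centF_toCF {n : ℕ} {ω : Fˣ →* ℂˣ} {χ : GL (Fin n) F → ℂ}
    (h : ∀ c g, χ (scal n c * g) = (ω c : ℂ) * χ g) : CentF ω (toCF χ) := by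
  intro V _ _ _ φ c
  unfold toCF
  split_ifs with hn
  · rw [map_smul]
    set A := LinearMap.toMatrix (finBasisOfFinrankEq F V hn) (finBasisOfFinrankEq F V hn) φ
    by_cases hA : IsUnit A
    · obtain ⟨g, hg⟩ := hA
      rw [← hg, ← scal_coe, ez_unit, ez_unit, h]
    · rw [ez_not _ hA, ez_not, mul_zero]
      intro hcA
      apply hA
      have : A = ((c⁻¹ : Fˣ) : F) • ((c : F) • A) := by
        rw [smul_smul, ← Units.val_mul, inv_mul_cancel, Units.val_one, one_smul]
      obtain ⟨g, hg⟩ := hcA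
      rw [this, ← hg, ← scal_coe]
      exact Units.isUnit _
  · rw [mul_zero]

theorem cent_rs {n : ℕ} {ω : Fˣ →* ℂˣ} {f : CF F} (h : CentF ω f) (c : Fˣ) (g : GL (Fin n) F) :
    rs n f (scal n c * g) = (ω c : ℂ) * rs n f g := by
  unfold rs
  rw [scal_coe, map_smul, h]

theorem centF_mul {ω ω' : Fˣ →* ℂˣ} {f g : CF F} (hf : CentF ω f) (hg : CentF ω' g) :
    CentF (ω * ω') (mul f g) := by
  intro V _ _ _ φ c
  unfold mul
  rw [Finset.mul_sum]
  apply Finset.sum_congr rfl
  intro K _
  by_cases h : K ≤ K.comap φ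
  · have h' : K ≤ K.comap ((c : F) • φ) := by
      intro v hv
      rw [Submodule.mem_comap, LinearMap.smul_apply]
      exact K.smul_mem _ (h hv)
    rw [term_of h, term_of h']
    have e1 : ((c : F) • φ).restrict h' = (c : F) • (φ.restrict h) := by
      apply LinearMap.ext
      intro v
      rfl
    have e2 : K.mapQ K ((c : F) • φ) h' = (c : F) • (K.mapQ K φ h) := by
      apply LinearMap.ext
      intro v
      obtain ⟨v, rfl⟩ := K.mkQ_surjective v
      rfl
    rw [e1, e2, hf, hg, MonoidHom.mul_apply, Units.val_mul]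
    ring
  · rw [term_of_not h, term_of_not, mul_zero]
    intro h'
    apply h
    intro v hv
    have h1 := h' hv
    rw [Submodule.mem_comap, LinearMap.smul_apply] at h1
    exact (K.smul_mem_iff c.ne_zero).mp h1

theorem centF_one : CentF (1 : Fˣ →* ℂˣ) (one : CF F) := by
  intro V _ _ _ φ c
  simp [one]

theorem centF_twf {s : ℕ} {ω κ : Fˣ →* ℂˣ} {f : CF F} (hs : Supp s f) (hf : CentF ω f) :
    CentF (ω * κ ^ s) (twf κ f) := by
  intro V _ _ _ φ c
  unfold twf
  by_cases hn : finrank F V = s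
  · rw [LinearMap.det_smul, map_mul, hf, hn, map_pow]
    unfold kx
    rw [MulChar.ofUnitHom_coe, MonoidHom.mul_apply, Units.val_mul, MonoidHom.pow_apply, Units.val_pow_eq_pow_val]
    ring
  · rw [hs _ _ (Or.inl hn), hs _ _ (Or.inl hn)]
    simp

theorem centF_unique {n : ℕ} {ω ω' : Fˣ →* ℂˣ} {f : CF F} (h : CentF ω f) (h' : CentF ω' f)
    (h1 : rs n f 1 ≠ 0) : ω = ω' := by
  ext c
  have e1 := cent_rs h c (1 : GL (Fin n) F)
  have e2 := cent_rs h' c (1 : GL (Fin n) F)
  rw [e1] at e2
  exact mul_right_cancel₀ h1 e2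

theorem irr_one_ne {n : ℕ} {χ : GL (Fin n) F → ℂ} (h : IsIrrChar χ) : χ 1 ≠ 0 := by
  obtain ⟨π, rfl⟩ := h
  rw [π.χ_one]
  exact_mod_cast π.dim_pos.ne'

theorem scal_comm {n : ℕ} (c : Fˣ) (g : GL (Fin n) F) : scal n c * g = g * scal n c := by
  apply Units.ext
  rw [scal_coe, Units.val_mul]
  unfold scal
  show _ = (g : Matrix (Fin n) (Fin n) F) * Matrix.scalar (Fin n) (c : F)
  rw [Matrix.scalar_apply, ← Matrix.smul_one_eq_diagonal, Matrix.mul_smul, Matrix.mul_one]

theorem exists_cent {n : ℕ} {χ : GL (Fin n) F → ℂ} (h : IsIrrChar χ) :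
    ∃ ω : Fˣ →* ℂˣ, ∀ c g, χ (scal n c * g) = (ω c : ℂ) * χ g :=
  exists_central (Z := Fˣ) (Units.map (Matrix.scalar (Fin n)).toMonoidHom) scal_comm h

theorem Cu.exists_centF (c : Cu F) : ∃ ω : Fˣ →* ℂˣ, CentF ω c.f := by
  obtain ⟨ω, hω⟩ := exists_cent c.irr
  exact ⟨ω, centF_toCF hω⟩

theorem Cu.rs_one_ne (c : Cu F) : rs c.s c.f 1 ≠ 0 := by
  rw [c.rs_f]
  exact irr_one_ne c.irr

theorem Cu.twist_pow_eq {κ κ' : Fˣ →* ℂˣ} {c : Cu F} (h : c.twist κ = c.twist κ') :
    κ ^ c.s = κ' ^ c.s := by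
  obtain ⟨ω, hω⟩ := c.exists_centF
  have h1 := centF_twf (κ := κ) c.supp hω
  have h2 := centF_twf (κ := κ') c.supp hω
  rw [← Cu.twist_f] at h1 h2
  rw [h] at h1
  have h3 := centF_unique (n := c.s) h1 h2 (by
    have := (c.twist κ').rs_one_ne
    exact this)
  exact mul_left_cancel h3

/-- the value at the identity -/
theorem mul_id {V : Type} [AddCommGroup V] [Module F V] [FiniteDimensional F V]
    {f g : CF F} (hf : IsoInv f) (hg : IsoInv g) {e m : ℕ}
    (sf : Supp e f) (hV : finrank F V = m + e) :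
    mul f g V LinearMap.id = (grc F V e : ℂ) * (f (Fin e → F) LinearMap.id * g (Fin m → F) LinearMap.id) := by
  classical
  unfold mul
  have h1 : ∀ K : Submodule F V, term f g LinearMap.id K = if finrank F K = e then
      f (Fin e → F) LinearMap.id * g (Fin m → F) LinearMap.id else 0 := by
    intro K
    have hst : K ≤ K.comap (LinearMap.id : V →ₗ[F] V) := fun v hv => hv
    rw [term_of hst]
    split_ifs with hK
    · congr 1
      · apply hf _ _ (LinearEquiv.ofFinrankEq K (Fin e → F) (by simp [hK]))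
        intro v
        rfl
      · have h2 := Submodule.finrank_quotient_add_finrank K
        apply hg _ _ (LinearEquiv.ofFinrankEq (V ⧸ K) (Fin m → F) (by
          rw [Module.finrank_fintype_fun_eq_card, Fintype.card_fin]; omega))
        intro v
        obtain ⟨v, rfl⟩ := K.mkQ_surjective v
        rfl
    · rw [sf _ _ (Or.inl hK), zero_mul]
  rw [Finset.sum_congr rfl (fun K _ => h1 K), ← Finset.sum_filter, Finset.sum_const, nsmul_eq_mul]
  rfl

theorem rs_one_eq {n : ℕ} (f : CF F) : rs n f 1 = f (Fin n → F) LinearMap.id := by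
  unfold rs
  rw [Units.val_one, Matrix.toLin'_one]

theorem choose_two_add (a b : ℕ) :
    Nat.choose (a + b) 2 = Nat.choose a 2 + Nat.choose b 2 + a * b := by
  induction b with
  | zero => simp
  | succ b ih =>
    rw [← add_assoc, Nat.choose_succ_succ' (a + b) 1, Nat.choose_succ_succ' b 1,
      Nat.choose_one_right, Nat.choose_one_right, ih]
    ring

/-- degree of a product of cuspidals of the same size -/
theorem degree_list {s : ℕ} (L : List (Cu F)) (hL : ∀ c ∈ L, c.s = s ∧
    rs c.s c.f 1 * ((Fintype.card F : ℂ) ^ (Nat.choose s 2) * ((Fintype.card F : ℂ) ^ s - 1))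
      = Fintype.card (GL (Fin s) F)) :
    size L = L.length * s ∧
    rs (size L) (prodC L) 1 * ((Fintype.card F : ℂ) ^ (Nat.choose (size L) 2) *
      ((Fintype.card F : ℂ) ^ s - 1) ^ L.length) = Fintype.card (GL (Fin (size L)) F) := by
  induction L with
  | nil =>
    refine ⟨by simp [size], ?_⟩
    show rs 0 one 1 * _ = (Fintype.card (GL (Fin 0) F) : ℂ)
    rw [rs_one]
    have : Fintype.card (GL (Fin 0) F) = 1 := by
      rw [card_gl]
      simp
    rw [this]
    simp [size]
  | cons c L ih =>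
    obtain ⟨ih1, ih2⟩ := ih (fun c' hc' => hL c' (List.mem_cons_of_mem _ hc'))
    obtain ⟨hc1, hc2⟩ := hL c List.mem_cons_self
    constructor
    · show size L + c.s = (L.length + 1) * s
      rw [ih1, hc1]
      ring
    · show rs (size L + c.s) (mul c.f (prodC L)) 1 *
        ((Fintype.card F : ℂ) ^ (Nat.choose (size L + c.s) 2) * _) =
        (Fintype.card (GL (Fin (size L + c.s)) F) : ℂ)
      rw [rs_one_eq, mul_id c.inv (inv_prodC L) c.supp (e := c.s) (m := size L) (by simp)]
      rw [card_split (V' := Fin (size L + c.s) → F) c.s (size L) (size L + c.s) rfl (by simp)]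
      rw [rs_one_eq] at hc2 ih2
      have hch : Nat.choose (size L + c.s) 2
          = Nat.choose (size L) 2 + Nat.choose s 2 + size L * c.s := by
        rw [hc1]
        exact choose_two_add _ _
      rw [hch, List.length_cons]
      push_cast
      have hc3 : (Fintype.card (GL (Fin c.s) F) : ℂ) = (Fintype.card (GL (Fin s) F) : ℂ) := by
        rw [hc1]
      rw [hc3, ← hc2, ← ih2]
      rw [pow_add, pow_add, pow_succ]
      ring

end Vale.Agent.P275.H85
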