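import Vale.Agent.P275.H85.E1

/-!
# Structure of the stable irreducible characters
-/

set_option linter.style.haveILetI false
set_option linter.unusedSectionVars false

namespace Vale.Agent.P275.H85

open scoped BigOperators MatrixGroups
open Module Matrix

variable {F : Type} [Field F] [Fintype F] [DecidableEq F]

theorem hpow_zero (κ : Fˣ →* ℂˣ) : κ ^ 0 = 1 := pow_zero κ

theorem hpow_succ (κ : Fˣ →* ℂˣ) (j : ℕ) : κ ^ j * κ = κ ^ (j + 1) := (pow_succ κ j).symm

theorem hpow_mul (κ : Fˣ →* ℂˣ) (i j : ℕ) : (κ ^ i) ^ j = κ ^ (i * j) := (pow_mul κ i j).symm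

theorem hpow_one_of {κ : Fˣ →* ℂˣ} {i j : ℕ} (hij : i ≤ j) (h : κ ^ i = κ ^ j) :
    κ ^ (j - i) = 1 := by
  apply MonoidHom.ext
  intro x
  have h1 : (κ x) ^ i = (κ x) ^ j := by
    have := DFunLike.congr_fun h x
    rwa [MonoidHom.pow_apply, MonoidHom.pow_apply] at this
  rw [MonoidHom.pow_apply, MonoidHom.one_apply]
  have h2 : (κ x) ^ i * (κ x) ^ (j - i) = (κ x) ^ i * 1 := by
    rw [← pow_add, Nat.add_sub_cancel' hij, mul_one, h1]
  exact mul_left_cancel h2

theorem hpow_dvd {κ : Fˣ →* ℂˣ} {i : ℕ} (h : κ ^ i = 1) : orderOf κ ∣ i :=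
  orderOf_dvd_of_pow_eq_one h

/-- the orbit of a cuspidal character under twisting -/
noncomputable def orb (c : Cu F) (κ : Fˣ →* ℂˣ) (m : ℕ) : List (Cu F) :=
  (List.range m).map fun j => c.twist (κ ^ j)

theorem size_const {s : ℕ} (L : List (Cu F)) (h : ∀ c ∈ L, c.s = s) : size L = L.length * s := by
  induction L with
  | nil => simp [size]
  | cons c L ih =>
    show size L + c.s = (L.length + 1) * s
    rw [ih (fun c' hc' => h c' (List.mem_cons_of_mem _ hc')), h c List.mem_cons_self]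
    ring

theorem mem_orb {c c' : Cu F} {κ : Fˣ →* ℂˣ} {m : ℕ} :
    c' ∈ orb c κ m ↔ ∃ j < m, c.twist (κ ^ j) = c' := by
  unfold orb
  simp

theorem orb_length (c : Cu F) (κ : Fˣ →* ℂˣ) (m : ℕ) : (orb c κ m).length = m := by
  unfold orb
  simp

theorem orb_s {c c' : Cu F} {κ : Fˣ →* ℂˣ} {m : ℕ} (h : c' ∈ orb c κ m) : c'.s = c.s := by
  obtain ⟨j, _, rfl⟩ := mem_orb.mp h
  rfl

theorem size_orb (c : Cu F) (κ : Fˣ →* ℂˣ) (m : ℕ) : size (orb c κ m) = m * c.s := by
  rw [size_const (s := c.s) _ (fun c' h => orb_s h), orb_length]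

theorem twist_eq_dvd {c : Cu F} {κ : Fˣ →* ℂˣ} {n i j : ℕ} (hκ : orderOf κ = n) (hij : i ≤ j)
    (h : c.twist (κ ^ i) = c.twist (κ ^ j)) : n ∣ (j - i) * c.s := by
  have h1 := Cu.twist_pow_eq h
  rw [hpow_mul, hpow_mul] at h1
  have h2 : i * c.s ≤ j * c.s := Nat.mul_le_mul_right _ hij
  rw [Nat.sub_mul, ← hκ]
  exact hpow_dvd (hpow_one_of h2 h1)

theorem nodup_orb {c : Cu F} {κ : Fˣ →* ℂˣ} {n m : ℕ} (hκ : orderOf κ = n)
    (hm : ∀ j, 0 < j → j < m → ¬ n ∣ j * c.s) : (orb c κ m).Nodup := by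
  unfold orb
  have key : ∀ i j, i ≤ j → j < m → c.twist (κ ^ i) = c.twist (κ ^ j) → i = j := by
    intro i j hij hj h
    by_contra hne
    exact hm (j - i) (by omega) (by omega) (twist_eq_dvd hκ hij h)
  apply List.Nodup.map_on _ List.nodup_range
  intro i hi j hj h
  rw [List.mem_range] at hi hj
  rcases le_total i j with hij | hij
  · exact key i j hij hj h
  · exact (key j i hij hi h.symm).symm

theorem size_perm {L L' : List (Cu F)} (h : L.Perm L') : size L = size L' := by
  induction h with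
  | nil => rfl
  | cons x _ ih =>
    show size _ + x.s = size _ + x.s
    rw [ih]
  | swap x y l =>
    show size l + x.s + y.s = size l + y.s + x.s
    ring
  | trans _ _ ih1 ih2 => rw [ih1, ih2]

theorem size_sublist {L L' : List (Cu F)} (h : L.Sublist L') :
    size L ≤ size L' ∧ (size L = size L' → L = L') := by
  induction h with
  | slnil => exact ⟨le_refl _, fun _ => rfl⟩
  | cons a h ih =>
    have := a.pos
    constructor
    · show size _ ≤ size _ + a.s
      omega
    · intro h1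
      have h2 : size _ = size _ + a.s := h1
      omega
  | cons_cons a h ih =>
    constructor
    · show size _ + a.s ≤ size _ + a.s
      omega
    · intro h1
      have h2 : size _ + a.s = size _ + a.s := h1
      rw [ih.2 (by omega)]

theorem irr_of_nodup {L : List (Cu F)} (h : L.Nodup) : IsIrrChar (rs (size L) (prodC L)) := by
  apply (pos_prodC L).irr_of_norm_one
  exact pair_nodup L h L (List.Perm.refl _)

theorem eq_of_perm {L L' : List (Cu F)} (h : L.Nodup) (hp : L.Perm L') :
    rs (size L) (prodC L) = rs (size L) (prodC L') := by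
  classical
  have h1 := irr_of_nodup h
  have h2 := irr_of_nodup (hp.nodup_iff.mp h)
  rw [← size_perm hp] at h2
  by_contra hne
  have h3 := pair_nodup L h L' hp
  unfold pair at h3
  rw [ip_irr h1 h2, if_neg hne] at h3
  exact zero_ne_one h3

/-- structure of the irreducible characters stable under a twist of order `n` -/
theorem stable_structure {n : ℕ} (hn : 0 < n) {κ : Fˣ →* ℂˣ} (hκ : orderOf κ = n)
    {χ : GL (Fin n) F → ℂ} (hχ : IsIrrChar χ) (hst : ∀ g, tw κ g * χ g = χ g) :
    ∃ (c : Cu F) (m : ℕ), m * c.s = n ∧ c.twist (κ ^ m) = c ∧ (orb c κ m).Nodup ∧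
      χ = rs n (prodC (orb c κ m)) := by
  classical
  obtain ⟨L, hLn, hLχ⟩ := exists_support n hn χ hχ
  subst hLn
  have h1 : ip (rs (size L) (prodC (L.map (Cu.twist κ)))) χ ≠ 0 := by
    rw [prodC_twist, rs_twf]
    have e1 : χ = fun g => (twh (size L) κ g : ℂ) * χ g := by
      funext g
      rw [← tw_eq, hst]
    rw [e1]
    have e2 := ip_twist (twh (size L) κ) (rs (size L) (prodC L)) χ
    simp only [tw_eq]
    rw [e2]
    exact hLχ
  have hpos' : Pos (rs (size L) (prodC (L.map (Cu.twist κ)))) := by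
    have := pos_prodC (L.map (Cu.twist κ))
    rwa [size_twist] at this
  have hperm : L.Perm (L.map (Cu.twist κ)) :=
    perm_of_pair L _ (pos_common (pos_prodC L) hpos' hχ hLχ h1)
  obtain ⟨c, hc⟩ : ∃ c, c ∈ L := by
    cases L with
    | nil => exact absurd hn (lt_irrefl _)
    | cons c L => exact ⟨c, List.mem_cons_self⟩
  have hclosed : ∀ j : ℕ, c.twist (κ ^ j) ∈ L := by
    intro j
    induction j with
    | zero => rw [hpow_zero, Cu.twist_one]; exact hc
    | succ j ih =>
      have h2 : (c.twist (κ ^ j)).twist κ ∈ L.map (Cu.twist κ) := List.mem_map_of_mem ih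
      rw [Cu.twist_twist, hpow_succ] at h2
      exact hperm.symm.subset h2
  set n := size L with hndef
  set g := Nat.gcd n c.s with hg
  have hgpos : 0 < g := Nat.gcd_pos_of_pos_left _ hn
  obtain ⟨m, hm⟩ : g ∣ n := Nat.gcd_dvd_left _ _
  obtain ⟨t, ht⟩ : g ∣ c.s := Nat.gcd_dvd_right _ _
  have hcop : Nat.Coprime m t := by
    have h3 : g * Nat.gcd m t = g := by
      rw [← Nat.gcd_mul_left, ← hm, ← ht]
    exact Nat.eq_of_mul_eq_mul_left hgpos (by rw [h3, mul_one])
  have hmpos : 0 < m := by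
    rcases Nat.eq_zero_or_pos m with h3 | h3
    · rw [h3, mul_zero] at hm
      omega
    · exact h3
  have htpos : 0 < t := by
    rcases Nat.eq_zero_or_pos t with h3 | h3
    · have := c.pos
      rw [h3, mul_zero] at ht
      omega
    · exact h3
  have hnd : (orb c κ m).Nodup := by
    apply nodup_orb hκ
    intro j hj hjm hdvd
    rw [hm, ht, show j * (g * t) = g * (j * t) by ring] at hdvd
    have h3 := Nat.dvd_of_mul_dvd_mul_left hgpos hdvd
    have h4 := hcop.dvd_of_dvd_mul_right h3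
    have h5 := Nat.le_of_dvd hj h4
    omega
  have hsub : (orb c κ m) ⊆ L := by
    intro c' hc'
    obtain ⟨j, _, rfl⟩ := mem_orb.mp hc'
    exact hclosed j
  obtain ⟨L1, hL1, hL1'⟩ := hnd.subperm hsub
  have hsz := size_sublist hL1'
  rw [size_perm hL1, size_orb] at hsz
  have hms : m * c.s = n := by
    apply le_antisymm hsz.1
    calc n = m * g := by rw [hm, mul_comm]
      _ ≤ m * c.s := Nat.mul_le_mul_left _ (Nat.le_of_dvd c.pos (Nat.gcd_dvd_right _ _))
  have hLo : (orb c κ m).Perm L := by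
    have := hsz.2 hms
    rw [← this]
    exact hL1.symm
  refine ⟨c, m, hms, ?_, hnd, ?_⟩
  · have h3 : c.twist (κ ^ m) ∈ orb c κ m := hLo.symm.subset (hclosed m)
    obtain ⟨j, hj, hjm⟩ := mem_orb.mp h3
    have h4 := twist_eq_dvd hκ hj.le hjm
    rw [← hms] at h4
    have h5 := Nat.dvd_of_mul_dvd_mul_right c.pos h4
    have h6 := Nat.le_of_dvd (by omega) h5
    have h7 : j = 0 := by omega
    rw [h7, hpow_zero, Cu.twist_one] at hjm
    exact hjm.symm
  · have h3 : rs n (prodC (orb c κ m)) = rs n (prodC L) := by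
      have := eq_of_perm hnd hLo
      rwa [size_orb, hms] at this
    rw [h3]
    have h4 : IsIrrChar (rs n (prodC L)) := irr_of_nodup (hLo.nodup_iff.mp hnd)
    by_contra hne
    apply hLχ
    rw [ip_irr h4 hχ, if_neg (fun h => hne h.symm)]

end Vale.Agent.P275.H85
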