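import Vale.Agent.P275.H85.E2

/-!
# Degrees of the stable irreducible characters
-/

set_option linter.style.haveILetI false
set_option linter.unusedSectionVars false

namespace Vale.Agent.P275.H85

open scoped BigOperators MatrixGroups
open Module Matrix

variable {F : Type} [Field F] [Fintype F] [DecidableEq F]

/-- central character of the product over an orbit -/
theorem centF_orb {c : Cu F} {ω κ : Fˣ →* ℂˣ} (hω : CentF ω c.f) (m : ℕ) :
    CentF (ω ^ m * κ ^ (c.s * ∑ j ∈ Finset.range m, j)) (prodC (orb c κ m)) := by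
  induction m with
  | zero =>
    have e1 : ω ^ 0 * κ ^ (c.s * ∑ j ∈ Finset.range 0, j) = 1 := by
      rw [Finset.sum_range_zero, mul_zero, hpow_zero, hpow_zero]
      apply MonoidHom.ext
      intro x
      simp
    rw [e1]
    exact centF_one
  | succ m ih =>
    have e1 : orb c κ (m + 1) = orb c κ m ++ [c.twist (κ ^ m)] := by
      unfold orb
      rw [List.range_succ, List.map_append]
      rfl
    rw [e1, prodC_append]
    have h1 : CentF (ω * κ ^ (m * c.s)) (prodC [c.twist (κ ^ m)]) := by
      show CentF _ (mul (c.twist (κ ^ m)).f one)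
      rw [CF_mul_one (c.twist (κ ^ m)).inv, Cu.twist_f]
      have := centF_twf (κ := κ ^ m) c.supp hω
      rwa [hpow_mul] at this
    have h2 := centF_mul ih h1
    have e2 : ω ^ (m + 1) * κ ^ (c.s * ∑ j ∈ Finset.range (m + 1), j)
        = ω ^ m * κ ^ (c.s * ∑ j ∈ Finset.range m, j) * (ω * κ ^ (m * c.s)) := by
      apply MonoidHom.ext
      intro x
      simp only [MonoidHom.mul_apply, MonoidHom.pow_apply]
      rw [Finset.sum_range_succ, mul_add, pow_add (κ x), pow_succ (ω x), mul_comm c.s m,
        mul_mul_mul_comm]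
    rw [e2]
    exact h2

/-- cuspidality in matrix form -/
theorem cusp_matrix {s : ℕ} {χ : GL (Fin s) F → ℂ} (hχ : IsClass χ) (hc : CuspB (toCF χ)) :
    Cusp (ez χ) := by
  intro k hk hks A hA
  -- the subspace of vectors supported on the first `k` coordinates
  let K : Submodule F (Fin s → F) :=
    { carrier := {v | ∀ i : Fin s, k ≤ (i : ℕ) → v i = 0}
      add_mem' := fun {a b} ha hb i hi => by
        rw [Pi.add_apply, ha i hi, hb i hi, add_zero]
      zero_mem' := fun i _ => rfl
      smul_mem' := fun c v hv i hi => by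
        rw [Pi.smul_apply, hv i hi, smul_zero] }
  have hmem : ∀ v : Fin s → F, v ∈ K ↔ ∀ i : Fin s, k ≤ (i : ℕ) → v i = 0 := fun v => Iff.rfl
  let Nm : ((Fin s → F) ⧸ K →ₗ[F] K) → ((Fin s → F) →ₗ[F] (Fin s → F)) := fun N =>
    K.subtype ∘ₗ N ∘ₗ K.mkQ
  apply sum_eq_zero_of_translates (fun N : ((Fin s → F) ⧸ K) →ₗ[F] K => LinearMap.toMatrix' (Nm N))
  intro C
  have e1 : ∀ N : ((Fin s → F) ⧸ K) →ₗ[F] K,
      ez χ (A + ur k (C + LinearMap.toMatrix' (Nm N)))
      = toCF χ (Fin s → F) (Matrix.toLin' (A + ur k C) + Nm N) := by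
    intro N
    have e2 : Matrix.toLin' (A + ur k C) + Nm N
        = Matrix.toLin' (A + ur k (C + LinearMap.toMatrix' (Nm N))) := by
      conv_lhs => rw [← Matrix.toLin'_toMatrix' (Nm N)]
      rw [← map_add]
      congr 1
      rw [add_assoc]
      congr 1
      ext i j
      rw [Matrix.add_apply]
      unfold ur
      simp only [Matrix.of_apply, Matrix.add_apply]
      split_ifs with h
      · rfl
      · rw [zero_add, LinearMap.toMatrix'_apply]
        rw [not_and_or] at h
        rcases h with h | h
        · have h1 := (N (K.mkQ (Pi.single j 1))).2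
          exact h1 i (by omega)
        · have h1 : (Pi.single j (1 : F) : Fin s → F) ∈ K := by
            rw [hmem]
            intro i' hi'
            rw [Pi.single_apply, if_neg]
            intro h2
            subst h2
            omega
          have h2 : K.mkQ (Pi.single j (1 : F)) = 0 := by
            rw [← LinearMap.mem_ker, Submodule.ker_mkQ]
            exact h1
          show ((K.subtype ∘ₗ N ∘ₗ K.mkQ) (Pi.single j 1)) i = 0
          simp only [LinearMap.comp_apply, h2, map_zero, Pi.zero_apply]
    rw [e2, toCF_toLin' hχ]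
  simp only [e1]
  have hst : K ≤ K.comap (Matrix.toLin' (A + ur k C)) := by
    intro v hv
    rw [Submodule.mem_comap, hmem]
    intro i hi
    rw [Matrix.toLin'_apply]
    show ∑ j, (A + ur k C) i j * v j = 0
    apply Finset.sum_eq_zero
    intro j _
    by_cases hj : (j : ℕ) < k
    · rw [Matrix.add_apply, hA i j hi hj]
      unfold ur
      simp only [Matrix.of_apply]
      rw [if_neg (by omega), zero_add, zero_mul]
    · rw [hv j (by omega), mul_zero]
  have hK1 : Nontrivial K := by
    refine ⟨⟨⟨Pi.single ⟨0, by omega⟩ 1, ?_⟩, 0, ?_⟩⟩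
    · rw [hmem]
      intro i' hi'
      rw [Pi.single_apply, if_neg]
      intro h2
      have : (i' : ℕ) = 0 := by rw [h2]
      omega
    · intro h
      have h1 := congrFun (congrArg Subtype.val h) ⟨0, by omega⟩
      simp at h1
  have hK2 : Nontrivial ((Fin s → F) ⧸ K) := by
    apply Submodule.Quotient.nontrivial_iff.mpr
    intro h
    have h1 : (Pi.single (⟨k, hks⟩ : Fin s) (1 : F) : Fin s → F) ∈ K := by
      rw [h]; trivial
    have h2 := h1 ⟨k, hks⟩ (le_refl _)
    simp at h2
  exact cusp_exact (inv_toCF hχ) hc hK1 hK2 K.subtype K.injective_subtype K.mkQ K.mkQ_surjective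
    (by rw [Submodule.range_subtype, Submodule.ker_mkQ]) (Matrix.toLin' (A + ur k C))
    (by rw [Submodule.ker_mkQ]; exact hst)

/-- order of the linear group -/
theorem card_gl_prod (s : ℕ) : (Fintype.card (GL (Fin s) F) : ℂ)
    = (Fintype.card F : ℂ) ^ (Nat.choose s 2) *
      ∏ k ∈ Finset.Ico 1 (s + 1), ((Fintype.card F : ℂ) ^ k - 1) := by
  rw [card_gl, Fin.prod_univ_eq_prod_range (fun i => (Fintype.card F) ^ s - (Fintype.card F) ^ i) s]
  push_cast
  have hq : 1 ≤ Fintype.card F := Fintype.card_pos
  have e1 : ∀ i ∈ Finset.range s, (((Fintype.card F) ^ s - (Fintype.card F) ^ i : ℕ) : ℂ)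
      = (Fintype.card F : ℂ) ^ i * ((Fintype.card F : ℂ) ^ (s - i) - 1) := by
    intro i hi
    have hi' := Finset.mem_range.mp hi
    rw [Nat.cast_sub (Nat.pow_le_pow_right hq hi'.le)]
    push_cast
    rw [mul_sub, ← pow_add, mul_one]
    congr 2
    omega
  rw [Finset.prod_congr rfl e1, Finset.prod_mul_distrib, Finset.prod_pow_eq_pow_sum]
  congr 1
  · congr 1
    rw [Finset.sum_range_id, Nat.choose_two_right]
  · rw [← Finset.prod_range_reflect, Finset.prod_Ico_eq_prod_range]
    apply Finset.prod_congr rfl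
    intro i hi
    have hi' := Finset.mem_range.mp hi
    congr 2
    omega

end Vale.Agent.P275.H85
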