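import Vale.Agent.P275.H85.E3

/-!
# Degrees of the stable irreducible characters: conclusion
-/

set_option linter.style.haveILetI false
set_option linter.unusedSectionVars false

namespace Vale.Agent.P275.H85

open scoped BigOperators MatrixGroups
open Module

variable {F : Type} [Field F] [Fintype F] [DecidableEq F]

theorem exists_addChar (F : Type) [Field F] [Fintype F] : ∃ ψ : AddChar F ℂ, ψ ≠ 1 := by
  obtain ⟨a, ha⟩ := exists_ne (0 : F)
  obtain ⟨ψ, hψ⟩ := AddChar.exists_apply_ne_zero.mpr ha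
  exact ⟨ψ, fun h => hψ (by rw [h]; rfl)⟩

theorem deg_cusp (hC1 : PkgC1) (hC2 : PkgC2) (c : Cu F) :
    rs c.s c.f 1 * ((Fintype.card F : ℂ) ^ (Nat.choose c.s 2) * ((Fintype.card F : ℂ) ^ c.s - 1))
      = Fintype.card (GL (Fin c.s) F) := by
  obtain ⟨ψ, hψ⟩ := exists_addChar F
  have h1 := hC1 F c.s c.pos ψ hψ c.χ c.irr.isClass (cusp_matrix c.irr.isClass c.cusp)
  have h2 := hC2 F c.s ψ hψ c.χ c.irr
  have h3 : whit ψ c.χ = 1 := by
    rcases h2 with h2 | h2
    · exfalso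
      rw [h2, mul_zero] at h1
      exact irr_one_ne c.irr h1
    · exact h2
  rw [h3, mul_one] at h1
  rw [c.rs_f, h1, card_gl_prod, Finset.prod_Ico_succ_top c.pos]
  ring

/-- extraction of roots of characters -/
theorem exists_root {m : ℕ} (hm : 0 < m) {θ : Fˣ →* ℂˣ} {y : Fˣ} (hy : orderOf y = m)
    (hθ : θ y = 1) : ∃ ω : Fˣ →* ℂˣ, ω ^ m = θ := by
  obtain ⟨γ, hγ⟩ := IsCyclic.exists_generator (α := Fˣ)
  have hmN : m ∣ orderOf γ := by
    rw [← hy]
    exact orderOf_dvd_of_mem_zpowers (hγ y)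
  obtain ⟨d, hd⟩ := hmN
  have h1 : (γ ^ d) ^ m = 1 := by
    rw [← pow_mul, mul_comm, ← hd, pow_orderOf_eq_one]
  have h2 : γ ^ d ∈ Subgroup.zpowers y := by
    have hprim : IsPrimitiveRoot (y : F) m := by
      rw [← hy]
      exact IsPrimitiveRoot.coe_units_iff.mpr (IsPrimitiveRoot.orderOf y)
    haveI : NeZero m := ⟨hm.ne'⟩
    obtain ⟨i, _, hi⟩ := hprim.eq_pow_of_pow_eq_one (ξ := ((γ ^ d : Fˣ) : F)) (by
      rw [← Units.val_pow_eq_pow_val, h1, Units.val_one])
    refine ⟨(i : ℤ), ?_⟩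
    apply Units.ext
    simpa using hi
  have h3 : θ (γ ^ d) = 1 := by
    obtain ⟨i, hi⟩ := h2
    rw [← hi]
    show θ (y ^ i) = 1
    rw [map_zpow, hθ, one_zpow]
  obtain ⟨w, hw⟩ := IsAlgClosed.exists_pow_nat_eq ((θ γ : ℂˣ) : ℂ) hm
  have hw0 : w ≠ 0 := by
    intro h
    rw [h, zero_pow hm.ne'] at hw
    exact (θ γ).ne_zero hw.symm
  let wu : ℂˣ := Units.mk0 w hw0
  have hwu : wu ^ m = θ γ := by
    apply Units.ext
    simpa [wu] using hw
  have hord : orderOf wu ∣ orderOf γ := by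
    rw [hd]
    apply orderOf_dvd_of_pow_eq_one
    rw [pow_mul, hwu, ← map_pow, h3]
  refine ⟨monoidHomOfForallMemZpowers hγ hord, ?_⟩
  apply MonoidHom.ext
  intro x
  obtain ⟨i, rfl⟩ := hγ x
  show (monoidHomOfForallMemZpowers hγ hord ^ m) (γ ^ i) = θ (γ ^ i)
  rw [MonoidHom.pow_apply, map_zpow, map_zpow, monoidHomOfForallMemZpowers_apply_gen, ← hwu]
  rw [← zpow_natCast (wu ^ i), ← zpow_mul, ← zpow_natCast wu, ← zpow_mul, mul_comm]

theorem kappa_tri {κ : Fˣ →* ℂˣ} {ε : Fˣ} {m s n : ℕ} (hms : m * s = n) (hε : ε ^ n = 1)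
    (hneg : κ (-1) = 1) : κ (ε ^ (s * ∑ j ∈ Finset.range m, j)) = 1 := by
  set x : Fˣ := ε ^ (s * ∑ j ∈ Finset.range m, j) with hx
  have h1 : x ^ 2 = 1 := by
    rw [hx, ← pow_mul]
    have h2 : s * (∑ j ∈ Finset.range m, j) * 2 = n * (m - 1) := by
      rw [mul_assoc, Finset.sum_range_id_mul_two, ← hms]
      ring
    rw [h2, pow_mul, hε, one_pow]
  have h3 : (x : F) = 1 ∨ (x : F) = -1 := by
    rw [← sq_eq_one_iff, ← Units.val_pow_eq_pow_val, h1, Units.val_one]
  rcases h3 with h3 | h3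
  · have : x = 1 := Units.ext h3
    rw [this, map_one]
  · have : x = -1 := Units.ext h3
    rw [this, hneg]

/-- central character in terms of the cuspidal support -/
theorem omega_eq {n m : ℕ} {κ ω ω' : Fˣ →* ℂˣ} {ε : Fˣ} {χ : GL (Fin n) F → ℂ} {c : Cu F}
    (hms : m * c.s = n) (hε : ε ^ n = 1) (hneg : κ (-1) = 1) (hχ : IsIrrChar χ)
    (hcen : ∀ a g, χ (scal n a * g) = (ω a : ℂ) * χ g) (hχe : χ = rs n (prodC (orb c κ m)))
    (hω' : CentF ω' c.f) : ω ε = ω' (ε ^ m) := by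
  have h1 := centF_orb (κ := κ) hω' m
  have h2 : toCF χ = prodC (orb c κ m) := by
    rw [hχe]
    apply toCF_rs' (inv_prodC _)
    have := supp_prodC (orb c κ m)
    rwa [size_orb, hms] at this
  rw [← h2] at h1
  have h3 := centF_unique (n := n) (centF_toCF hcen) h1 (by
    rw [rs_toCF hχ.isClass]
    exact irr_one_ne hχ)
  rw [h3, MonoidHom.mul_apply, MonoidHom.pow_apply, MonoidHom.pow_apply, ← map_pow κ,
    kappa_tri hms hε hneg, mul_one, map_pow]

/-- stable characters with a primitive central character are cuspidal -/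
theorem cusp_of_order {n : ℕ} (hn : 0 < n) {κ ω : Fˣ →* ℂˣ} (hκ : orderOf κ = n)
    (hneg : κ (-1) = 1) {ε : Fˣ} (hε : ε ^ n = 1) (hω : orderOf (ω ε) = n)
    {χ : GL (Fin n) F → ℂ} (hst : Stab κ ω χ) : CuspB (toCF χ) := by
  obtain ⟨c, m, hms, htw, hnd, hχe⟩ := stable_structure hn hκ hst.1 hst.2.1
  obtain ⟨ω', hω'⟩ := c.exists_centF
  have h1 := omega_eq hms hε hneg hst.1 hst.2.2 hχe hω'
  have h2 : (ω ε) ^ c.s = 1 := by
    rw [h1, ← map_pow, ← pow_mul, hms, hε, map_one]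
  have h3 : n ∣ c.s := by
    rw [← hω]
    exact orderOf_dvd_of_pow_eq_one h2
  have h4 : m = 1 := by
    have h5 := Nat.le_of_dvd c.pos h3
    have h6 : 0 < m := by
      rcases Nat.eq_zero_or_pos m with h | h
      · rw [h, zero_mul] at hms
        omega
      · exact h
    by_contra hne
    have h7 : 2 ≤ m := by omega
    have h8 : 2 * c.s ≤ m * c.s := Nat.mul_le_mul_right _ h7
    have := c.pos
    omega
  subst h4
  have h2 : toCF χ = prodC (orb c κ 1) := by
    rw [hχe]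
    apply toCF_rs' (inv_prodC _)
    have := supp_prodC (orb c κ 1)
    rwa [size_orb, hms] at this
  rw [h2]
  have h3 : prodC (orb c κ 1) = c.f := by
    show mul (c.twist (κ ^ 0)).f one = c.f
    rw [CF_mul_one (c.twist (κ ^ 0)).inv, hpow_zero, Cu.twist_one]
  rw [h3]
  exact c.cusp

theorem orderOf_hpow {κ : Fˣ →* ℂˣ} {n m s : ℕ} (hκ : orderOf κ = n) (hms : m * s = n)
    (hn : 0 < n) : orderOf (κ ^ m) = s := by
  have hm : 0 < m := by
    rcases Nat.eq_zero_or_pos m with h | h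
    · rw [h, zero_mul] at hms
      omega
    · exact h
  have h1 : orderOf (κ ^ m) = orderOf κ / Nat.gcd (orderOf κ) m := orderOf_pow' κ hm.ne'
  rw [h1, hκ, ← hms, Nat.gcd_mul_right_left, Nat.mul_div_cancel_left _ hm]

theorem orb_twist_perm {c : Cu F} {κ : Fˣ →* ℂˣ} {m : ℕ} (hm : 0 < m)
    (h : c.twist (κ ^ m) = c) : (orb c κ m).Perm ((orb c κ m).map (Cu.twist κ)) := by
  obtain ⟨k, rfl⟩ : ∃ k, m = k + 1 := ⟨m - 1, by omega⟩
  have e1 : orb c κ (k + 1) = c :: (List.range k).map (fun j => c.twist (κ ^ (j + 1))) := by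
    unfold orb
    rw [List.range_succ_eq_map, List.map_cons, List.map_map, hpow_zero, Cu.twist_one]
    rfl
  have e2 : (orb c κ (k + 1)).map (Cu.twist κ)
      = (List.range k).map (fun j => c.twist (κ ^ (j + 1))) ++ [c] := by
    unfold orb
    rw [List.map_map, List.range_succ, List.map_append]
    congr 1
    · apply List.map_congr_left
      intro j _
      show (c.twist (κ ^ j)).twist κ = _
      rw [Cu.twist_twist, hpow_succ]
    · show [(c.twist (κ ^ k)).twist κ] = [c]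
      rw [Cu.twist_twist, hpow_succ, h]
  rw [e2, e1]
  exact (List.perm_append_singleton _ _).symm

/-- the degrees -/
theorem stable_degree (hC1 : PkgC1) (hC2 : PkgC2) (hD1 : PkgD1) {n : ℕ} (hn : 0 < n)
    {κ ω : Fˣ →* ℂˣ} (hκ : orderOf κ = n) (hneg : κ (-1) = 1) {ε : Fˣ} (hε : orderOf ε = n)
    {χ : GL (Fin n) F → ℂ} (hst : Stab κ ω χ) :
    χ 1 * ((Fintype.card F : ℂ) ^ (Nat.choose n 2) *
      ((Fintype.card F : ℂ) ^ (orderOf (ω ε)) - 1) ^ (n / orderOf (ω ε)))
      = Fintype.card (GL (Fin n) F) := by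
  have hεn : ε ^ n = 1 := by rw [← hε]; exact pow_orderOf_eq_one ε
  set s := orderOf (ω ε) with hs
  have hsn : s ∣ n := by
    rw [hs]
    apply orderOf_dvd_of_pow_eq_one
    rw [← map_pow, hεn, map_one]
  obtain ⟨m, hm⟩ := hsn
  have hms : m * s = n := by rw [hm, mul_comm]
  have hmpos : 0 < m := by
    rcases Nat.eq_zero_or_pos m with h | h
    · rw [h, mul_zero] at hm
      omega
    · exact h
  have hspos : 0 < s := by
    rcases Nat.eq_zero_or_pos s with h | h
    · rw [h, zero_mul] at hm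
      omega
    · exact h
  have hdiv : n / s = m := by rw [hm]; exact Nat.mul_div_cancel_left _ hspos
  -- the root
  obtain ⟨ω', hω'⟩ : ∃ ω' : Fˣ →* ℂˣ,
      ω' ^ m = ω * (κ ^ (s * ∑ j ∈ Finset.range m, j))⁻¹ := by
    have hy : orderOf (ε ^ s) = m := by
      rw [orderOf_pow' ε hspos.ne', hε, hm, Nat.gcd_mul_right_left,
        Nat.mul_div_cancel_left _ hspos]
    apply exists_root hmpos hy
    have h1 : κ ((ε ^ s) ^ (s * ∑ j ∈ Finset.range m, j)) = 1 := by
      rw [← pow_mul, mul_comm s (s * _), pow_mul, map_pow, kappa_tri hms hεn hneg, one_pow]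
    rw [MonoidHom.mul_apply, MonoidHom.inv_apply, MonoidHom.pow_apply, map_pow ω, hs,
      pow_orderOf_eq_one, one_mul, ← map_pow κ, ← hs, h1]
    simp
  have hω1 : ω' (ε ^ m) = ω ε := by
    have h1 := DFunLike.congr_fun hω' ε
    rw [MonoidHom.pow_apply, MonoidHom.mul_apply, MonoidHom.inv_apply, MonoidHom.pow_apply,
      ← map_pow κ, kappa_tri hms hεn hneg] at h1
    rw [map_pow, h1]
    simp
  obtain ⟨χs, hχs, _⟩ := hD1 F s hspos (κ ^ m) ω' (orderOf_hpow hκ hms hn)
  have hcusp : CuspB (toCF χs) := by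
    apply cusp_of_order hspos (orderOf_hpow hκ hms hn) (ε := ε ^ m) _ _ _ hχs
    · rw [MonoidHom.pow_apply, hneg, one_pow]
    · rw [← pow_mul, hms, hεn]
    · rw [hω1]
  let c : Cu F := ⟨s, χs, hspos, hχs.1, hcusp⟩
  have hcs : c.s = s := rfl
  have htw : c.twist (κ ^ m) = c := by
    apply Cu.mk_eq
    funext g
    exact hχs.2.1 g
  have hnd : (orb c κ m).Nodup := by
    apply nodup_orb hκ
    intro j hj hjm hdvd
    have h1 := Nat.le_of_dvd (Nat.mul_pos hj c.pos) hdvd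
    have h2 : j * s < m * s := Nat.mul_lt_mul_of_pos_right hjm hspos
    rw [hcs] at h1
    omega
  have hsize : size (orb c κ m) = n := by rw [size_orb, hcs, hms]
  have hirr : IsIrrChar (rs n (prodC (orb c κ m))) := by
    have := irr_of_nodup hnd
    rwa [hsize] at this
  have hstab : ∀ g, tw κ g * rs n (prodC (orb c κ m)) g = rs n (prodC (orb c κ m)) g := by
    intro g
    have h1 := eq_of_perm hnd (orb_twist_perm hmpos htw)
    rw [hsize, prodC_twist, rs_twf] at h1
    exact (congrFun h1 g).symm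
  have hcent : CentF ω (prodC (orb c κ m)) := by
    have h1 : CentF ω' c.f := centF_toCF hχs.2.2
    have h2 := centF_orb (κ := κ) h1 m
    have h3 : ω' ^ m * κ ^ (c.s * ∑ j ∈ Finset.range m, j) = ω := by
      rw [hω', hcs]
      apply MonoidHom.ext
      intro x
      rw [MonoidHom.mul_apply, MonoidHom.mul_apply, MonoidHom.inv_apply, inv_mul_cancel_right]
    rwa [h3] at h2
  have hst' : Stab κ ω (rs n (prodC (orb c κ m))) := ⟨hirr, hstab, cent_rs hcent⟩
  have heq : χ = rs n (prodC (orb c κ m)) := (hD1 F n hn κ ω hκ).unique hst hst'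
  have hdeg := (degree_list (s := s) (orb c κ m) (fun c' hc' => by
    have h1 : c'.s = s := orb_s hc'
    refine ⟨h1, ?_⟩
    have h2 := deg_cusp hC1 hC2 c'
    rw [h1] at h2 ⊢
    exact h2)).2
  rw [hsize, orb_length] at hdeg
  rw [heq, hdiv]
  exact hdeg

end Vale.Agent.P275.H85
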