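import Vale.Agent.P275.H85.E4

/-!
# The final count
-/

set_option linter.style.haveILetI false
set_option linter.unusedSectionVars false

namespace Vale.Agent.P275.H85

open scoped BigOperators MatrixGroups
open Module

/-- product over powers of a root of unity -/
theorem prod_roots {s m : ℕ} (hs : 0 < s) {ξ : ℂ} (hξ : IsPrimitiveRoot ξ s) (x : ℂ) :
    (x ^ s - 1) ^ m = ∏ i ∈ Finset.range (s * m), (x - ξ ^ i) := by
  have h1 : x ^ s - 1 = ∏ i ∈ Finset.range s, (x - ξ ^ i) := by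
    have h2 := hξ.pow_sub_pow_eq_prod_sub_mul x 1 hs
    rw [one_pow] at h2
    rw [h2]
    symm
    apply Finset.prod_bij (fun i _ => ξ ^ i)
    · intro i _
      rw [Polynomial.mem_nthRootsFinset hs, ← pow_mul, mul_comm, pow_mul, hξ.pow_eq_one, one_pow]
    · intro i hi j hj h
      exact hξ.pow_inj (Finset.mem_range.mp hi) (Finset.mem_range.mp hj) h
    · intro z hz
      rw [Polynomial.mem_nthRootsFinset hs] at hz
      haveI : NeZero s := ⟨hs.ne'⟩
      obtain ⟨i, hi, h⟩ := hξ.eq_pow_of_pow_eq_one hz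
      exact ⟨i, Finset.mem_range.mpr hi, h⟩
    · intro i _
      rw [mul_one]
  induction m with
  | zero => simp
  | succ m ih =>
    rw [pow_succ, ih, h1, mul_add, mul_one, Finset.prod_range_add]
    congr 1
    apply Finset.prod_congr rfl
    intro i _
    rw [pow_add, pow_mul, hξ.pow_eq_one, one_pow, one_mul]

variable {F : Type} [Field F] [Fintype F] [DecidableEq F]

noncomputable instance fintypeDual : Fintype (Fˣ →* ℂˣ) := Fintype.ofFinite _

theorem card_dual : Fintype.card (Fˣ →* ℂˣ) = Fintype.card F - 1 := by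
  rw [← Nat.card_eq_fintype_card, CommGroup.card_monoidHom_of_hasEnoughRootsOfUnity,
    Nat.card_eq_fintype_card, Fintype.card_units]

theorem sum_dual (x : Fˣ) : ∑ ω : Fˣ →* ℂˣ, ((ω x : ℂˣ) : ℂ)
    = if x = 1 then ((Fintype.card F - 1 : ℕ) : ℂ) else 0 := by
  split_ifs with h
  · subst h
    simp only [map_one, Units.val_one, Finset.sum_const, Finset.card_univ, nsmul_eq_mul, mul_one]
    rw [card_dual]
  · obtain ⟨η, hη⟩ := CommGroup.exists_apply_ne_one_of_hasEnoughRootsOfUnity Fˣ ℂ h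
    have h1 : ∑ ω : Fˣ →* ℂˣ, ((ω x : ℂˣ) : ℂ) = (η x : ℂ) * ∑ ω : Fˣ →* ℂˣ, ((ω x : ℂˣ) : ℂ) := by
      rw [Finset.mul_sum]
      rw [← Equiv.sum_comp (Equiv.mulLeft η)]
      apply Finset.sum_congr rfl
      intro ω _
      rw [Equiv.coe_mulLeft, MonoidHom.mul_apply, Units.val_mul]
    have h2 : ((η x : ℂ) - 1) * ∑ ω : Fˣ →* ℂˣ, ((ω x : ℂˣ) : ℂ) = 0 := by
      rw [sub_mul, one_mul, ← h1, sub_self]
    rcases mul_eq_zero.mp h2 with h3 | h3
    · exfalso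
      apply hη
      apply Units.ext
      rw [Units.val_one]
      exact sub_eq_zero.mp h3
    · exact h3

theorem hone_pow (a : ℕ) : (1 : Fˣ →* ℂˣ) ^ a = 1 := by
  apply MonoidHom.ext
  intro x
  simp

/-- a generator for a tuple of characters -/
theorem exists_gen {g : ℕ} {κ κ' : Fin g → (Fˣ →* ℂˣ)} {n : ℕ}
    (h : orderOf (fun i => (κ i, κ' i)) = n) :
    ∃ κ₀ : Fˣ →* ℂˣ, orderOf κ₀ = n ∧ (∀ i, ∃ a : ℕ, κ i = κ₀ ^ a) ∧ (∀ i, ∃ a : ℕ, κ' i = κ₀ ^ a) ∧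
      κ₀ ∈ Subgroup.closure (Set.range κ ∪ Set.range κ') := by
  haveI hcyc : IsCyclic (Fˣ →* ℂˣ) := by
    obtain ⟨e⟩ := IsCyclic.monoidHom_equiv_self Fˣ ℂ
    exact isCyclic_of_surjective e.symm e.symm.surjective
  set C := Subgroup.closure (Set.range κ ∪ Set.range κ') with hC
  haveI : IsCyclic C := Subgroup.isCyclic C
  obtain ⟨κ₀, hκ₀⟩ := IsCyclic.exists_generator (α := C)
  have hmem : ∀ x ∈ C, ∃ a : ℕ, x = (κ₀ : Fˣ →* ℂˣ) ^ a := by
    intro x hx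
    have h1 : (⟨x, hx⟩ : C) ∈ Submonoid.powers κ₀ := by
      rw [mem_powers_iff_mem_zpowers]
      exact hκ₀ _
    obtain ⟨a, ha⟩ := h1
    refine ⟨a, ?_⟩
    have h2 := congrArg Subtype.val ha
    exact h2.symm
  have hκm : ∀ i, κ i ∈ C := fun i => Subgroup.subset_closure (Or.inl ⟨i, rfl⟩)
  have hκm' : ∀ i, κ' i ∈ C := fun i => Subgroup.subset_closure (Or.inr ⟨i, rfl⟩)
  refine ⟨κ₀, ?_, fun i => hmem _ (hκm i), fun i => hmem _ (hκm' i), κ₀.2⟩
  apply Nat.dvd_antisymm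
  · apply orderOf_dvd_of_pow_eq_one
    have h3 : ∀ x ∈ C, x ^ n = 1 := by
      intro x hx
      have h4 : (fun i => (κ i, κ' i)) ^ n = 1 := by
        rw [← h]
        exact pow_orderOf_eq_one _
      refine Subgroup.closure_induction (p := fun x _ => x ^ n = 1) ?_ ?_ ?_ ?_ hx
      · rintro y (⟨i, rfl⟩ | ⟨i, rfl⟩)
        · exact congrArg Prod.fst (congrFun h4 i)
        · exact congrArg Prod.snd (congrFun h4 i)
      · exact one_pow n
      · intro y z _ _ hy hz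
        rw [mul_pow, hy, hz]
        exact mul_one (1 : Fˣ →* ℂˣ)
      · intro y _ hy
        rw [inv_pow, hy]
        exact inv_eq_one.mpr rfl
    exact h3 _ κ₀.2
  · rw [← h]
    apply orderOf_dvd_of_pow_eq_one
    funext i
    obtain ⟨a, ha⟩ := hmem _ (hκm i)
    obtain ⟨b, hb⟩ := hmem _ (hκm' i)
    have h5 : (κ₀ : Fˣ →* ℂˣ) ^ orderOf (κ₀ : Fˣ →* ℂˣ) = 1 := pow_orderOf_eq_one _
    apply Prod.ext
    · show κ i ^ _ = 1
      rw [ha, hpow_mul, mul_comm, ← hpow_mul, h5]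
      exact hone_pow a
    · show κ' i ^ _ = 1
      rw [hb, hpow_mul, mul_comm, ← hpow_mul, h5]
      exact hone_pow b

/-- transport of membership in a closure to the linear group -/
theorem closure_det {g n : ℕ} {κ κ' : Fin g → (Fˣ →* ℂˣ)} {κ₀ : Fˣ →* ℂˣ}
    (h : κ₀ ∈ Subgroup.closure (Set.range κ ∪ Set.range κ')) :
    twh n κ₀ ∈ Subgroup.closure (Set.range (fun i => twh n (κ i)) ∪
      Set.range (fun i => twh n (κ' i))) := by
  refine Subgroup.closure_induction (p := fun x _ => twh n x ∈ Subgroup.closure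
    (Set.range (fun i => twh n (κ i)) ∪ Set.range (fun i => twh n (κ' i)))) ?_ ?_ ?_ ?_ h
  · rintro y (⟨i, rfl⟩ | ⟨i, rfl⟩)
    · exact Subgroup.subset_closure (Or.inl ⟨i, rfl⟩)
    · exact Subgroup.subset_closure (Or.inr ⟨i, rfl⟩)
  · have : twh n (1 : Fˣ →* ℂˣ) = (1 : GL (Fin n) F →* ℂˣ) := by
      apply MonoidHom.ext
      intro x
      rfl
    rw [this]
    exact Subgroup.one_mem _
  · intro y z _ _ hy hz
    have : twh n (y * z) = twh n y * twh n z := by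
      apply MonoidHom.ext
      intro x
      rfl
    rw [this]
    exact Subgroup.mul_mem _ hy hz
  · intro y _ hy
    have : twh n (y⁻¹) = (twh n y)⁻¹ := by
      apply MonoidHom.ext
      intro x
      rfl
    rw [this]
    exact Subgroup.inv_mem _ hy

/-- sum over the stable characters as a sum over central characters -/
theorem sum_stable (hD1 : PkgD1) {n : ℕ} (hn : 1 ≤ n) {κ₀ : Fˣ →* ℂˣ} (hκ : orderOf κ₀ = n)
    (Φ : (GL (Fin n) F → ℂ) → ℂ) (Ψ : (Fˣ →* ℂˣ) → ℂ)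
    (hΦ : ∀ ω χ, Stab κ₀ ω χ → Φ χ = Ψ ω) :
    ∑ χ ∈ (irrSet (GL (Fin n) F)).filter
      (fun χ => ∀ g, (twh n κ₀ g : ℂ) * χ g = χ g), Φ χ = ∑ ω : Fˣ →* ℂˣ, Ψ ω := by
  have hex : ∀ ω : Fˣ →* ℂˣ, ∃ χ : GL (Fin n) F → ℂ, Stab κ₀ ω χ :=
    fun ω => (hD1 F n hn κ₀ ω hκ).exists
  choose χf hχf using hex
  symm
  apply Finset.sum_bij (fun ω _ => χf ω)
  · intro ω _
    rw [Finset.mem_filter]
    refine ⟨mem_irrSet.mpr (hχf ω).1, ?_⟩
    intro g
    exact (hχf ω).2.1 g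
  · intro ω _ ω' _ h
    apply MonoidHom.ext
    intro c
    have h1 := (hχf ω).2.2 c 1
    have h2 := (hχf ω').2.2 c 1
    have h' : χf ω = χf ω' := h
    rw [← h', h1] at h2
    apply Units.ext
    exact mul_right_cancel₀ (irr_one_ne (hχf ω).1) h2
  · intro χ hχ
    rw [Finset.mem_filter, mem_irrSet] at hχ
    obtain ⟨ω, hω⟩ := exists_cent hχ.1
    refine ⟨ω, Finset.mem_univ _, ?_⟩
    exact (hD1 F n hn κ₀ ω hκ).unique (hχf ω) ⟨hχ.1, hχ.2, hω⟩
  · intro ω _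
    exact (hΦ ω _ (hχf ω)).symm

theorem expand_prod (n r : ℕ) (x ξ : ℂ) :
    (∏ i ∈ Finset.range (n - 1), (x - ξ ^ (i + 1))) ^ r
      = ∑ S : Finset (Fin (n - 1) × Fin r), x ^ S.card * ((-1) ^ (Sᶜ).card *
        ξ ^ (∑ p ∈ Sᶜ, ((p.1 : ℕ) + 1))) := by
  classical
  have h1 : (∏ i ∈ Finset.range (n - 1), (x - ξ ^ (i + 1))) ^ r
      = ∏ p : Fin (n - 1) × Fin r, (x + -ξ ^ ((p.1 : ℕ) + 1)) := by
    rw [Fintype.prod_prod_type, ← Fin.prod_univ_eq_prod_range (fun i => x - ξ ^ (i + 1)) (n - 1),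
      ← Finset.prod_pow]
    apply Finset.prod_congr rfl
    intro i _
    show (x - ξ ^ ((i : ℕ) + 1)) ^ r = ∏ _y : Fin r, (x + -ξ ^ ((i : ℕ) + 1))
    rw [Finset.prod_const, Finset.card_univ, Fintype.card_fin, sub_eq_add_neg]
  rw [h1, Finset.prod_add]
  rw [Finset.powerset_univ]
  apply Finset.sum_congr rfl
  intro S _
  rw [Finset.prod_const, ← Finset.compl_eq_univ_sdiff]
  congr 1
  rw [Finset.prod_congr rfl (fun p _ => (neg_one_mul (ξ ^ ((p.1 : ℕ) + 1))).symm),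
    Finset.prod_mul_distrib, Finset.prod_const, Finset.prod_pow_eq_pow_sum]

theorem tot_sum (n g : ℕ) (hn : 1 ≤ n) :
    ∑ p : Fin (n - 1) × Fin (2 * g - 2), ((p.1 : ℕ) + 1) = n * ((n - 1) * (g - 1)) := by
  obtain ⟨k, rfl⟩ : ∃ k, n = k + 1 := ⟨n - 1, by omega⟩
  rw [Fintype.sum_prod_type]
  simp only [Finset.sum_const, Finset.card_univ, Fintype.card_fin, smul_eq_mul]
  rw [← Finset.mul_sum]
  have h1 : ∑ i : Fin (k + 1 - 1), ((i : ℕ) + 1) = ∑ i ∈ Finset.range (k + 1), i := by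
    rw [Fin.sum_univ_eq_sum_range (fun i => i + 1) (k + 1 - 1), Finset.sum_range_succ' (fun i => i)]
    simp
  have h2 := Finset.sum_range_id_mul_two (k + 1)
  rw [h1]
  have h3 : 2 * g - 2 = 2 * (g - 1) := by omega
  rw [h3]
  calc 2 * (g - 1) * ∑ i ∈ Finset.range (k + 1), i
      = (g - 1) * ((∑ i ∈ Finset.range (k + 1), i) * 2) := by ring
    _ = _ := by rw [h2]; ring

/-- sum over the central characters -/
theorem sum_omega {n g : ℕ} (hn : 1 ≤ n) {ζ : Fˣ} (hζ : orderOf ζ = n) (x : ℂ) :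
    ∑ ω : Fˣ →* ℂˣ, (∏ i ∈ Finset.range (n - 1), (x - ((ω ζ : ℂˣ) : ℂ) ^ (i + 1))) ^ (2 * g - 2) *
      ((ω ζ : ℂˣ) : ℂ)⁻¹
    = ((Fintype.card F - 1 : ℕ) : ℂ) * ∑ S : Finset (Fin (n - 1) × Fin (2 * g - 2)),
      if n ∣ 1 + ∑ p ∈ S, ((p.1 : ℕ) + 1) then (-1) ^ S.card * x ^ S.card else 0 := by
  classical
  simp only [expand_prod, Finset.sum_mul, Finset.mul_sum]
  rw [Finset.sum_comm]
  apply Finset.sum_congr rfl
  intro S _
  have hcompl : ∑ p ∈ Sᶜ, ((p.1 : ℕ) + 1) + ∑ p ∈ S, ((p.1 : ℕ) + 1) = n * ((n - 1) * (g - 1)) := by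
    rw [← tot_sum n g hn, add_comm, Finset.sum_add_sum_compl]
  have hcard : Sᶜ.card + S.card = (n - 1) * (2 * (g - 1)) := by
    rw [add_comm, Finset.card_add_card_compl, Fintype.card_prod, Fintype.card_fin, Fintype.card_fin]
    congr 1
    omega
  have hsign : ((-1 : ℂ)) ^ Sᶜ.card = (-1) ^ S.card := by
    have h1 : ((-1 : ℂ)) ^ Sᶜ.card * (-1) ^ S.card = 1 := by
      rw [← pow_add, hcard, show (n - 1) * (2 * (g - 1)) = 2 * ((n - 1) * (g - 1)) by ring, pow_mul]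
      simp
    have h2 : ((-1 : ℂ)) ^ S.card * (-1) ^ S.card = 1 := by
      rw [← pow_add, ← two_mul, pow_mul]
      simp
    have h3 : ((-1 : ℂ)) ^ S.card ≠ 0 := pow_ne_zero _ (by norm_num)
    exact mul_right_cancel₀ h3 (by rw [h1, h2])
  set e := ∑ p ∈ Sᶜ, ((p.1 : ℕ) + 1) with he
  set d := ∑ p ∈ S, ((p.1 : ℕ) + 1) with hd
  have h4 : ∀ ω : Fˣ →* ℂˣ, x ^ S.card * ((-1) ^ Sᶜ.card * ((ω ζ : ℂˣ) : ℂ) ^ e) *
      ((ω ζ : ℂˣ) : ℂ)⁻¹ = ((-1) ^ S.card * x ^ S.card) * ((ω (ζ ^ e * ζ⁻¹) : ℂˣ) : ℂ) := by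
    intro ω
    rw [hsign, map_mul, map_pow, map_inv, Units.val_mul, Units.val_pow_eq_pow_val,
      Units.val_inv_eq_inv_val]
    ring
  simp only [h4]
  rw [← Finset.mul_sum, sum_dual]
  have hcond : ζ ^ e * ζ⁻¹ = 1 ↔ n ∣ 1 + d := by
    rw [mul_inv_eq_one]
    have h5 : ζ ^ (e + d) = 1 := by
      rw [hcompl, pow_mul, ← hζ, pow_orderOf_eq_one, one_pow]
    have h6 : ζ ^ e = ζ ↔ ζ ^ (1 + d) = 1 := by
      rw [← h5, pow_add, pow_add, pow_one]
      constructor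
      · intro h
        rw [h]
      · intro h
        exact (mul_right_cancel h).symm
    rw [h6, ← orderOf_dvd_iff_pow_eq_one, hζ]
  by_cases h : n ∣ 1 + d
  · rw [if_pos h, if_pos (hcond.mpr h)]
    ring
  · rw [if_neg h, if_neg (fun h' => h (hcond.mp h'))]
    ring

/-- the point count -/
theorem count (hA2 : PkgA2) (hC1 : PkgC1) (hC2 : PkgC2) (hD1 : PkgD1) {n g : ℕ} (hn : 1 ≤ n)
    (hg : 1 ≤ g) {ζ : Fˣ} (hζ : orderOf ζ = n) (κ κ' : Fin g → (Fˣ →* ℂˣ))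
    (hκ : orderOf (fun i => (κ i, κ' i)) = n) (hneg : ∀ i, κ i (-1) = 1 ∧ κ' i (-1) = 1) :
    (∑ A : Fin g → GL (Fin n) F, ∑ B : Fin g → GL (Fin n) F,
      if (List.ofFn fun i => A i * B i * (A i)⁻¹ * (B i)⁻¹).prod = scal n ζ then
        ∏ i, ((κ i (Matrix.GeneralLinearGroup.det (A i)) : ℂˣ) : ℂ) *
          ((κ' i (Matrix.GeneralLinearGroup.det (B i)) : ℂˣ) : ℂ) else 0)
    = ((Fintype.card F : ℂ) - 1) ^ (2 * g - 1) * (Fintype.card (GL (Fin n) F) : ℂ) *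
      (Fintype.card F : ℂ) ^ (n * (n - 1) * (g - 1)) *
      ∑ S : Finset (Fin (n - 1) × Fin (2 * g - 2)),
        if n ∣ 1 + ∑ p ∈ S, ((p.1 : ℕ) + 1) then (-1) ^ S.card * (Fintype.card F : ℂ) ^ S.card
        else 0 := by
  classical
  obtain ⟨κ₀, hκ₀, h1, h2, h3⟩ := exists_gen hκ
  have hneg0 : κ₀ (-1) = 1 := by
    refine Subgroup.closure_induction (p := fun x _ => x (-1) = 1) ?_ ?_ ?_ ?_ h3
    · rintro y (⟨i, rfl⟩ | ⟨i, rfl⟩)
      · exact (hneg i).1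
      · exact (hneg i).2
    · rfl
    · intro y z _ _ hy hz
      rw [MonoidHom.mul_apply, hy, hz, one_mul]
    · intro y _ hy
      rw [MonoidHom.inv_apply, hy]
      simp
  have hA := hA2 (GL (Fin n) F) g (fun i => twh n (κ i)) (fun i => twh n (κ' i)) (twh n κ₀)
    (fun i => by
      obtain ⟨a, ha⟩ := h1 i
      refine ⟨a, ?_⟩
      rw [ha]
      apply MonoidHom.ext
      intro x
      rfl)
    (fun i => by
      obtain ⟨a, ha⟩ := h2 i
      refine ⟨a, ?_⟩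
      rw [ha]
      apply MonoidHom.ext
      intro x
      rfl) (closure_det h3) (scal n ζ)
  have hL : (∑ A : Fin g → GL (Fin n) F, ∑ B : Fin g → GL (Fin n) F,
      if (List.ofFn fun i => A i * B i * (A i)⁻¹ * (B i)⁻¹).prod = scal n ζ then
        ∏ i, ((κ i (Matrix.GeneralLinearGroup.det (A i)) : ℂˣ) : ℂ) *
          ((κ' i (Matrix.GeneralLinearGroup.det (B i)) : ℂˣ) : ℂ) else 0)
      = (∑ A : Fin g → GL (Fin n) F, ∑ B : Fin g → GL (Fin n) F,
      if (List.ofFn fun i => A i * B i * (A i)⁻¹ * (B i)⁻¹).prod = scal n ζ then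
        ∏ i, ((twh n (κ i) (A i) : ℂˣ) : ℂ) * ((twh n (κ' i) (B i) : ℂˣ) : ℂ) else 0) := by
    rfl
  rw [hL]
  refine Eq.trans ?_ (Eq.trans hA ?_)
  · apply Finset.sum_congr rfl
    intro A _
    apply Finset.sum_congr rfl
    intro B _
    congr 1
  · set q : ℂ := (Fintype.card F : ℂ) with hq
    set N : ℂ := (Fintype.card (GL (Fin n) F) : ℂ) with hN
    have hN0 : N ≠ 0 := Irr.card_ne
    have hsum := sum_stable hD1 hn hκ₀
      (fun χ : GL (Fin n) F → ℂ => (N / χ 1) ^ (2 * g) * χ 1 * χ (scal n ζ)⁻¹)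
      (fun ω => N ^ 2 * (q ^ (n * (n - 1) * (g - 1)) * (q - 1) ^ (2 * g - 2)) *
        ((∏ i ∈ Finset.range (n - 1), (q - ((ω ζ : ℂˣ) : ℂ) ^ (i + 1))) ^ (2 * g - 2) *
        ((ω ζ : ℂˣ) : ℂ)⁻¹)) (by
      intro ω χ hst
      have hdeg := stable_degree hC1 hC2 hD1 hn hκ₀ hneg0 hζ hst
      have hχ1 : χ 1 ≠ 0 := irr_one_ne hst.1
      set s := orderOf (ω ζ) with hs
      have hsn : s ∣ n := by
        rw [hs]
        apply orderOf_dvd_of_pow_eq_one
        rw [← map_pow, ← hζ, pow_orderOf_eq_one, map_one]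
      obtain ⟨m, hm⟩ := hsn
      have hspos : 0 < s := by
        rcases Nat.eq_zero_or_pos s with h | h
        · rw [h, zero_mul] at hm
          omega
        · exact h
      have hdiv : n / s = m := by rw [hm]; exact Nat.mul_div_cancel_left _ hspos
      have hprim : IsPrimitiveRoot ((ω ζ : ℂˣ) : ℂ) s := by
        rw [hs]
        exact IsPrimitiveRoot.coe_units_iff.mpr (IsPrimitiveRoot.orderOf _)
      have hpr : (q ^ s - 1) ^ (n / s) = (q - 1) *
          ∏ i ∈ Finset.range (n - 1), (q - ((ω ζ : ℂˣ) : ℂ) ^ (i + 1)) := by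
        rw [hdiv, prod_roots hspos hprim q, ← hm]
        obtain ⟨k, rfl⟩ : ∃ k, n = k + 1 := ⟨n - 1, by omega⟩
        rw [Finset.prod_range_succ', pow_zero, Nat.add_sub_cancel, mul_comm]
      rw [hpr] at hdeg
      set P := ∏ i ∈ Finset.range (n - 1), (q - ((ω ζ : ℂˣ) : ℂ) ^ (i + 1)) with hP
      have hD : N / χ 1 = q ^ (Nat.choose n 2) * ((q - 1) * P) := by
        rw [← hq, ← hN] at hdeg
        rw [← hdeg]
        field_simp
      have hcen : χ (scal n ζ)⁻¹ = ((ω ζ : ℂˣ) : ℂ)⁻¹ * χ 1 := by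
        have h4 := hst.2.2 ζ⁻¹ 1
        have h5 : scal n ζ⁻¹ = (scal n ζ)⁻¹ := by
          rw [eq_inv_iff_mul_eq_one]
          show Units.map (Matrix.scalar (Fin n)).toMonoidHom ζ⁻¹ *
            Units.map (Matrix.scalar (Fin n)).toMonoidHom ζ = 1
          rw [← map_mul, inv_mul_cancel, map_one]
        rw [mul_one, h5, map_inv ω, Units.val_inv_eq_inv_val] at h4
        exact h4
      have hexp : Nat.choose n 2 * (2 * g - 2) = n * (n - 1) * (g - 1) := by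
        rw [Nat.choose_two_right, show 2 * g - 2 = 2 * (g - 1) by omega, ← mul_assoc,
          Nat.div_mul_cancel (Nat.even_mul_pred_self n).two_dvd]
      have hpow : (N / χ 1) ^ (2 * g) * (χ 1 * χ 1) = N ^ 2 * (q ^ (n * (n - 1) * (g - 1)) *
          (q - 1) ^ (2 * g - 2) * P ^ (2 * g - 2)) := by
        have h6 : 2 * g = 2 + (2 * g - 2) := by omega
        rw [h6, pow_add]
        have h7 : (N / χ 1) ^ 2 * (χ 1 * χ 1) = N ^ 2 := by
          field_simp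
        have h8 : (N / χ 1) ^ (2 * g - 2) = q ^ (n * (n - 1) * (g - 1)) *
          (q - 1) ^ (2 * g - 2) * P ^ (2 * g - 2) := by
          rw [hD, mul_pow, mul_pow, ← pow_mul, hexp]
          ring
        have h9 : 2 + (2 * g - 2) - 2 = 2 * g - 2 := by omega
        calc (N / χ 1) ^ 2 * (N / χ 1) ^ (2 * g - 2) * (χ 1 * χ 1)
            = ((N / χ 1) ^ 2 * (χ 1 * χ 1)) * (N / χ 1) ^ (2 * g - 2) := by ring
          _ = _ := by rw [h7, h8, h9]
      show (N / χ 1) ^ (2 * g) * χ 1 * χ (scal n ζ)⁻¹ = _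
      rw [hcen]
      calc (N / χ 1) ^ (2 * g) * χ 1 * (((ω ζ : ℂˣ) : ℂ)⁻¹ * χ 1)
          = ((N / χ 1) ^ (2 * g) * (χ 1 * χ 1)) * ((ω ζ : ℂˣ) : ℂ)⁻¹ := by ring
        _ = _ := by rw [hpow]; ring)
    refine Eq.trans (congrArg (fun t => N⁻¹ * t) (Eq.trans ?_ hsum)) ?_
    · apply Finset.sum_congr
      · congr 1
      · intro χ _
        rfl
    · show N⁻¹ * _ = _
      rw [← Finset.mul_sum, sum_omega hn hζ q]
      have hq1 : ((Fintype.card F - 1 : ℕ) : ℂ) = q - 1 := by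
        rw [Nat.cast_sub Fintype.card_pos]
        push_cast
        rfl
      rw [hq1]
      have h10 : (q - 1) ^ (2 * g - 1) = (q - 1) ^ (2 * g - 2) * (q - 1) := by
        rw [← pow_succ]
        congr 1
        omega
      rw [h10]
      field_simp

end Vale.Agent.P275.H85
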