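import Mathlib

/-!
# Rigidity: numerical constraints that force a bigraded dimension table to be pure
-/

namespace Vale.Agent.P275.H85

open Finset

/-- The table `h` is concentrated on the line `w + 2 d = 2 m`. -/
theorem rigid_core {ι : Type} (T : Finset ι) (s : ι → ℕ) (D R d M : ℕ) (hD : D = 2 * R)
    (hDM : D = 2 * d + M) (hs : ∀ i ∈ T, s i ≤ M)
    (hsym : ∀ f : ℕ → ℤ, ∑ i ∈ T, f (s i) = ∑ i ∈ T, f (M - s i))
    (h : ℕ → ℕ → ℕ) (H0 : ∀ m w, h m w ≠ 0 → w ≤ 2 * m)
    (H1 : ∀ m, ∑ w ∈ range (2 * m + 1), h m w = (T.filter fun i => m = 2 * d + s i).card)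
    (H2 : ∀ m k w, m + k = R + d → h m w = h (m + 2 * k) (w + 4 * k))
    (H3 : ∀ φ : ℕ → ℤ, ∑ m ∈ range (D + 1), ∑ w ∈ range (2 * m + 1),
        (-1) ^ m * (h m w : ℤ) * φ w = ∑ i ∈ T, (-1) ^ (s i) * φ (2 * d + 2 * s i)) :
    ∀ m w, h m w ≠ 0 → w + 2 * d = 2 * m := by
  classical
  -- box form
  have hbox : ∀ (m : ℕ), m ≤ D → ∀ F : ℕ → ℤ,
      ∑ w ∈ range (2 * m + 1), (h m w : ℤ) * F w = ∑ w ∈ range (2 * D + 1), (h m w : ℤ) * F w := by
    intro m hm F
    apply sum_subset
    · intro w hw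
      simp only [mem_range] at hw ⊢
      omega
    · intro w _ hw
      simp only [mem_range, not_lt] at hw
      have : h m w = 0 := by
        by_contra hne
        have := H0 m w hne
        omega
      simp [this]
  have htot : ∀ m, m ≤ D → ∑ w ∈ range (2 * D + 1), (h m w : ℤ)
      = ∑ i ∈ T, if m = 2 * d + s i then (1 : ℤ) else 0 := by
    intro m hm
    have := hbox m hm (fun _ => 1)
    simp only [mul_one] at this
    rw [← this, ← Nat.cast_sum, H1 m, card_filter]
    push_cast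
    rfl
  have hsupp : ∀ m w, h m w ≠ 0 → 2 * d ≤ m ∧ m ≤ D := by
    intro m w hne
    have hw := H0 m w hne
    have hpos : 0 < ∑ w ∈ range (2 * m + 1), h m w :=
      lt_of_lt_of_le (Nat.pos_of_ne_zero hne)
        (single_le_sum (f := fun w => h m w) (fun _ _ => Nat.zero_le _)
          (mem_range.mpr (by omega)))
    rw [H1 m, card_pos] at hpos
    obtain ⟨i, hi⟩ := hpos
    simp only [mem_filter] at hi
    have := hs i hi.1
    omega
  have H1f : ∀ f : ℕ → ℤ, ∑ m ∈ range (D + 1), ∑ w ∈ range (2 * D + 1), (h m w : ℤ) * f m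
      = ∑ i ∈ T, f (2 * d + s i) := by
    intro f
    have h1 : ∀ m ∈ range (D + 1), ∑ w ∈ range (2 * D + 1), (h m w : ℤ) * f m
        = ∑ i ∈ T, if m = 2 * d + s i then f m else 0 := by
      intro m hm
      rw [← sum_mul, htot m (by simpa [Nat.lt_succ_iff] using hm), sum_mul]
      exact sum_congr rfl fun i _ => by split_ifs <;> simp
    rw [sum_congr rfl h1, sum_comm]
    refine sum_congr rfl fun i hi => ?_
    have := hs i hi
    rw [sum_ite_eq']
    rw [if_pos (mem_range.mpr (by omega))]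
  have H3f : ∀ φ : ℕ → ℤ, ∑ m ∈ range (D + 1), ∑ w ∈ range (2 * D + 1),
        (h m w : ℤ) * ((-1) ^ m * φ w) = ∑ i ∈ T, (-1) ^ (s i) * φ (2 * d + 2 * s i) := by
    intro φ
    rw [← H3 φ]
    refine sum_congr rfl fun m hm => ?_
    rw [← hbox m (by simpa [Nat.lt_succ_iff] using hm) (fun w => (-1) ^ m * φ w)]
    exact sum_congr rfl fun w _ => by ring
  -- the sign
  set ε : ℕ → ℤ := fun w => if Even w then (-1) ^ (w / 2 + d) else 0 with hε
  have hε1 : ∀ t, ε (2 * d + 2 * t) = (-1) ^ t := by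
    intro t
    have he : Even (2 * d + 2 * t) := ⟨d + t, by ring⟩
    simp only [hε, if_pos he]
    have : (2 * d + 2 * t) / 2 + d = 2 * d + t := by omega
    rw [this, pow_add, pow_mul]
    simp
  have hle : ∀ m w, 0 ≤ 1 - (-1) ^ m * ε w := by
    intro m w
    simp only [hε]
    split_ifs
    · rw [← pow_add]
      rcases neg_one_pow_eq_or ℤ (m + (w / 2 + d)) with h1 | h1 <;> rw [h1] <;> norm_num
    · norm_num
  have hpar0 : ∑ m ∈ range (D + 1), ∑ w ∈ range (2 * D + 1),
      (h m w : ℤ) * (1 - (-1) ^ m * ε w) = 0 := by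
    have e1 := H1f (fun _ => 1)
    have e2 := H3f ε
    have e3 : ∑ i ∈ T, (-1 : ℤ) ^ (s i) * ε (2 * d + 2 * s i) = ∑ i ∈ T, (1 : ℤ) := by
      refine sum_congr rfl fun i _ => ?_
      rw [hε1, ← pow_add, ← two_mul, pow_mul]
      simp
    rw [e3] at e2
    have e4 : ∑ m ∈ range (D + 1), ∑ w ∈ range (2 * D + 1),
      (h m w : ℤ) * (1 - (-1) ^ m * ε w)
      = (∑ m ∈ range (D + 1), ∑ w ∈ range (2 * D + 1), (h m w : ℤ) * 1)
        - ∑ m ∈ range (D + 1), ∑ w ∈ range (2 * D + 1), (h m w : ℤ) * ((-1) ^ m * ε w) := by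
      rw [← sum_sub_distrib]
      refine sum_congr rfl fun m _ => ?_
      rw [← sum_sub_distrib]
      exact sum_congr rfl fun w _ => by ring
    rw [e4, e1, e2]
    simp
  have hpar : ∀ m ∈ range (D + 1), ∀ w ∈ range (2 * D + 1),
      (h m w : ℤ) * (1 - (-1) ^ m * ε w) = 0 := by
    intro m hm w hw
    have hn : ∀ m ∈ range (D + 1), 0 ≤ ∑ w ∈ range (2 * D + 1),
        (h m w : ℤ) * (1 - (-1) ^ m * ε w) := fun m _ =>
      sum_nonneg fun w _ => mul_nonneg (by positivity) (hle m w)
    have h1 := (sum_eq_zero_iff_of_nonneg hn).mp hpar0 m hm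
    exact (sum_eq_zero_iff_of_nonneg
      (fun w _ => mul_nonneg (by positivity) (hle m w))).mp h1 w hw
  -- second moments
  have hsec : ∑ m ∈ range (D + 1), ∑ w ∈ range (2 * D + 1),
      (h m w : ℤ) * (((w : ℤ) - 2 * R) ^ 2 - (2 * (m : ℤ) - 2 * R - 2 * d) ^ 2) = 0 := by
    have e1 := H1f (fun m => (2 * (m : ℤ) - 2 * R - 2 * d) ^ 2)
    have e2 := H3f (fun w => ε w * ((w : ℤ) - 2 * R) ^ 2)
    have e3 : ∑ i ∈ T, (-1 : ℤ) ^ (s i) *
        (ε (2 * d + 2 * s i) * (((2 * d + 2 * s i : ℕ) : ℤ) - 2 * R) ^ 2)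
        = ∑ i ∈ T, (2 * ((2 * d + s i : ℕ) : ℤ) - 2 * R - 2 * d) ^ 2 := by
      refine sum_congr rfl fun i _ => ?_
      rw [hε1, ← mul_assoc, ← pow_add, ← two_mul, pow_mul]
      push_cast
      simp only [one_pow, one_mul]
      ring
    have e4 : ∑ m ∈ range (D + 1), ∑ w ∈ range (2 * D + 1),
      (h m w : ℤ) * (((w : ℤ) - 2 * R) ^ 2 - (2 * (m : ℤ) - 2 * R - 2 * d) ^ 2)
      = (∑ m ∈ range (D + 1), ∑ w ∈ range (2 * D + 1),
          (h m w : ℤ) * ((-1) ^ m * (ε w * ((w : ℤ) - 2 * R) ^ 2)))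
        - ∑ m ∈ range (D + 1), ∑ w ∈ range (2 * D + 1),
          (h m w : ℤ) * (2 * (m : ℤ) - 2 * R - 2 * d) ^ 2 := by
      rw [← sum_sub_distrib]
      refine sum_congr rfl fun m hm => ?_
      rw [← sum_sub_distrib]
      refine sum_congr rfl fun w hw => ?_
      have := hpar m hm w hw
      have h2 : (h m w : ℤ) = (h m w : ℤ) * ((-1) ^ m * ε w) := by linarith
      linear_combination (((w : ℤ) - 2 * R) ^ 2) * h2
    rw [e4, e1, e2, e3, sub_self]
  -- symmetry
  set G : ℕ → ℤ := fun m => ∑ w ∈ range (2 * D + 1), (h m w : ℤ) * ((w : ℤ) + 2 * d - 2 * m)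
    with hG
  have hGsym : ∀ m k, m + k = R + d → 2 * d ≤ m → G (m + 2 * k) = G m := by
    intro m k hmk hdm
    have hmD : m + 2 * k ≤ D := by omega
    have hm0 : m ≤ D := by omega
    have hsplit : ∀ X : ℕ → ℤ, ∑ w ∈ range (2 * D + 1), X w
        = ∑ w ∈ range (4 * k), X w + ∑ w ∈ range (2 * D + 1 - 4 * k), X (4 * k + w) := by
      intro X
      rw [← sum_range_add]
      congr 2
      omega
    have hcut : ∀ Y : ℕ → ℤ, ∑ w ∈ range (2 * D + 1 - 4 * k), (h m w : ℤ) * Y w
        = ∑ w ∈ range (2 * D + 1), (h m w : ℤ) * Y w := by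
      intro Y
      apply sum_subset
      · intro w hw
        simp only [mem_range] at hw ⊢
        omega
      · intro w _ hw
        simp only [mem_range, not_lt] at hw
        have : h m w = 0 := by
          by_contra hne
          have := H0 m w hne
          omega
        simp [this]
    have htt : ∑ w ∈ range (2 * D + 1), (h (m + 2 * k) w : ℤ)
        = ∑ w ∈ range (2 * D + 1), (h m w : ℤ) := by
      rw [htot _ hmD, htot _ hm0]
      have := hsym (fun j => if m = 2 * d + j then (1 : ℤ) else 0)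
      rw [this]
      refine sum_congr rfl fun i hi => ?_
      have := hs i hi
      have hiff : (m + 2 * k = 2 * d + s i) ↔ (m = 2 * d + (M - s i)) := by omega
      simp only [hiff]
    have hzero : ∑ w ∈ range (4 * k), (h (m + 2 * k) w : ℤ) = 0 := by
      have e1 := hsplit (fun w => (h (m + 2 * k) w : ℤ))
      have e2 := hcut (fun _ => 1)
      simp only [mul_one] at e2
      have e3 : ∑ w ∈ range (2 * D + 1 - 4 * k), (h (m + 2 * k) (4 * k + w) : ℤ)
          = ∑ w ∈ range (2 * D + 1 - 4 * k), (h m w : ℤ) := by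
        refine sum_congr rfl fun w _ => ?_
        rw [H2 m k w hmk, add_comm (4 * k) w]
      rw [e3, e2, htt] at e1
      linarith
    have hz : ∀ w ∈ range (4 * k), (h (m + 2 * k) w : ℤ) = 0 :=
      (sum_eq_zero_iff_of_nonneg (fun w _ => by positivity)).mp hzero
    simp only [hG]
    rw [hsplit, sum_eq_zero (s := range (4 * k)) (fun w hw => by rw [hz w hw, zero_mul]), zero_add,
      ← hcut]
    refine sum_congr rfl fun w _ => ?_
    rw [add_comm (4 * k) w, ← H2 m k w hmk]
    push_cast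
    ring
  have hcross : ∑ m ∈ range (D + 1), (2 * (m : ℤ) - 2 * R - 2 * d) * G m = 0 := by
    have hDe : D + 1 = 2 * d + (M + 1) := by omega
    rw [hDe, sum_range_add]
    have h1 : ∑ m ∈ range (2 * d), (2 * (m : ℤ) - 2 * R - 2 * d) * G m = 0 := by
      refine sum_eq_zero fun m hm => ?_
      have : G m = 0 := by
        simp only [hG]
        refine sum_eq_zero fun w _ => ?_
        have : h m w = 0 := by
          by_contra hne
          have := hsupp m w hne
          simp only [mem_range] at hm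
          omega
        simp [this]
      rw [this, mul_zero]
    rw [h1, zero_add]
    set X : ℕ → ℤ := fun j => (2 * ((2 * d + j : ℕ) : ℤ) - 2 * R - 2 * d) * G (2 * d + j) with hX
    have hrefl := sum_range_reflect X (M + 1)
    have hneg : ∀ j ∈ range (M + 1), X (M + 1 - 1 - j) = - X j := by
      intro j hj
      simp only [mem_range] at hj
      have hGG : G (2 * d + (M - j)) = G (2 * d + j) := by
        rcases le_total (2 * j) M with hle | hle
        · have := hGsym (2 * d + j) (R + d - (2 * d + j)) (by omega) (by omega)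
          rw [← this]
          congr 1
          omega
        · have := hGsym (2 * d + (M - j)) (R + d - (2 * d + (M - j))) (by omega) (by omega)
          rw [← this]
          congr 1
          omega
      simp only [hX, Nat.add_sub_cancel, hGG]
      have hjM : j ≤ M := by omega
      have hMz : (2 * (R : ℤ)) = 2 * d + M := by exact_mod_cast (by omega : 2 * R = 2 * d + M)
      push_cast [Nat.cast_sub hjM]
      linear_combination (-2 * G (2 * d + j)) * hMz
    rw [sum_congr rfl hneg, sum_neg_distrib] at hrefl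
    have : ∑ j ∈ range (M + 1), X j = 0 := by linarith
    exact this
  have hE : ∑ m ∈ range (D + 1), ∑ w ∈ range (2 * D + 1),
      (h m w : ℤ) * ((w : ℤ) + 2 * d - 2 * m) ^ 2 = 0 := by
    have e : ∑ m ∈ range (D + 1), ∑ w ∈ range (2 * D + 1),
        (h m w : ℤ) * ((w : ℤ) + 2 * d - 2 * m) ^ 2
        = (∑ m ∈ range (D + 1), ∑ w ∈ range (2 * D + 1),
            (h m w : ℤ) * (((w : ℤ) - 2 * R) ^ 2 - (2 * (m : ℤ) - 2 * R - 2 * d) ^ 2))
          - 2 * ∑ m ∈ range (D + 1), (2 * (m : ℤ) - 2 * R - 2 * d) * G m := by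
      rw [mul_sum, ← sum_sub_distrib]
      refine sum_congr rfl fun m _ => ?_
      simp only [hG]
      rw [mul_sum, mul_sum, ← sum_sub_distrib]
      exact sum_congr rfl fun w _ => by ring
    rw [e, hsec, hcross]
    ring
  intro m w hne
  have hm := hsupp m w hne
  have hw := H0 m w hne
  have h1 := (sum_eq_zero_iff_of_nonneg (s := range (D + 1))
    (f := fun m => ∑ w ∈ range (2 * D + 1), (h m w : ℤ) * ((w : ℤ) + 2 * d - 2 * m) ^ 2)
    (fun m _ => sum_nonneg fun w _ => by positivity)).mp hE m (mem_range.mpr (by omega))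
  have h2 := (sum_eq_zero_iff_of_nonneg (s := range (2 * D + 1))
    (f := fun w => (h m w : ℤ) * ((w : ℤ) + 2 * d - 2 * m) ^ 2)
    (fun w _ => by positivity)).mp h1 w (mem_range.mpr (by omega))
  have h3 : ((w : ℤ) + 2 * d - 2 * m) ^ 2 = 0 := by
    rcases mul_eq_zero.mp h2 with h4 | h4
    · exact absurd (by exact_mod_cast h4) hne
    · exact h4
  have h4 : (w : ℤ) + 2 * d - 2 * m = 0 := by
    simpa using h3
  omega

end Vale.Agent.P275.H85
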