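import Mathlib

/-!
# Definitions used in the statement of `KappaWeights`
-/

namespace Vale.Agent.P275.H85

open scoped BigOperators MatrixGroups

/-- The sum of `∏ κ_i (det A_i) κ'_i (det B_i)` over all `(A, B)` in `GL_n(F)^{2g}` with
`[A_1, B_1] ... [A_g, B_g] = ζ`. -/
noncomputable def commSum (F : Type) [Field F] [Fintype F] [DecidableEq F] (n g : ℕ) (ζ : Fˣ)
    (κ κ' : Fin g → (Fˣ →* ℂˣ)) : ℂ :=
  ∑ A : Fin g → GL (Fin n) F, ∑ B : Fin g → GL (Fin n) F,
    if (List.ofFn fun i => A i * B i * (A i)⁻¹ * (B i)⁻¹).prod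
        = Matrix.GeneralLinearGroup.scalar (Fin n) ζ then
      ∏ i, ((κ i (Matrix.GeneralLinearGroup.det (A i)) : ℂˣ) : ℂ) *
        ((κ' i (Matrix.GeneralLinearGroup.det (B i)) : ℂˣ) : ℂ) else 0

/-- The subsets `S` of `{1, ..., n-1} × {1, ..., 2g-2}` such that `n` divides one plus the sum of
the first coordinates of the elements of `S`. -/
def goodSets (n g : ℕ) : Finset (Finset (Fin (n - 1) × Fin (2 * g - 2))) :=
  Finset.univ.filter fun S => n ∣ 1 + ∑ p ∈ S, ((p.1 : ℕ) + 1)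

end Vale.Agent.P275.H85
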