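import Vale.Agent.P275.H85.R2
import Vale.Agent.P275.H85.StDefs
import Vale.Agent.P275.H85.A2
import Vale.Agent.P275.H85.C1
import Vale.Agent.P275.H85.C2
import Vale.Agent.P275.H85.D1Fin
import Vale.Agent.P275.H85.E5

/-!
# The point count and the rigidity of the weights
-/

namespace Vale.Agent.P275.H85

open Finset
open scoped BigOperators MatrixGroups

theorem commSum_eq {F : Type} [Field F] [Fintype F] [DecidableEq F] {n g : ℕ} (hn : 1 ≤ n)
    (hg : 1 ≤ g) (ζ : Fˣ) (hζ : orderOf ζ = n) (κ κ' : Fin g → (Fˣ →* ℂˣ))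
    (hκ : orderOf (fun i => (κ i, κ' i)) = n) (hneg : ∀ i, κ i (-1) = 1 ∧ κ' i (-1) = 1) :
    commSum F n g ζ κ κ'
    = ((Fintype.card F : ℂ) - 1) ^ (2 * g - 1) * (Fintype.card (GL (Fin n) F) : ℂ) *
      ((Fintype.card F : ℂ) ^ (n * (n - 1) * (g - 1)) *
        ∑ S ∈ goodSets n g, (-1) ^ S.card * (Fintype.card F : ℂ) ^ S.card) := by
  refine (count pkgA2 pkgC1 pkgC2 pkgD1 hn hg hζ κ κ' hκ hneg).trans ?_
  rw [goodSets, sum_filter]
  ring

theorem neg_one_of_pow {F : Type} [Field F] [Fintype F] {n : ℕ}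
    (hq : 2 * n ∣ Fintype.card F - 1) (κ : Fˣ →* ℂˣ) (hκ : κ ^ n = 1) : κ (-1) = 1 := by
  classical
  obtain ⟨γ, hγ⟩ := IsCyclic.exists_generator (α := Fˣ)
  obtain ⟨j, hj⟩ := (mem_powers_iff_mem_zpowers (x := γ) (y := (-1 : Fˣ))).mpr (hγ (-1))
  have h1 : γ ^ (2 * j) = 1 := by
    rw [mul_comm, pow_mul]
    rw [show γ ^ j = -1 from hj]
    simp
  have h2 : orderOf γ = Fintype.card F - 1 := by
    rw [orderOf_eq_card_of_forall_mem_zpowers hγ, Nat.card_eq_fintype_card, Fintype.card_units]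
  have h3 : 2 * n ∣ 2 * j := dvd_trans hq (h2 ▸ orderOf_dvd_of_pow_eq_one h1)
  have h4 : n ∣ j := Nat.dvd_of_mul_dvd_mul_left (by norm_num) h3
  obtain ⟨t, rfl⟩ := h4
  rw [← show γ ^ (n * t) = -1 from hj, map_pow, pow_mul, ← MonoidHom.pow_apply, hκ]
  simp

theorem rigidity {n g : ℕ} (hn : 1 ≤ n) (hg : 1 ≤ g) (h : ℕ → ℕ → ℕ)
    (H0 : ∀ m w, h m w ≠ 0 → w ≤ 2 * m)
    (H1 : ∀ m, ∑ w ∈ range (2 * m + 1), h m w
      = ((goodSets n g).filter fun S => m = 2 * (n * (n - 1) * (g - 1)) + S.card).card)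
    (H2 : ∀ m k w, m + k = (n ^ 2 - 1) * (g - 1) + n * (n - 1) * (g - 1) →
      h m w = h (m + 2 * k) (w + 4 * k))
    (H3 : ∀ (F : Type) [Field F] [Fintype F] [DecidableEq F], 2 * n ∣ Fintype.card F - 1 →
      ∃ (ζ : Fˣ) (κ κ' : Fin g → (Fˣ →* ℂˣ)), orderOf ζ = n ∧
        orderOf (fun i => (κ i, κ' i)) = n ∧
        commSum F n g ζ κ κ'
          = ((Fintype.card F : ℂ) - 1) ^ (2 * g - 1) * (Fintype.card (GL (Fin n) F) : ℂ) *
            ∑ m ∈ range (2 * ((n ^ 2 - 1) * (g - 1)) + 1), ∑ w ∈ range (2 * m + 1),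
              (-1) ^ m * (h m w : ℂ) *
                ((Real.sqrt (Fintype.card F) : ℝ) : ℂ) ^ (4 * ((n ^ 2 - 1) * (g - 1)) - w)) :
    ∀ m w, h m w ≠ 0 → w + 2 * (n * (n - 1) * (g - 1)) = 2 * m := by
  classical
  set R := (n ^ 2 - 1) * (g - 1) with hR
  set d := n * (n - 1) * (g - 1) with hd
  set M := (n - 1) * (2 * g - 2) with hM
  have hDM : 2 * R = 2 * d + M := by
    obtain ⟨a, rfl⟩ : ∃ a, n = a + 1 := ⟨n - 1, by omega⟩
    obtain ⟨b, rfl⟩ : ∃ b, g = b + 1 := ⟨g - 1, by omega⟩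
    have e1 : (a + 1) ^ 2 - 1 = a ^ 2 + 2 * a := by
      have : (a + 1) ^ 2 = a ^ 2 + 2 * a + 1 := by ring
      omega
    have e2 : 2 * (b + 1) - 2 = 2 * b := by omega
    simp only [hR, hd, hM, e1, e2, Nat.add_sub_cancel]
    ring
  have hMe : Even M := by
    refine ⟨(n - 1) * (g - 1), ?_⟩
    have : 2 * g - 2 = 2 * (g - 1) := by omega
    rw [hM, this]
    ring
  have hs : ∀ S ∈ goodSets n g, S.card ≤ M := fun S _ => by
    simpa [Fintype.card_prod, hM] using S.card_le_univ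
  have hsym : ∀ f : ℕ → ℤ, ∑ S ∈ goodSets n g, f S.card
      = ∑ S ∈ goodSets n g, f (M - S.card) := fun f => flip_sum hn f
  -- the polynomial identity
  set I : Finset ((_ : ℕ) × ℕ) := (range (2 * R + 1)).sigma (fun m => range (2 * m + 1)) with hI
  have hpoly : ∑ x ∈ I, Polynomial.monomial (4 * R - x.2)
        ((((-1) ^ x.1 * (h x.1 x.2 : ℤ) : ℤ)) : ℂ)
      = ∑ S ∈ goodSets n g, Polynomial.monomial (2 * d + 2 * S.card)
        ((((-1) ^ S.card : ℤ)) : ℂ) := by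
    apply poly_eq_of_primes (k := 2 * n) (by omega)
    intro p hp hp1
    have : Fact p.Prime := ⟨hp⟩
    have hcard : Fintype.card (ZMod p) = p := ZMod.card p
    have hdiv : 2 * n ∣ Fintype.card (ZMod p) - 1 := by
      rw [hcard]
      exact (Nat.modEq_iff_dvd' hp.one_le).mp hp1.symm
    obtain ⟨ζ, κ, κ', hζ, hκ, hc⟩ := H3 (ZMod p) hdiv
    have hpow : (fun i => (κ i, κ' i)) ^ n = 1 := by
      rw [← hκ]
      exact pow_orderOf_eq_one _
    have hneg : ∀ i, κ i (-1) = 1 ∧ κ' i (-1) = 1 := by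
      intro i
      have h1 := congrFun hpow i
      have h2 : (κ i) ^ n = 1 := congrArg Prod.fst h1
      have h3 : (κ' i) ^ n = 1 := congrArg Prod.snd h1
      exact ⟨neg_one_of_pow hdiv _ h2, neg_one_of_pow hdiv _ h3⟩
    rw [commSum_eq hn hg ζ hζ κ κ' hκ hneg] at hc
    have hp2 : (1 : ℝ) < p := by exact_mod_cast hp.one_lt
    have hne : ((Fintype.card (ZMod p) : ℂ) - 1) ^ (2 * g - 1) *
        (Fintype.card (GL (Fin n) (ZMod p)) : ℂ) ≠ 0 := by
      apply mul_ne_zero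
      · apply pow_ne_zero
        rw [hcard, sub_ne_zero]
        exact_mod_cast hp.one_lt.ne'
      · exact_mod_cast Fintype.card_ne_zero
    have hc' := mul_left_cancel₀ hne hc
    rw [hcard] at hc'
    simp only [Polynomial.eval_finsetSum, Polynomial.eval_monomial]
    have hsq : ((Real.sqrt p : ℝ) : ℂ) ^ 2 = (p : ℂ) := by
      have : (Real.sqrt p) ^ 2 = (p : ℝ) := Real.sq_sqrt (by positivity)
      exact_mod_cast congrArg (fun x : ℝ => (x : ℂ)) this
    rw [hI, sum_sigma]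
    push_cast
    rw [← hc', mul_sum]
    refine sum_congr rfl fun S _ => ?_
    have e : ((Real.sqrt p : ℝ) : ℂ) ^ (2 * d + 2 * S.card) = (p : ℂ) ^ d * (p : ℂ) ^ S.card := by
      rw [← mul_add, pow_mul, hsq, pow_add]
    rw [e]
    ring
  refine rigid_core (goodSets n g) (fun S => S.card) (2 * R) R d M rfl hDM hs hsym h H0 H1 H2 ?_
  intro φ
  have h1 := functional_eq I (goodSets n g) _ _ _ _ hpoly (fun e => φ (4 * R - e))
  rw [hI, sum_sigma] at h1
  have h2 : ∀ m ∈ range (2 * R + 1), ∀ w ∈ range (2 * m + 1), 4 * R - (4 * R - w) = w := by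
    intro m hm w hw
    simp only [mem_range] at hm hw
    omega
  have h3 := hsym (fun j => (-1) ^ j * φ (2 * d + 2 * j))
  rw [h3]
  rw [show ∑ S ∈ goodSets n g, (-1 : ℤ) ^ (M - S.card) * φ (2 * d + 2 * (M - S.card))
      = ∑ S ∈ goodSets n g, (-1 : ℤ) ^ S.card * φ (4 * R - (2 * d + 2 * S.card)) from ?_]
  · rw [← h1]
    refine sum_congr rfl fun m hm => sum_congr rfl fun w hw => ?_
    rw [h2 m hm w hw]
  · refine sum_congr rfl fun S hS => ?_
    have hSM := hs S hS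
    have e1 : 2 * d + 2 * (M - S.card) = 4 * R - (2 * d + 2 * S.card) := by omega
    have e2 : (-1 : ℤ) ^ (M - S.card) = (-1) ^ S.card := by
      have : (-1 : ℤ) ^ (M - S.card) * (-1) ^ S.card = 1 := by
        rw [← pow_add, Nat.sub_add_cancel hSM, hMe.neg_one_pow]
      rcases neg_one_pow_eq_or ℤ S.card with h4 | h4 <;> rw [h4] at this ⊢ <;> linarith
    rw [e1, e2]

theorem table_of_line {h : ℕ → ℕ → ℕ} {d : ℕ} {c : ℕ → ℕ}
    (H0 : ∀ m w, h m w ≠ 0 → w ≤ 2 * m)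
    (H1 : ∀ m, ∑ w ∈ range (2 * m + 1), h m w = c m)
    (hl : ∀ m w, h m w ≠ 0 → w + 2 * d = 2 * m) (m w : ℕ) :
    h m w = if w + 2 * d = 2 * m then c m else 0 := by
  split_ifs with hw
  · rw [← H1 m]
    symm
    refine sum_eq_single w (fun w' _ hne => ?_) (fun hnot => ?_)
    · by_contra h0
      have := hl m w' h0
      omega
    · by_contra h0
      exact hnot (mem_range.mpr (by have := H0 m w h0; omega))
  · by_contra h0
    exact hw (hl m w h0)

end Vale.Agent.P275.H85
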